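import Vale.Agent.P226.Density
import Vale.Agent.P074.PL

/-!
# P226, Step 3 : log-concavity bound `‖z i‖² < 2 p_i²`
-/

open MeasureTheory ProbabilityTheory Real
open scoped RealInnerProductSpace ENNReal

namespace P226

variable {V : Type*} [NormedAddCommGroup V] [InnerProductSpace ℝ V] [FiniteDimensional ℝ V]
  [MeasurableSpace V] [BorelSpace V] {k : ℕ}

/-! ### midpoint log-concavity of the Gaussian measure -/

lemma plprop_V : P074.PLProp V := by
  refine P074.pl_transport (stdOrthonormalBasis ℝ V).measurableEquiv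
    (stdOrthonormalBasis ℝ V).measurePreserving_measurableEquiv ?_
    (Y := EuclideanSpace ℝ (Fin (Module.finrank ℝ V))) ?_
  · intro x y
    show (stdOrthonormalBasis ℝ V).repr ((1 / 2 : ℝ) • (x + y)) = (1 / 2 : ℝ) •
      ((stdOrthonormalBasis ℝ V).repr x + (stdOrthonormalBasis ℝ V).repr y)
    rw [map_smul, map_add]
  · intro f g h hf hg hh H
    exact P074.prekopa_leindler f g h hf hg hh H

omit [FiniteDimensional ℝ V] [MeasurableSpace V] [BorelSpace V] in
lemma gden_mid (x y : V) : gden x * gden y ≤ gden ((1 / 2 : ℝ) • (x + y)) ^ 2 := by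
  unfold gden
  have h1 : ‖(1 / 2 : ℝ) • (x + y)‖ ^ 2 = (1 / 4) * ‖x + y‖ ^ 2 := by
    rw [norm_smul, mul_pow]
    norm_num
  have h2 : ‖x + y‖ ^ 2 + ‖x - y‖ ^ 2 = 2 * (‖x‖ ^ 2 + ‖y‖ ^ 2) := by
    have := parallelogram_law_with_norm ℝ x y
    nlinarith [this]
  have h3 : exp (-‖x‖ ^ 2 / 2) * exp (-‖y‖ ^ 2 / 2) ≤
      exp (-‖(1 / 2 : ℝ) • (x + y)‖ ^ 2 / 2) ^ 2 := by
    rw [← Real.exp_add, ← Real.exp_nat_mul, h1]
    apply Real.exp_le_exp.mpr
    push_cast
    nlinarith [sq_nonneg ‖x - y‖]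
  have h4 : 0 ≤ ((2 * π) ^ (-(Module.finrank ℝ V / 2 : ℝ))) ^ 2 := by positivity
  calc _ = ((2 * π) ^ (-(Module.finrank ℝ V / 2 : ℝ))) ^ 2 *
        (exp (-‖x‖ ^ 2 / 2) * exp (-‖y‖ ^ 2 / 2)) := by ring
    _ ≤ ((2 * π) ^ (-(Module.finrank ℝ V / 2 : ℝ))) ^ 2 *
        exp (-‖(1 / 2 : ℝ) • (x + y)‖ ^ 2 / 2) ^ 2 := mul_le_mul_of_nonneg_left h3 h4
    _ = _ := by ring

theorem gauss_mid {A B M : Set V} (hA : MeasurableSet A) (hB : MeasurableSet B)
    (hM : MeasurableSet M) (H : ∀ x ∈ A, ∀ y ∈ B, (1 / 2 : ℝ) • (x + y) ∈ M) :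
    stdGaussian V A * stdGaussian V B ≤ stdGaussian V M ^ 2 := by
  have key : ∀ S : Set V, MeasurableSet S → stdGaussian V S =
      ∫⁻ x, S.indicator (fun x => ENNReal.ofReal (gden x)) x := by
    intro S hS
    rw [stdGaussian_eq_withDensity, withDensity_apply _ hS, lintegral_indicator hS]
  rw [key A hA, key B hB, key M hM]
  refine plprop_V _ _ _ (measurable_gden.ennreal_ofReal.indicator hA)
    (measurable_gden.ennreal_ofReal.indicator hB)
    (measurable_gden.ennreal_ofReal.indicator hM) fun x y => ?_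
  by_cases hx : x ∈ A
  · by_cases hy : y ∈ B
    · rw [Set.indicator_of_mem hx, Set.indicator_of_mem hy, Set.indicator_of_mem (H x hx y hy),
        ← ENNReal.ofReal_mul (gden_pos x).le, ← ENNReal.ofReal_pow (gden_pos _).le]
      exact ENNReal.ofReal_le_ofReal (gden_mid x y)
    · rw [Set.indicator_of_notMem hy]
      simp
  · rw [Set.indicator_of_notMem hx]
    simp

/-! ### the dual vector `e_i` -/

omit [FiniteDimensional ℝ V] [MeasurableSpace V] [BorelSpace V] in
lemma laplace (z : Fin k → V) (hsum : ∑ i, z i = 0) (x : Fin k → ℝ) :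
    ∑ j, ∑ l, (-⟪z j, z l⟫) * (x j - x l) ^ 2 = 2 * ‖∑ j, x j • z j‖ ^ 2 := by
  have h1 : ∀ j, ∑ l, ⟪z j, z l⟫ = 0 := by
    intro j
    rw [← inner_sum, hsum, inner_zero_right]
  have h2 : ‖∑ j, x j • z j‖ ^ 2 = ∑ j, ∑ l, x j * x l * ⟪z j, z l⟫ := by
    rw [← real_inner_self_eq_norm_sq, sum_inner]
    refine Finset.sum_congr rfl fun j _ => ?_
    rw [inner_sum]
    refine Finset.sum_congr rfl fun l _ => ?_
    rw [real_inner_smul_left, real_inner_smul_right]
    ring
  have h3 : ∀ j, ∑ l, (-⟪z j, z l⟫) * (x j - x l) ^ 2 =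
      -x j ^ 2 * ∑ l, ⟪z j, z l⟫ + 2 * ∑ l, x j * x l * ⟪z j, z l⟫
        - ∑ l, x l ^ 2 * ⟪z j, z l⟫ := by
    intro j
    rw [Finset.mul_sum, Finset.mul_sum, ← Finset.sum_add_distrib, ← Finset.sum_sub_distrib]
    refine Finset.sum_congr rfl fun l _ => ?_
    ring
  have h4 : ∑ j, ∑ l, x l ^ 2 * ⟪z j, z l⟫ = 0 := by
    rw [Finset.sum_comm]
    refine Finset.sum_eq_zero fun l _ => ?_
    rw [← Finset.mul_sum]
    have : ∑ j, ⟪z j, z l⟫ = 0 := by
      rw [← sum_inner, hsum, inner_zero_left]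
    rw [this, mul_zero]
  simp_rw [h3, h1, mul_zero, zero_add]
  rw [Finset.sum_sub_distrib, h4, sub_zero, ← Finset.mul_sum, h2]

omit [FiniteDimensional ℝ V] [MeasurableSpace V] [BorelSpace V] in
lemma eq_of_comb_zero {z : Fin k → V} (hneg : ∀ i j, i ≠ j → ⟪z i, z j⟫ < 0)
    (hsum : ∑ i, z i = 0) (x : Fin k → ℝ) (hx : ∑ j, x j • z j = 0) (j l : Fin k) :
    x j = x l := by
  rcases eq_or_ne j l with rfl | hjl
  · rfl
  have h := laplace z hsum x
  rw [hx, norm_zero] at h
  have hnn : ∀ j l : Fin k, 0 ≤ (-⟪z j, z l⟫) * (x j - x l) ^ 2 := by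
    intro j l
    rcases eq_or_ne j l with rfl | hjl
    · simp
    · exact mul_nonneg (by linarith [hneg j l hjl]) (sq_nonneg _)
  have h0 : ∑ j, ∑ l, (-⟪z j, z l⟫) * (x j - x l) ^ 2 = 0 := by rw [h]; ring
  rw [Finset.sum_eq_zero_iff_of_nonneg (fun j _ => Finset.sum_nonneg fun l _ => hnn j l)] at h0
  have h1 := h0 j (Finset.mem_univ j)
  rw [Finset.sum_eq_zero_iff_of_nonneg (fun l _ => hnn j l)] at h1
  have h2 := h1 l (Finset.mem_univ l)
  have h3 : (x j - x l) ^ 2 = 0 := by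
    rcases mul_eq_zero.mp h2 with h | h
    · exact absurd h (by linarith [hneg j l hjl])
    · exact h
  have h4 : x j - x l = 0 := by simpa using h3
  linarith

omit [MeasurableSpace V] [BorelSpace V] in
lemma exists_dual {z : Fin k → V} (hneg : ∀ i j, i ≠ j → ⟪z i, z j⟫ < 0)
    (hsum : ∑ i, z i = 0) (hk : 2 ≤ k) (i : Fin k) :
    ∃ e : V, ∀ j, j ≠ i → ⟪z i - z j, e⟫ = 1 := by
  classical
  let v : {j : Fin k // j ≠ i} → V := fun j => z i - z j
  have hli : LinearIndependent ℝ v := by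
    rw [Fintype.linearIndependent_iff]
    intro c hc j₀
    let x : Fin k → ℝ := fun j => if h : j = i then ∑ l, c l else -c ⟨j, h⟩
    have hxi : x i = ∑ l, c l := by simp [x]
    have hxj : ∀ j : {j : Fin k // j ≠ i}, x j = -c j := by
      intro j
      simp only [x]
      rw [dif_neg j.2]
    have hx : ∑ j, x j • z j = 0 := by
      rw [← Finset.add_sum_erase _ _ (Finset.mem_univ i), hxi]
      have h1 : ∑ j ∈ Finset.univ.erase i, x j • z j =
          ∑ j : {j : Fin k // j ≠ i}, x j • z j := by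
        refine (Finset.sum_subtype _ (fun j => ?_) _)
        simp
      rw [h1]
      have h2 : ∑ j : {j : Fin k // j ≠ i}, x j • z j = -∑ j, c j • z j.1 := by
        rw [← Finset.sum_neg_distrib]
        refine Finset.sum_congr rfl fun j _ => ?_
        rw [hxj, neg_smul]
      rw [h2, Finset.sum_smul, ← sub_eq_add_neg, ← Finset.sum_sub_distrib, ← hc]
      refine Finset.sum_congr rfl fun j _ => ?_
      rw [← smul_sub]
    have hall := eq_of_comb_zero hneg hsum x hx
    have h5 : ∀ j : {j : Fin k // j ≠ i}, c j = -∑ l, c l := by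
      intro j
      have := hall j i
      rw [hxj, hxi] at this
      linarith
    have h6 : ∑ l, c l = -((k : ℝ) - 1) * ∑ l, c l := by
      conv_lhs => rw [Finset.sum_congr rfl fun j _ => h5 j]
      rw [Finset.sum_const, Finset.card_univ, Fintype.card_subtype_compl, Fintype.card_fin,
        Fintype.card_subtype_eq, nsmul_eq_mul, Nat.cast_sub (by omega)]
      push_cast
      ring
    have h7 : (k : ℝ) * ∑ l, c l = 0 := by linarith
    have h8 : ∑ l, c l = 0 := by
      rcases mul_eq_zero.mp h7 with h | h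
      · exfalso
        have : (2 : ℝ) ≤ k := by exact_mod_cast hk
        linarith
      · exact h
    rw [h5 j₀, h8, neg_zero]
  let b := Module.Basis.span hli
  obtain ⟨g, hg⟩ := (b.constr ℝ (fun _ => (1 : ℝ))).exists_extend
  refine ⟨(InnerProductSpace.toDual ℝ V).symm (LinearMap.toContinuousLinearMap g), fun j hj => ?_⟩
  rw [real_inner_comm, InnerProductSpace.toDual_symm_apply]
  have h1 : v ⟨j, hj⟩ = (b ⟨j, hj⟩ : V) := by
    rw [Module.Basis.span_apply]
  show g (v ⟨j, hj⟩) = 1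
  rw [h1]
  have h2 : g (b ⟨j, hj⟩ : V) = (g ∘ₗ (Submodule.span ℝ (Set.range v)).subtype) (b ⟨j, hj⟩) := rfl
  rw [h2, hg, Module.Basis.constr_basis]

omit [FiniteDimensional ℝ V] [MeasurableSpace V] [BorelSpace V] in
lemma dual_inner {z : Fin k → V} (hsum : ∑ i, z i = 0) (hk : 2 ≤ k) (i : Fin k) {e : V}
    (he : ∀ j, j ≠ i → ⟪z i - z j, e⟫ = 1) : ⟪z i, e⟫ = ((k : ℝ) - 1) / k := by
  have hk' : (2 : ℝ) ≤ k := by exact_mod_cast hk
  have h1 : ∑ j ∈ Finset.univ.erase i, ⟪z i - z j, e⟫ = (k : ℝ) - 1 := by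
    rw [Finset.sum_congr rfl fun j hj => he j (Finset.ne_of_mem_erase hj), Finset.sum_const,
      Finset.card_erase_of_mem (Finset.mem_univ i), Finset.card_univ, Fintype.card_fin,
      nsmul_eq_mul, Nat.cast_sub (by omega)]
    simp
  have h2 : ∑ j ∈ Finset.univ.erase i, ⟪z i - z j, e⟫ = ∑ j, ⟪z i - z j, e⟫ := by
    rw [← Finset.add_sum_erase _ _ (Finset.mem_univ i)]
    simp
  rw [h2, ← sum_inner, Finset.sum_sub_distrib, hsum, sub_zero, Finset.sum_const,
    Finset.card_univ, Fintype.card_fin, ← Nat.cast_smul_eq_nsmul ℝ, real_inner_smul_left] at h1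
  rw [eq_div_iff (by positivity)]
  linarith

/-! ### the sets `{X_i - M_{-i} ≥ t}` -/

/-- `{x : X_i - X_j ≥ t for all j ≠ i}`. -/
def Kset (z : Fin k → V) (i : Fin k) (t : ℝ) : Set V :=
  {x | ∀ j, j ≠ i → t ≤ ⟪x, z i⟫ - ⟪x, z j⟫}

omit [FiniteDimensional ℝ V] in
lemma measurableSet_Kset (z : Fin k → V) (i : Fin k) (t : ℝ) : MeasurableSet (Kset z i t) := by
  have : Kset z i t = ⋂ j, {x | j ≠ i → t ≤ ⟪x, z i⟫ - ⟪x, z j⟫} := by
    ext x; simp [Kset]
  rw [this]
  refine MeasurableSet.iInter fun j => ?_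
  by_cases hj : j = i
  · simp [hj]
  · simp only [hj, ne_eq, not_false_eq_true, forall_const]
    exact measurableSet_le measurable_const (by fun_prop)

omit [FiniteDimensional ℝ V] in
lemma measurableSet_cell (z : Fin k → V) (i : Fin k) : MeasurableSet (cell z i) := by
  have : cell z i = ⋂ j, {x | ⟪x, z j⟫ ≤ ⟪x, z i⟫} := by
    ext x; simp [cell]
  rw [this]
  exact MeasurableSet.iInter fun j => measurableSet_le (by fun_prop) (by fun_prop)

omit [FiniteDimensional ℝ V] [MeasurableSpace V] [BorelSpace V] in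
lemma Kset_zero (z : Fin k → V) (i : Fin k) : Kset z i 0 = cell z i := by
  ext x
  constructor
  · intro hx j
    rcases eq_or_ne j i with rfl | hj
    · exact le_rfl
    · linarith [hx j hj]
  · intro hx j _
    linarith [hx j]

omit [FiniteDimensional ℝ V] [MeasurableSpace V] [BorelSpace V] in
lemma Kset_shift (z : Fin k → V) (i : Fin k) {e : V}
    (he : ∀ j, j ≠ i → ⟪z i - z j, e⟫ = 1) (t : ℝ) :
    Kset z i t = {x | x - t • e ∈ cell z i} := by
  ext x
  have h : ∀ j, j ≠ i → ⟪x - t • e, z i⟫ - ⟪x - t • e, z j⟫ = ⟪x, z i⟫ - ⟪x, z j⟫ - t := by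
    intro j hj
    have h1 := he j hj
    rw [inner_sub_left] at h1
    rw [inner_sub_left, inner_sub_left, real_inner_smul_left, real_inner_smul_left,
      real_inner_comm (z i) e, real_inner_comm (z j) e]
    linear_combination (-t) * h1
  constructor
  · intro hx j
    rcases eq_or_ne j i with rfl | hj
    · exact le_rfl
    · linarith [hx j hj, h j hj]
  · intro hx j hj
    linarith [hx j, h j hj]

lemma Kset_mid (z : Fin k → V) (i : Fin k) (s t : ℝ) :
    (stdGaussian V).real (Kset z i s) * (stdGaussian V).real (Kset z i t) ≤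
      (stdGaussian V).real (Kset z i ((s + t) / 2)) ^ 2 := by
  have h := gauss_mid (measurableSet_Kset z i s) (measurableSet_Kset z i t)
    (measurableSet_Kset z i ((s + t) / 2)) (by
      intro x hx y hy j hj
      rw [real_inner_smul_left, real_inner_smul_left, inner_add_left, inner_add_left]
      have h1 := hx j hj
      have h2 := hy j hj
      linarith)
  have h' := ENNReal.toReal_mono (ENNReal.pow_ne_top (measure_ne_top _ _)) h
  rw [ENNReal.toReal_mul, ENNReal.toReal_pow] at h'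
  exact h'

/-! ### integrability -/

lemma integrable_exp_inner (e : V) : Integrable (fun x : V => exp ⟪x, e⟫) (stdGaussian V) := by
  have h := lintegral_cm (-e) (f := fun _ : V => (1 : ℝ≥0∞)) measurable_const
  simp only [lintegral_const, measure_univ, mul_one, one_mul, inner_neg_right, neg_neg,
    norm_neg] at h
  have h1 : Integrable (fun x : V => exp (⟪x, e⟫ - ‖e‖ ^ 2 / 2)) (stdGaussian V) := by
    refine ⟨by fun_prop, ?_⟩
    rw [hasFiniteIntegral_iff_ofReal (Filter.Eventually.of_forall fun x => (exp_pos _).le), ← h]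
    exact ENNReal.one_lt_top
  have h2 := h1.const_mul (exp (‖e‖ ^ 2 / 2))
  refine h2.congr (Filter.Eventually.of_forall fun x => ?_)
  simp only
  rw [← Real.exp_add]
  congr 1
  ring

lemma exp_le_quad (u : ℝ) : exp u ≤ 1 + u + u ^ 2 * exp |u| := by
  have h1 : 1 ≤ exp |u| := Real.one_le_exp (abs_nonneg u)
  rcases le_or_gt |u| 1 with h | h
  · have h2 := Real.abs_exp_sub_one_sub_id_le h
    have h3 := (abs_le.mp h2).2
    nlinarith [sq_nonneg u]
  · rcases le_or_gt 0 u with h0 | h0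
    · rw [abs_of_nonneg h0] at h ⊢
      have : 1 ≤ u ^ 2 := by nlinarith
      nlinarith [exp_pos u]
    · rw [abs_of_neg h0] at h
      have h4 : exp u ≤ 1 := Real.exp_le_one_iff.mpr h0.le
      have h5 : 0 ≤ u ^ 2 + u := by nlinarith
      nlinarith [sq_nonneg u]

lemma integrable_quad (e : V) :
    Integrable (fun x : V => ⟪x, e⟫ ^ 2 * exp |⟪x, e⟫|) (stdGaussian V) := by
  have h1 := (integrable_exp_inner (2 • e)).add (integrable_exp_inner (-(2 • e)))
  refine (h1.const_mul 2).mono' (by fun_prop) (Filter.Eventually.of_forall fun x => ?_)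
  rw [Real.norm_of_nonneg (by positivity)]
  simp only [Pi.add_apply, inner_neg_right]
  set a := ⟪x, e⟫ with ha
  have h2 : ⟪x, 2 • e⟫ = 2 * a := by
    rw [two_smul, inner_add_right, ← ha]; ring
  rw [h2]
  have h3 : a ^ 2 ≤ 2 * exp |a| := by
    have := Real.quadratic_le_exp_of_nonneg (abs_nonneg a)
    nlinarith [abs_nonneg a, sq_abs a]
  have h4 : a ^ 2 * exp |a| ≤ 2 * exp (2 * |a|) := by
    rw [two_mul |a|, Real.exp_add]
    nlinarith [exp_pos |a|]
  have h5 : exp (2 * |a|) ≤ exp (2 * a) + exp (-(2 * a)) := by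
    rcases abs_cases a with ⟨h, _⟩ | ⟨h, _⟩
    · rw [h]; linarith [exp_pos (-(2 * a))]
    · rw [h, mul_neg]; linarith [exp_pos (2 * a)]
  linarith

lemma integrable_inner (e : V) : Integrable (fun x : V => ⟪x, e⟫) (stdGaussian V) := by
  have h := (IsGaussian.integrable_id (μ := stdGaussian V)).const_inner (𝕜 := ℝ) e
  refine h.congr (Filter.Eventually.of_forall fun x => ?_)
  simp only [id, real_inner_comm]

lemma inner_mom (A : Set V) (e : V) : ⟪mom A, e⟫ = ∫ x in A, ⟪x, e⟫ ∂(stdGaussian V) := by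
  unfold mom
  have h := integral_inner (𝕜 := ℝ)
    (IsGaussian.integrable_id (μ := stdGaussian V)).restrict (μ := (stdGaussian V).restrict A) e
  simp only [id] at h
  rw [real_inner_comm, ← h]
  refine integral_congr_ae (Filter.Eventually.of_forall fun x => ?_)
  exact real_inner_comm _ _

/-! ### the derivative bound -/

lemma h_quad {z : Fin k → V} (i : Fin k) {e : V}
    (he : ∀ j, j ≠ i → ⟪z i - z j, e⟫ = 1) {s : ℝ} (hs0 : 0 ≤ s) (hs1 : s ≤ 1) :
    (stdGaussian V).real (Kset z i s) ≤ pm z i - s * ⟪mom (cell z i), e⟫ +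
      s ^ 2 * ∫ x in cell z i, ⟪x, e⟫ ^ 2 * exp |⟪x, e⟫| ∂(stdGaussian V) := by
  have hmeas := measurableSet_cell z i
  have hint : Integrable (fun x : V => 1 - s * ⟪x, e⟫ + s ^ 2 * (⟪x, e⟫ ^ 2 * exp |⟪x, e⟫|))
      ((stdGaussian V).restrict (cell z i)) :=
    (((integrable_const _).sub ((integrable_inner e).const_mul s)).add
      ((integrable_quad e).const_mul _)).restrict
  have hnn : ∀ x : V, exp (-⟪x, s • e⟫ - ‖s • e‖ ^ 2 / 2) ≤
      1 - s * ⟪x, e⟫ + s ^ 2 * (⟪x, e⟫ ^ 2 * exp |⟪x, e⟫|) := by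
    intro x
    have h1 := exp_le_quad (-(s * ⟪x, e⟫))
    have h2 : exp (-⟪x, s • e⟫ - ‖s • e‖ ^ 2 / 2) ≤ exp (-(s * ⟪x, e⟫)) := by
      apply Real.exp_le_exp.mpr
      rw [real_inner_smul_right]
      nlinarith [sq_nonneg ‖s • e‖]
    have h3 : exp |(-(s * ⟪x, e⟫))| ≤ exp |⟪x, e⟫| := by
      apply Real.exp_le_exp.mpr
      rw [abs_neg, abs_mul, abs_of_nonneg hs0]
      nlinarith [abs_nonneg ⟪x, e⟫]
    have h4 : (-(s * ⟪x, e⟫)) ^ 2 * exp |(-(s * ⟪x, e⟫))| ≤
        s ^ 2 * (⟪x, e⟫ ^ 2 * exp |⟪x, e⟫|) := by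
      calc (-(s * ⟪x, e⟫)) ^ 2 * exp |(-(s * ⟪x, e⟫))|
          ≤ (-(s * ⟪x, e⟫)) ^ 2 * exp |⟪x, e⟫| := mul_le_mul_of_nonneg_left h3 (sq_nonneg _)
        _ = _ := by ring
    linarith
  have h5 : (stdGaussian V).real (Kset z i s) ≤
      ∫ x in cell z i, (1 - s * ⟪x, e⟫ + s ^ 2 * (⟪x, e⟫ ^ 2 * exp |⟪x, e⟫|))
        ∂(stdGaussian V) := by
    rw [measureReal_def, Kset_shift z i he, measure_cm _ hmeas]
    rw [integral_eq_lintegral_of_nonneg_ae
      (Filter.Eventually.of_forall fun x => (exp_pos _).le.trans (hnn x)) hint.1]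
    refine ENNReal.toReal_mono ?_ (lintegral_mono fun x => ENNReal.ofReal_le_ofReal (hnn x))
    have := hint.2
    rw [hasFiniteIntegral_iff_ofReal
      (Filter.Eventually.of_forall fun x => (exp_pos _).le.trans (hnn x))] at this
    exact this.ne
  refine h5.trans (le_of_eq ?_)
  have hi1 : Integrable (fun x : V => ⟪x, e⟫) ((stdGaussian V).restrict (cell z i)) :=
    (integrable_inner e).restrict
  have hi2 : Integrable (fun x : V => ⟪x, e⟫ ^ 2 * exp |⟪x, e⟫|)
      ((stdGaussian V).restrict (cell z i)) := (integrable_quad e).restrict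
  have e1 : ∫ x in cell z i, (1 - s * ⟪x, e⟫ + s ^ 2 * (⟪x, e⟫ ^ 2 * exp |⟪x, e⟫|))
        ∂(stdGaussian V) = (∫ x in cell z i, (1 - s * ⟪x, e⟫) ∂(stdGaussian V)) +
        ∫ x in cell z i, s ^ 2 * (⟪x, e⟫ ^ 2 * exp |⟪x, e⟫|) ∂(stdGaussian V) :=
    integral_add (f := fun x : V => 1 - s * ⟪x, e⟫)
      (g := fun x : V => s ^ 2 * (⟪x, e⟫ ^ 2 * exp |⟪x, e⟫|))
      ((integrable_const _).sub (hi1.const_mul s)) (hi2.const_mul _)
  have e2 : ∫ x in cell z i, (1 - s * ⟪x, e⟫) ∂(stdGaussian V) =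
      (∫ x in cell z i, (1 : ℝ) ∂(stdGaussian V)) -
        ∫ x in cell z i, s * ⟪x, e⟫ ∂(stdGaussian V) :=
    integral_sub (f := fun _ : V => (1 : ℝ)) (g := fun x : V => s * ⟪x, e⟫)
      (integrable_const _) (hi1.const_mul s)
  rw [e1, e2, integral_const_mul, integral_const_mul, inner_mom]
  simp [pm, measureReal_def]

/-! ### from the midpoint inequality to exponential decay -/

lemma dyadic {h : ℝ → ℝ} (hnn : ∀ t, 0 ≤ h t) (hmid : ∀ s t, h s * h t ≤ h ((s + t) / 2) ^ 2)
    (t : ℝ) (n : ℕ) : h t * h 0 ^ (2 ^ n - 1) ≤ h (t / 2 ^ n) ^ (2 ^ n) := by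
  induction n with
  | zero => simp
  | succ n ih =>
    have h1 := hmid (t / 2 ^ n) 0
    rw [add_zero, div_div, ← pow_succ] at h1
    have h2 : (h (t / 2 ^ n) * h 0) ^ (2 ^ n) ≤ (h (t / 2 ^ (n + 1)) ^ 2) ^ (2 ^ n) :=
      pow_le_pow_left₀ (mul_nonneg (hnn _) (hnn _)) h1 _
    rw [← pow_mul, mul_comm 2 (2 ^ n), ← pow_succ] at h2
    refine le_trans ?_ h2
    rw [mul_pow]
    have h3 : 2 ^ (n + 1) - 1 = (2 ^ n - 1) + 2 ^ n := by
      have : 1 ≤ 2 ^ n := Nat.one_le_two_pow
      rw [pow_succ]; omega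
    rw [h3, pow_add, ← mul_assoc]
    exact mul_le_mul_of_nonneg_right ih (pow_nonneg (hnn _) _)

lemma exp_decay {h : ℝ → ℝ} {p κ C : ℝ} (hp : 0 < p) (h0 : h 0 = p) (hnn : ∀ t, 0 ≤ h t)
    (hmid : ∀ s t, h s * h t ≤ h ((s + t) / 2) ^ 2)
    (hq : ∀ s, 0 ≤ s → s ≤ 1 → h s ≤ p - s * κ + s ^ 2 * C) {t : ℝ} (ht : 0 ≤ t) :
    h t ≤ p * exp (-(κ / p) * t) := by
  have key : ∀ᶠ n : ℕ in Filter.atTop,
      h t ≤ p * exp (-(κ / p) * t + C * t ^ 2 / p * (1 / 2) ^ n) := by
    have hlim : Filter.Tendsto (fun n : ℕ => t * (1 / 2 : ℝ) ^ n) Filter.atTop (nhds (t * 0)) :=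
      (tendsto_pow_atTop_nhds_zero_of_lt_one (by norm_num) (by norm_num)).const_mul t
    rw [mul_zero] at hlim
    filter_upwards [hlim.eventually (ge_mem_nhds (show (0 : ℝ) < 1 by norm_num))] with n hn
    have hN : (0 : ℝ) < 2 ^ n := by positivity
    have hs : t / 2 ^ n = t * (1 / 2) ^ n := by
      rw [div_eq_mul_inv, one_div, inv_pow]
    have hs0 : 0 ≤ t / 2 ^ n := by positivity
    have hs1 : t / 2 ^ n ≤ 1 := by rw [hs]; exact hn
    have h1 := dyadic hnn hmid t n
    have h2 := hq _ hs0 hs1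
    rw [h0] at h1
    set s := t / 2 ^ n with hsdef
    have h3 : h s / p ≤ exp (-(κ / p) * s + C / p * s ^ 2) := by
      have h4 : h s / p ≤ 1 + (-(κ / p) * s + C / p * s ^ 2) := by
        rw [div_le_iff₀ hp]
        have : (1 + (-(κ / p) * s + C / p * s ^ 2)) * p = p - s * κ + s ^ 2 * C := by
          field_simp
          ring
        rw [this]; exact h2
      linarith [Real.add_one_le_exp (-(κ / p) * s + C / p * s ^ 2)]
    have h5 : (h s / p) ^ (2 ^ n) ≤ exp (-(κ / p) * s + C / p * s ^ 2) ^ (2 ^ n) :=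
      pow_le_pow_left₀ (div_nonneg (hnn _) hp.le) h3 _
    have h6 : h t ≤ p * (h s / p) ^ (2 ^ n) := by
      rw [div_pow, ← mul_div_assoc, le_div_iff₀ (by positivity)]
      have h7 : p ^ (2 ^ n) = p ^ (2 ^ n - 1) * p := by
        rw [← pow_succ]
        congr 1
        have : 1 ≤ 2 ^ n := Nat.one_le_two_pow
        omega
      rw [h7]
      nlinarith [h1, hp]
    refine h6.trans (mul_le_mul_of_nonneg_left (h5.trans (le_of_eq ?_)) hp.le)
    rw [← Real.exp_nat_mul]
    congr 1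
    push_cast
    have h8 : (2 : ℝ) ^ n * s = t := by rw [hsdef]; field_simp
    have h9 : s = t * (1 / 2) ^ n := hs
    calc (2 : ℝ) ^ n * (-(κ / p) * s + C / p * s ^ 2)
        = -(κ / p) * (2 ^ n * s) + C / p * (2 ^ n * s) * s := by ring
      _ = _ := by rw [h8, h9]; ring
  have hlim2 : Filter.Tendsto
      (fun n : ℕ => p * exp (-(κ / p) * t + C * t ^ 2 / p * (1 / 2 : ℝ) ^ n)) Filter.atTop
      (nhds (p * exp (-(κ / p) * t + C * t ^ 2 / p * 0))) := by
    refine Filter.Tendsto.const_mul p ((Real.continuous_exp.tendsto _).comp ?_)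
    exact (((tendsto_pow_atTop_nhds_zero_of_lt_one (by norm_num) (by norm_num)).const_mul
      _).const_add _)
  rw [mul_zero, add_zero] at hlim2
  exact ge_of_tendsto hlim2 key

/-! ### the excess -/

omit [FiniteDimensional ℝ V] [MeasurableSpace V] [BorelSpace V] in
lemma le_exc_iff (hk : 2 ≤ k) (z : Fin k → V) (i : Fin k) (t : ℝ) (x : V) :
    t ≤ exc z i x ↔ x ∈ Kset z i t := by
  have hne : Nonempty {j : Fin k // j ≠ i} := by
    have : Nontrivial (Fin k) := Fin.nontrivial_iff_two_le.mpr hk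
    obtain ⟨j, hj⟩ := exists_ne i
    exact ⟨⟨j, hj⟩⟩
  unfold exc
  rw [le_ciInf_iff (Set.finite_range _).bddBelow]
  constructor
  · intro h j hj
    exact h ⟨j, hj⟩
  · intro h j
    exact h j.1 j.2

omit [FiniteDimensional ℝ V] in
lemma measurable_exc (hk : 2 ≤ k) (z : Fin k → V) (i : Fin k) : Measurable (exc z i) := by
  refine measurable_of_Ici fun t => ?_
  have : exc z i ⁻¹' Set.Ici t = Kset z i t := by
    ext x
    exact le_exc_iff hk z i t x
  rw [this]
  exact measurableSet_Kset z i t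

lemma Dex_le {z : Fin k → V} (hk : 2 ≤ k) (i : Fin k) {κ : ℝ} (hκ : 0 < κ) (hp : 0 < pm z i)
    (hdec : ∀ t, 0 ≤ t → (stdGaussian V).real (Kset z i t) ≤
      pm z i * exp (-(κ / pm z i) * t)) : Dex z i ≤ pm z i ^ 2 / κ := by
  set p := pm z i with hpdef
  have ha : -(κ / p) < 0 := by
    have := div_pos hκ hp
    linarith
  have hI : ∫ t in Set.Ioi (0 : ℝ), p * exp (-(κ / p) * t) = p ^ 2 / κ := by
    rw [integral_const_mul, integral_exp_mul_Ioi ha]
    simp only [mul_zero, exp_zero]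
    field_simp
  have hint : IntegrableOn (fun t : ℝ => p * exp (-(κ / p) * t)) (Set.Ioi 0) :=
    (integrableOn_exp_mul_Ioi ha 0).const_mul p
  have h1 : ∫⁻ x, ENNReal.ofReal (max (exc z i x) 0) ∂(stdGaussian V) ≤
      ENNReal.ofReal (p ^ 2 / κ) := by
    rw [lintegral_eq_lintegral_meas_le (f := fun x => max (exc z i x) 0) _
      (Filter.Eventually.of_forall fun x => le_max_right _ _)
      ((measurable_exc hk z i).max measurable_const).aemeasurable, ← hI,
      ofReal_integral_eq_lintegral_ofReal hint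
        (Filter.Eventually.of_forall fun t => by positivity)]
    refine setLIntegral_mono (by fun_prop) fun t ht => ?_
    have ht' : 0 < t := ht
    have h2 : {x | t ≤ max (exc z i x) 0} = Kset z i t := by
      ext x
      rw [Set.mem_ofPred_eq, le_max_iff, le_exc_iff hk z i t x]
      constructor
      · rintro (h | h)
        · exact h
        · linarith
      · exact Or.inl
    rw [h2]
    have h3 := hdec t ht'.le
    rw [← ENNReal.ofReal_toReal (measure_ne_top (stdGaussian V) (Kset z i t))]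
    exact ENNReal.ofReal_le_ofReal h3
  unfold Dex
  rw [integral_eq_lintegral_of_nonneg_ae (f := fun x => max (exc z i x) 0)
    (Filter.Eventually.of_forall fun x => le_max_right _ _)
    ((measurable_exc hk z i).max measurable_const).aestronglyMeasurable]
  have h4 := ENNReal.toReal_mono ENNReal.ofReal_ne_top h1
  rwa [ENNReal.toReal_ofReal (by positivity)] at h4

lemma pm_pos {z : Fin k → V} (hz : Crit z) (i : Fin k) : 0 < pm z i := by
  rcases (measureReal_nonneg : 0 ≤ pm z i).lt_or_eq with h | h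
  · exact h
  exfalso
  have h0 : stdGaussian V (cell z i) = 0 := by
    have : (stdGaussian V).real (cell z i) = 0 := h.symm
    rwa [measureReal_eq_zero_iff] at this
  have h1 : mom (cell z i) = 0 := by
    unfold mom
    rw [Measure.restrict_eq_zero.mpr h0, integral_zero_measure]
  rw [hz.mom_cell i] at h1
  have : Nontrivial (Fin k) := Fin.nontrivial_iff_two_le.mpr (by have := hz.hk; omega)
  obtain ⟨j, hj⟩ := exists_ne i
  have h2 := hz.neg i j hj.symm
  rw [h1, inner_zero_left] at h2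
  exact lt_irrefl _ h2

/-- Step 3 of the plan. -/
theorem lc {z : Fin k → V} (hz : Crit z) (i : Fin k) : ‖z i‖ ^ 2 < 2 * pm z i ^ 2 := by
  have hk := hz.hk
  have hk2 : 2 ≤ k := by omega
  have hkr : (4 : ℝ) ≤ k := by exact_mod_cast hk
  obtain ⟨e, he⟩ := exists_dual hz.neg hz.sum_zero hk2 i
  have hκ := dual_inner hz.sum_zero hk2 i he
  have hκ0 : 0 < ((k : ℝ) - 1) / k := by
    apply div_pos <;> linarith
  have hp := pm_pos hz i
  have hdec : ∀ t, 0 ≤ t → (stdGaussian V).real (Kset z i t) ≤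
      pm z i * exp (-(((k : ℝ) - 1) / k / pm z i) * t) := by
    intro t ht
    refine exp_decay (h := fun t => (stdGaussian V).real (Kset z i t)) hp ?_
      (fun _ => measureReal_nonneg) (Kset_mid z i) (fun s hs0 hs1 => ?_) ht
      (C := ∫ x in cell z i, ⟪x, e⟫ ^ 2 * exp |⟪x, e⟫| ∂(stdGaussian V))
    · simp only [Kset_zero]
      rfl
    · have h := h_quad i he hs0 hs1
      rw [hz.mom_cell i, hκ] at h
      exact h
  have hD := Dex_le hk2 i hκ0 hp hdec
  have hrem := hz.removal i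
  have h1 : (k : ℝ) / (k - 1) * ‖z i‖ ^ 2 < (k : ℝ) / (k - 1) * (2 * pm z i ^ 2) := by
    have h2 : (k : ℝ) / (k - 1) * (2 * pm z i ^ 2) = 2 * (pm z i ^ 2 / (((k : ℝ) - 1) / k)) := by
      field_simp
    rw [h2]
    linarith
  have h3 : 0 < (k : ℝ) / (k - 1) := by
    apply div_pos <;> linarith
  exact lt_of_mul_lt_mul_left h1 h3.le

end P226
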