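import Vale.Agent.P226.Defs

/-!
# P226, Step 6 : pair bounds for the projected family
-/

open MeasureTheory ProbabilityTheory Real
open scoped RealInnerProductSpace

namespace P226

variable {V : Type*} [NormedAddCommGroup V] [InnerProductSpace ℝ V] {k : ℕ}
  {z : Fin k → V} {T : Finset (Fin k)} {Y : Fin k → V}

/-- row sums: `∑_{l' ∉ T, l' ≠ l} (-⟪Y l, Y l'⟫) = ‖Y l‖²`. -/
lemma Proj.row_sum (hY : Proj z T Y) {l : Fin k} (hl : l ∉ T) :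
    ∑ l' ∈ Tᶜ.erase l, (-⟪Y l, Y l'⟫) = ‖Y l‖ ^ 2 := by
  have h1 : ⟪Y l, ∑ l' ∈ Tᶜ, Y l'⟫ = 0 := by rw [hY.sum_zero, inner_zero_right]
  rw [inner_sum, ← Finset.add_sum_erase _ _ (Finset.mem_compl.2 hl),
    real_inner_self_eq_norm_sq] at h1
  rw [Finset.sum_neg_distrib]
  linarith

/-- partial row sums. -/
lemma Proj.row_le (hY : Proj z T Y) {l : Fin k} (hl : l ∉ T) {N : Finset (Fin k)}
    (hN : ∀ c ∈ N, c ∉ T ∧ c ≠ l) : ∑ c ∈ N, (-⟪Y l, Y c⟫) ≤ ‖Y l‖ ^ 2 := by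
  rw [← hY.row_sum hl]
  refine Finset.sum_le_sum_of_subset_of_nonneg ?_ ?_
  · intro c hc
    exact Finset.mem_erase.2 ⟨(hN c hc).2, Finset.mem_compl.2 (hN c hc).1⟩
  · intro c hc _
    have h1 := Finset.mem_erase.1 hc
    have := hY.neg l hl c (Finset.mem_compl.1 h1.2) h1.1.symm
    linarith

/-- pivot bound: among the indices of `N` some `c` has `-⟪Y q, Y c⟫ ≤ ‖Y q‖² / |N|`. -/
lemma Proj.pivot (hY : Proj z T Y) {q : Fin k} (hq : q ∉ T) {N : Finset (Fin k)}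
    (hN : ∀ c ∈ N, c ∉ T ∧ c ≠ q) (hne : N.Nonempty) :
    ∃ c ∈ N, 0 ≤ -⟪Y q, Y c⟫ ∧ -⟪Y q, Y c⟫ ≤ ‖Y q‖ ^ 2 / N.card ∧
      ‖Y q‖ ^ 2 * ‖Y c‖ ^ 2 - (‖Y q‖ ^ 2 / N.card) ^ 2 ≤
        ‖Y q‖ ^ 2 * ‖Y c‖ ^ 2 - ⟪Y q, Y c⟫ ^ 2 := by
  obtain ⟨c, hc, hcle⟩ : ∃ c ∈ N, -⟪Y q, Y c⟫ ≤ ‖Y q‖ ^ 2 / N.card := by
    by_contra hcon
    push Not at hcon
    have h1 : ∑ c ∈ N, ‖Y q‖ ^ 2 / N.card < ∑ c ∈ N, (-⟪Y q, Y c⟫) :=
      Finset.sum_lt_sum_of_nonempty hne hcon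
    have h2 := hY.row_le hq hN
    rw [Finset.sum_const, nsmul_eq_mul] at h1
    have h3 : (N.card : ℝ) ≠ 0 := by
      have := Finset.card_pos.2 hne
      positivity
    have h4 : (N.card : ℝ) * (‖Y q‖ ^ 2 / N.card) = ‖Y q‖ ^ 2 := by field_simp
    linarith
  have h0 : 0 ≤ -⟪Y q, Y c⟫ := by
    have := hY.neg q hq c (hN c hc).1 (hN c hc).2.symm
    linarith
  refine ⟨c, hc, h0, hcle, ?_⟩
  nlinarith

/-- three indices: the sum of the three pair products is at most half of the sum of squares. -/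
lemma Proj.triple (hY : Proj z T Y) {a b c : Fin k} (ha : a ∉ T) (hb : b ∉ T) (hc : c ∉ T)
    (hab : a ≠ b) (hac : a ≠ c) (hbc : b ≠ c) :
    -⟪Y a, Y b⟫ + -⟪Y a, Y c⟫ + -⟪Y b, Y c⟫ ≤ (‖Y a‖ ^ 2 + ‖Y b‖ ^ 2 + ‖Y c‖ ^ 2) / 2 := by
  have h1 := hY.row_le (l := a) ha (N := {b, c}) (by
    intro x hx; simp at hx; rcases hx with rfl | rfl
    · exact ⟨hb, hab.symm⟩
    · exact ⟨hc, hac.symm⟩)
  have h2 := hY.row_le (l := b) hb (N := {a, c}) (by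
    intro x hx; simp at hx; rcases hx with rfl | rfl
    · exact ⟨ha, hab⟩
    · exact ⟨hc, hbc.symm⟩)
  have h3 := hY.row_le (l := c) hc (N := {a, b}) (by
    intro x hx; simp at hx; rcases hx with rfl | rfl
    · exact ⟨ha, hac⟩
    · exact ⟨hb, hbc⟩)
  rw [Finset.sum_pair hbc] at h1
  rw [Finset.sum_pair hac, real_inner_comm (Y a) (Y b)] at h2
  rw [Finset.sum_pair hab, real_inner_comm (Y a) (Y c), real_inner_comm (Y b) (Y c)] at h3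
  linarith

/-- three indices and a fourth one `d`; `R` are the remaining indices of `Tᶜ`. -/
lemma Proj.triple4 (hY : Proj z T Y) {a b c d : Fin k} (ha : a ∉ T) (hb : b ∉ T) (hc : c ∉ T)
    (hd : d ∉ T) (hab : a ≠ b) (hac : a ≠ c) (hbc : b ≠ c) (had : a ≠ d) (hbd : b ≠ d)
    (hcd : c ≠ d) :
    -⟪Y a, Y b⟫ + -⟪Y a, Y c⟫ + -⟪Y b, Y c⟫ ≤ (‖Y a‖ ^ 2 + ‖Y b‖ ^ 2 + ‖Y c‖ ^ 2 - ‖Y d‖ ^ 2 +
      ∑ l ∈ Tᶜ \ {a, b, c, d}, ‖Y l‖ ^ 2) / 2 := by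
  classical
  have h1 := hY.row_le (l := a) ha (N := {b, c, d}) (by
    intro x hx; simp at hx; rcases hx with rfl | rfl | rfl
    · exact ⟨hb, hab.symm⟩
    · exact ⟨hc, hac.symm⟩
    · exact ⟨hd, had.symm⟩)
  have h2 := hY.row_le (l := b) hb (N := {a, c, d}) (by
    intro x hx; simp at hx; rcases hx with rfl | rfl | rfl
    · exact ⟨ha, hab⟩
    · exact ⟨hc, hbc.symm⟩
    · exact ⟨hd, hbd.symm⟩)
  have h3 := hY.row_le (l := c) hc (N := {a, b, d}) (by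
    intro x hx; simp at hx; rcases hx with rfl | rfl | rfl
    · exact ⟨ha, hac⟩
    · exact ⟨hb, hbc⟩
    · exact ⟨hd, hcd.symm⟩)
  have h4 := hY.row_sum hd
  have e4 : Tᶜ.erase d = insert a (insert b (insert c (Tᶜ \ {a, b, c, d}))) := by
    ext x
    simp only [Finset.mem_erase, Finset.mem_compl, Finset.mem_insert, Finset.mem_sdiff,
      Finset.mem_singleton]
    constructor
    · rintro ⟨h1, h2⟩
      by_cases hxa : x = a
      · exact Or.inl hxa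
      by_cases hxb : x = b
      · exact Or.inr (Or.inl hxb)
      by_cases hxc : x = c
      · exact Or.inr (Or.inr (Or.inl hxc))
      · exact Or.inr (Or.inr (Or.inr ⟨h2, by tauto⟩))
    · rintro (rfl | rfl | rfl | ⟨h1, h2⟩)
      · exact ⟨had, ha⟩
      · exact ⟨hbd, hb⟩
      · exact ⟨hcd, hc⟩
      · exact ⟨by tauto, h1⟩
  rw [e4, Finset.sum_insert (by simp [hab, hac]), Finset.sum_insert (by simp [hbc]),
    Finset.sum_insert (by simp)] at h4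
  have h5 : ∑ l ∈ Tᶜ \ {a, b, c, d}, (-⟪Y d, Y l⟫) ≤ ∑ l ∈ Tᶜ \ {a, b, c, d}, ‖Y l‖ ^ 2 := by
    refine Finset.sum_le_sum fun l hl => ?_
    simp only [Finset.mem_sdiff, Finset.mem_compl, Finset.mem_insert, Finset.mem_singleton,
      not_or] at hl
    have := hY.row_le (l := l) hl.1 (N := {d}) (by
      intro x hx; simp at hx; subst hx
      exact ⟨hd, Ne.symm hl.2.2.2.2⟩)
    rw [Finset.sum_singleton, real_inner_comm] at this
    exact this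
  rw [Finset.sum_insert (by simp [hbc, hbd]), Finset.sum_pair hcd] at h1
  rw [Finset.sum_insert (by simp [hac, had]), Finset.sum_pair hcd,
    real_inner_comm (Y a) (Y b)] at h2
  rw [Finset.sum_insert (by simp [hab, had]), Finset.sum_pair hbd,
    real_inner_comm (Y a) (Y c), real_inner_comm (Y b) (Y c)] at h3
  rw [real_inner_comm (Y a) (Y d), real_inner_comm (Y b) (Y d), real_inner_comm (Y c) (Y d)] at h4
  linarith

/-- lower bound for the projected norms. -/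
lemma Proj.norm_ge (hY : Proj z T Y) {l : Fin k} (hl : l ∉ T) :
    ‖z l‖ ^ 2 - ∑ t ∈ T, ‖z t‖ ^ 2 ≤ ‖Y l‖ ^ 2 := by
  have h1 := hY.loss
  have h2 : ‖z l‖ ^ 2 - ‖Y l‖ ^ 2 ≤ ∑ l ∈ Tᶜ, (‖z l‖ ^ 2 - ‖Y l‖ ^ 2) :=
    Finset.single_le_sum (f := fun l => ‖z l‖ ^ 2 - ‖Y l‖ ^ 2)
      (fun i hi => by
        have := hY.norm_le i (Finset.mem_compl.1 hi)
        linarith) (Finset.mem_compl.2 hl)
  linarith

end P226
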