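import Vale.Agent.P226.Defs

/-!
# P226, Step 4 : projecting out vectors one at a time keeps the inner products nonpositive
-/

open MeasureTheory ProbabilityTheory Real
open scoped RealInnerProductSpace

namespace P226

variable {V : Type*} [NormedAddCommGroup V] [InnerProductSpace ℝ V] {k : ℕ}

lemma orth_span {z : Fin k → V} {T : Finset (Fin k)} {y : V}
    (h : ∀ t ∈ T, ⟪y, z t⟫ = 0) {w : V}
    (hw : w ∈ Submodule.span ℝ (z '' (T : Set (Fin k)))) : ⟪y, w⟫ = 0 := by
  induction hw using Submodule.span_induction with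
  | mem x hx =>
    obtain ⟨t, ht, rfl⟩ := hx
    exact h t ht
  | zero => exact inner_zero_right _
  | add x y _ _ hx hy => rw [inner_add_right, hx, hy, add_zero]
  | smul a x _ hx => rw [inner_smul_right, hx, mul_zero]

theorem exists_proj {z : Fin k → V} (hneg : ∀ i j, i ≠ j → ⟪z i, z j⟫ ≤ 0)
    (hsum : ∑ i, z i = 0) (_hne : ∀ i, z i ≠ 0) (T : Finset (Fin k)) : ∃ Y, Proj z T Y := by
  classical
  induction T using Finset.induction_on with
  | empty =>
    refine ⟨z, ?_, ?_, ?_, ?_, ?_, ?_⟩
    · intro l _ t ht; simp at ht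
    · intro l _; simp
    · intro l _ l' _ h; exact hneg l l' h
    · simpa using hsum
    · intro l _; exact le_rfl
    · simp
  | insert m T hm ih =>
    obtain ⟨Y, hY⟩ := ih
    have hcompl : Tᶜ = insert m (insert m T)ᶜ := by
      ext a
      simp only [Finset.mem_compl, Finset.mem_insert]
      constructor
      · intro ha
        by_cases h : a = m
        · exact Or.inl h
        · exact Or.inr (by tauto)
      · rintro (rfl | ha)
        · exact hm
        · tauto
    have hmn : m ∉ (insert m T)ᶜ := by simp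
    have hle : ∀ l, l ∉ insert m T → l ∉ T ∧ l ≠ m := fun l hl => by
      simp only [Finset.mem_insert, not_or] at hl; exact ⟨hl.2, hl.1⟩
    -- the new vectors
    let χ : Fin k → ℝ := fun l => -⟪Y l, Y m⟫ / ‖Y m‖ ^ 2
    let Y' : Fin k → V := fun l => Y l + χ l • Y m
    have hχ0 : ∀ l, l ∉ insert m T → 0 ≤ χ l := fun l hl => by
      have := hY.neg l (hle l hl).1 m hm (hle l hl).2
      exact div_nonneg (by linarith) (sq_nonneg _)
    -- orthogonality to `Y m`
    have horm : ∀ l, ⟪Y' l, Y m⟫ = 0 := fun l => by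
      simp only [Y', χ, inner_add_left, inner_smul_left, real_inner_self_eq_norm_sq]
      by_cases h0 : Y m = 0
      · simp [h0]
      · have : ‖Y m‖ ^ 2 ≠ 0 := by positivity
        simp only [conj_trivial]
        field_simp
        ring
    have horT : ∀ l, l ∉ T → ∀ t ∈ T, ⟪Y' l, z t⟫ = 0 := fun l hl t ht => by
      simp only [Y', inner_add_left, inner_smul_left, hY.orth l hl t ht, hY.orth m hm t ht]
      simp
    have hnorm : ∀ l, ‖Y' l‖ ^ 2 = ‖Y l‖ ^ 2 - χ l ^ 2 * ‖Y m‖ ^ 2 := fun l => by
      have h1 : ⟪Y' l, Y' l⟫ = ⟪Y' l, Y l⟫ := by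
        conv_lhs => rw [show Y' l = Y l + χ l • Y m from rfl]
        rw [inner_add_right, inner_smul_right]
        have := horm l
        rw [show Y l + χ l • Y m = Y' l from rfl, this]
        ring
      have h2 : ⟪Y l, Y m⟫ = -(χ l * ‖Y m‖ ^ 2) := by
        have := horm l
        simp only [Y', inner_add_left, inner_smul_left, real_inner_self_eq_norm_sq,
          conj_trivial] at this
        linarith
      rw [← real_inner_self_eq_norm_sq, h1]
      simp only [Y', inner_add_left, inner_smul_left, real_inner_self_eq_norm_sq, conj_trivial]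
      rw [real_inner_comm, h2]
      ring
    have hsumY : Y m + ∑ l ∈ (insert m T)ᶜ, Y l = 0 := by
      have := hY.sum_zero
      rw [hcompl, Finset.sum_insert hmn] at this
      exact this
    have hsχ : Y m ≠ 0 → ∑ l ∈ (insert m T)ᶜ, χ l = 1 := fun h0 => by
      have h1 : ⟪∑ l ∈ (insert m T)ᶜ, Y l, Y m⟫ = -‖Y m‖ ^ 2 := by
        have : ∑ l ∈ (insert m T)ᶜ, Y l = -Y m := by
          rw [eq_neg_iff_add_eq_zero, add_comm]; exact hsumY
        rw [this, inner_neg_left, real_inner_self_eq_norm_sq]
      rw [sum_inner] at h1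
      have : ‖Y m‖ ^ 2 ≠ 0 := by positivity
      simp only [χ]
      rw [← Finset.sum_div, Finset.sum_neg_distrib, h1]
      field_simp
    have hym : ‖Y m‖ ^ 2 ≤ ‖z m‖ ^ 2 := hY.norm_le m hm
    refine ⟨Y', ?_, ?_, ?_, ?_, ?_, ?_⟩
    · intro l hl t ht
      rcases Finset.mem_insert.1 ht with rfl | ht
      · have h1 : ⟪Y' l, z t - Y t⟫ = 0 := orth_span (horT l (hle l hl).1) (hY.diff_mem t hm)
        rw [inner_sub_right, horm l] at h1
        linarith
      · exact horT l (hle l hl).1 t ht
    · intro l hl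
      have hsub : Submodule.span ℝ (z '' (T : Set (Fin k))) ≤
          Submodule.span ℝ (z '' ((insert m T : Finset (Fin k)) : Set (Fin k))) :=
        Submodule.span_mono (Set.image_mono (by simp))
      have h1 := hsub (hY.diff_mem l (hle l hl).1)
      have h2 := hsub (hY.diff_mem m hm)
      have h3 : z m ∈ Submodule.span ℝ (z '' ((insert m T : Finset (Fin k)) : Set (Fin k))) :=
        Submodule.subset_span ⟨m, by simp, rfl⟩
      have : z l - Y' l = (z l - Y l) - χ l • (z m - (z m - Y m)) := by
        simp only [Y']; abel_nf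
      rw [this]
      exact Submodule.sub_mem _ h1 (Submodule.smul_mem _ _ (Submodule.sub_mem _ h3 h2))
    · intro l hl l' hl' hll
      have h1 : ⟪Y' l, Y' l'⟫ = ⟪Y l, Y l'⟫ - χ l * χ l' * ‖Y m‖ ^ 2 := by
        have h1 : ⟪Y' l, Y' l'⟫ = ⟪Y' l, Y l'⟫ := by
          rw [show Y' l' = Y l' + χ l' • Y m from rfl, inner_add_right, inner_smul_right, horm l]
          ring
        have h2 : ⟪Y l', Y m⟫ = -(χ l' * ‖Y m‖ ^ 2) := by
          have := horm l'
          simp only [Y', inner_add_left, inner_smul_left, real_inner_self_eq_norm_sq,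
            conj_trivial] at this
          linarith
        rw [h1]
        simp only [Y', inner_add_left, inner_smul_left, conj_trivial]
        rw [real_inner_comm (Y l') (Y m), h2]
        ring
      rw [h1]
      have h3 := hY.neg l (hle l hl).1 l' (hle l' hl').1 hll
      have h4 : 0 ≤ χ l * χ l' * ‖Y m‖ ^ 2 :=
        mul_nonneg (mul_nonneg (hχ0 l hl) (hχ0 l' hl')) (sq_nonneg _)
      linarith
    · have : ∑ l ∈ (insert m T)ᶜ, Y' l =
          ∑ l ∈ (insert m T)ᶜ, Y l + (∑ l ∈ (insert m T)ᶜ, χ l) • Y m := by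
        simp only [Y']
        rw [Finset.sum_add_distrib, Finset.sum_smul]
      rw [this]
      by_cases h0 : Y m = 0
      · rw [h0, smul_zero, add_zero]
        rw [h0, zero_add] at hsumY
        exact hsumY
      · rw [hsχ h0, one_smul, add_comm]
        exact hsumY
    · intro l hl
      rw [hnorm l]
      have := hY.norm_le l (hle l hl).1
      have h2 : 0 ≤ χ l ^ 2 * ‖Y m‖ ^ 2 := by positivity
      linarith
    · rw [Finset.sum_insert hm]
      have h1 := hY.loss
      rw [hcompl, Finset.sum_insert hmn] at h1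
      have h2 : ∑ l ∈ (insert m T)ᶜ, (‖z l‖ ^ 2 - ‖Y' l‖ ^ 2) =
          ∑ l ∈ (insert m T)ᶜ, (‖z l‖ ^ 2 - ‖Y l‖ ^ 2) +
            (∑ l ∈ (insert m T)ᶜ, χ l ^ 2) * ‖Y m‖ ^ 2 := by
        rw [Finset.sum_mul, ← Finset.sum_add_distrib]
        refine Finset.sum_congr rfl fun l _ => ?_
        rw [hnorm l]; ring
      have h3 : (∑ l ∈ (insert m T)ᶜ, χ l ^ 2) * ‖Y m‖ ^ 2 ≤ ‖Y m‖ ^ 2 := by
        by_cases h0 : Y m = 0
        · simp [h0]
        · have hle1 : ∀ l ∈ (insert m T)ᶜ, χ l ≤ 1 := fun l hl => by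
            rw [← hsχ h0]
            exact Finset.single_le_sum (fun i hi => hχ0 i (Finset.mem_compl.1 hi)) hl
          have h4 : ∑ l ∈ (insert m T)ᶜ, χ l ^ 2 ≤ 1 := by
            rw [← hsχ h0]
            refine Finset.sum_le_sum fun l hl => ?_
            have a := hle1 l hl
            have b := hχ0 l (Finset.mem_compl.1 hl)
            nlinarith
          have := mul_le_mul_of_nonneg_right h4 (sq_nonneg ‖Y m‖)
          linarith
      rw [h2]
      linarith

end P226
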