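import Vale.Agent.P226.NumGeo
import Vale.Agent.P226.LC
import Vale.Agent.P226.ProjExists
import Vale.Agent.P226.Pairs

/-!
# P226 : from a critical configuration to the numeric data
-/

open MeasureTheory ProbabilityTheory Real
open scoped RealInnerProductSpace

namespace P226

section perm

variable {V : Type*} [NormedAddCommGroup V] [InnerProductSpace ℝ V] [FiniteDimensional ℝ V]
  [MeasurableSpace V] [BorelSpace V] {k : ℕ}

omit [FiniteDimensional ℝ V] [MeasurableSpace V] [BorelSpace V] in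
lemma cell_comp (z : Fin k → V) (e : Equiv.Perm (Fin k)) (i : Fin k) :
    cell (z ∘ e) i = cell z (e i) := by
  ext x
  constructor
  · intro h j
    have := h (e.symm j)
    simpa using this
  · intro h j
    exact h (e j)

omit [FiniteDimensional ℝ V] [MeasurableSpace V] [BorelSpace V] in
lemma exc_comp (z : Fin k → V) (e : Equiv.Perm (Fin k)) (i : Fin k) (x : V) :
    exc (z ∘ e) i x = exc z (e i) x := by
  unfold exc
  refine Equiv.iInf_congr (e.subtypeEquiv (fun a => by simp)) ?_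
  intro j
  rfl

omit [BorelSpace V] in
lemma Crit.comp {z : Fin k → V} (hz : Crit z) (e : Equiv.Perm (Fin k)) : Crit (z ∘ e) := by
  refine ⟨hz.hk, ?_, ?_, ?_, ?_, ?_, ?_⟩
  · intro i
    rw [cell_comp]
    exact hz.mom_cell (e i)
  · have : ∀ i, pm (z ∘ e) i = pm z (e i) := fun i => by unfold pm; rw [cell_comp]
    simp_rw [this]
    rw [Equiv.sum_comp e (fun i => pm z i)]
    exact hz.sum_pm
  · intro i j hij
    exact hz.neg _ _ (fun h => hij (e.injective h))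
  · have := Equiv.sum_comp e z
    simp only [Function.comp_apply]
    rw [this]
    exact hz.sum_zero
  · have := Equiv.sum_comp e (fun i => ‖z i‖ ^ 2)
    simp only [Function.comp_apply]
    rw [this]
    exact hz.S_gt
  · intro i
    have : Dex (z ∘ e) i = Dex z (e i) := by
      unfold Dex
      simp_rw [exc_comp]
    rw [this]
    exact hz.removal (e i)

end perm

section dim

variable {V : Type*} [NormedAddCommGroup V] [InnerProductSpace ℝ V] [FiniteDimensional ℝ V]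
  {k : ℕ}

lemma exists_super (U : Submodule ℝ V) (n : ℕ) (h1 : Module.finrank ℝ U ≤ n)
    (h2 : n ≤ Module.finrank ℝ V) : ∃ W : Submodule ℝ V, U ≤ W ∧ Module.finrank ℝ W = n := by
  induction n, h1 using Nat.le_induction with
  | base => exact ⟨U, le_rfl, rfl⟩
  | succ n h1 ih =>
    obtain ⟨W, hUW, hW⟩ := ih (by omega)
    have hne : W ≠ ⊤ := by
      rintro rfl
      rw [finrank_top] at hW
      omega
    obtain ⟨v, hv⟩ : ∃ v, v ∉ W := by
      by_contra hcon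
      push Not at hcon
      exact hne (Submodule.eq_top_iff'.2 hcon)
    have hv0 : v ≠ 0 := fun h => hv (h ▸ W.zero_mem)
    refine ⟨W ⊔ Submodule.span ℝ {v}, hUW.trans le_sup_left, ?_⟩
    have h3 := Submodule.finrank_sup_add_finrank_inf_eq W (Submodule.span ℝ {v})
    have h4 : W ⊓ Submodule.span ℝ {v} = ⊥ := by
      rw [← disjoint_iff, Submodule.disjoint_span_singleton' hv0]
      exact hv
    rw [h4, finrank_bot, finrank_span_singleton hv0, hW] at h3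
    simpa using h3

lemma finrank_span_le (z : Fin k → V) (hk : 1 ≤ k) (hsum : ∑ i, z i = 0) :
    Module.finrank ℝ (Submodule.span ℝ (Set.range z)) ≤ k - 1 := by
  classical
  obtain ⟨m, rfl⟩ : ∃ m, k = m + 1 := ⟨k - 1, by omega⟩
  have h1 : Submodule.span ℝ (Set.range z) ≤
      Submodule.span ℝ (Set.range (fun i : Fin m => z i.succ)) := by
    rw [Submodule.span_le]
    rintro _ ⟨i, rfl⟩
    refine Fin.cases ?_ (fun j => ?_) i
    · have : z 0 = -∑ i : Fin m, z i.succ := by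
        rw [Fin.sum_univ_succ] at hsum
        exact eq_neg_of_add_eq_zero_left hsum
      rw [this]
      refine Submodule.neg_mem _ (Submodule.sum_mem _ fun j _ => ?_)
      exact Submodule.subset_span ⟨j, rfl⟩
    · exact Submodule.subset_span ⟨j, rfl⟩
  have h2 := Submodule.finrank_mono h1
  have h3 := finrank_range_le_card (R := ℝ) (fun i : Fin m => z i.succ)
  simp only [Fintype.card_fin] at h3
  have h4 : Module.finrank ℝ (Submodule.span ℝ (Set.range (fun i : Fin m => z i.succ))) ≤ m := h3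
  omega

end dim

section sums

variable {k : ℕ}

/-- the indices `≥ b`. -/
def Tb (k b : ℕ) : Finset (Fin k) := Finset.univ.filter fun i => b ≤ i.val

lemma mem_Tb {b : ℕ} {i : Fin k} : i ∈ Tb k b ↔ b ≤ i.val := by simp [Tb]

lemma notMem_Tb {b : ℕ} {i : Fin k} : i ∉ Tb k b ↔ i.val < b := by simp [Tb]

lemma sum_Tb {M : Type*} [AddCommMonoid M] (b : ℕ) (g : ℕ → M) :
    ∑ i ∈ Tb k b, g i.val = ∑ j ∈ Finset.Ico b k, g j := by
  have : Finset.Ico b k = (Tb k b).map Fin.valEmbedding := by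
    ext j
    simp only [Finset.mem_Ico, Finset.mem_map, mem_Tb, Fin.valEmbedding_apply]
    constructor
    · rintro ⟨h1, h2⟩
      exact ⟨⟨j, h2⟩, h1, rfl⟩
    · rintro ⟨a, h1, rfl⟩
      exact ⟨h1, a.2⟩
  rw [this, Finset.sum_map]
  rfl

lemma compl_Tb_map {b : ℕ} (hb : b ≤ k) :
    ((Tb k b)ᶜ).map Fin.valEmbedding = Finset.range b := by
  ext j
  simp only [Finset.mem_range, Finset.mem_map, Finset.mem_compl, notMem_Tb,
    Fin.valEmbedding_apply]
  constructor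
  · rintro ⟨a, h1, rfl⟩
    exact h1
  · intro h1
    exact ⟨⟨j, by omega⟩, h1, rfl⟩

lemma sum_compl_Tb {M : Type*} [AddCommMonoid M] {b : ℕ} (hb : b ≤ k) (g : ℕ → M) :
    ∑ i ∈ (Tb k b)ᶜ, g i.val = ∑ j ∈ Finset.range b, g j := by
  rw [← compl_Tb_map hb, Finset.sum_map]
  rfl

lemma card_compl_Tb {b : ℕ} (hb : b ≤ k) : ((Tb k b)ᶜ).card = b := by
  have := congrArg Finset.card (compl_Tb_map hb)
  rwa [Finset.card_map, Finset.card_range] at this

lemma erase_Tb {b : ℕ} (hb : b < k) : (Tb k b).erase ⟨b, hb⟩ = Tb k (b + 1) := by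
  ext j
  simp only [Finset.mem_erase, mem_Tb, ne_eq, Fin.ext_iff]
  omega

end sums

section main

variable {V : Type*} [NormedAddCommGroup V] [InnerProductSpace ℝ V] [FiniteDimensional ℝ V]
  [MeasurableSpace V] [BorelSpace V] {k : ℕ}

/-- extension of a family indexed by `Fin k` by zero. -/
noncomputable def extz (f : Fin k → ℝ) (j : ℕ) : ℝ := if h : j < k then f ⟨j, h⟩ else 0

lemma extz_of_lt (f : Fin k → ℝ) {j : ℕ} (h : j < k) : extz f j = f ⟨j, h⟩ := by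
  simp [extz, h]

lemma extz_val (f : Fin k → ℝ) (i : Fin k) : extz f i.val = f i := by
  simp [extz]

/-- parallelogram area of two projected vectors. -/
noncomputable def par (Y : Fin k → V) (q : Fin k × Fin k) : ℝ :=
  √(‖Y q.1‖ ^ 2 * ‖Y q.2‖ ^ 2 - ⟪Y q.1, Y q.2⟫ ^ 2)

theorem Crit.numGeo_of {z : Fin k → V} (hz : Crit z) (hd : 7 ≤ Module.finrank ℝ V)
    (hI : ∀ (A : Set V), MeasurableSet A → ∀ t : ℝ,
      ‖mom A‖ ≤ gpdf t + t * ((stdGaussian V).real A - gtail t))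
    (hcap : ∀ {n : ℕ}, (n = 2 ∨ n = 3 ∨ n = 4 ∨ n = 5 ∨ n = 7) →
      ∀ W : Submodule ℝ V, Module.finrank ℝ W = n →
      ∀ A : Set V, MeasurableSet A → (∀ x ∈ A, ∀ c : ℝ, 0 < c → c • x ∈ A) →
      (∀ x ∈ A, ∀ y ∈ Wᗮ, x + y ∈ A) → ∀ {c : ℝ}, 0 ≤ c → c < 1 →
      ‖mom A‖ ≤ capJ n c + c * capM n * ((stdGaussian V).real A - capP n c))
    (hP : ∀ {z : Fin k → V}, Crit z → ∀ {T : Finset (Fin k)} {Y : Fin k → V}, Proj z T Y →
      ∀ {i : Fin k}, i ∈ T → 3 ≤ (Tᶜ).card → ∀ {a c : Fin k}, a ∉ T → c ∉ T → a ≠ c →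
      let b : ℝ := (Tᶜ).card
      let A : ℝ := (b + 1) * ‖z i‖
      let S' : ℝ := ∑ t ∈ T.erase i, ‖z t‖ ^ 2
      let Δ : ℝ := √(‖Y a‖ ^ 2 * ‖Y c‖ ^ 2 - ⟪Y a, Y c⟫ ^ 2)
      6 * π * b * Δ * ((k : ℝ) / (k - 1) * ‖z i‖ ^ 2) <
        √(2 / π) * (A ^ 3 + 3 / 2 * A * S' + 3 / 16 * S' ^ 2 / A))
    (hFO : ∀ {z : Fin k → V}, Crit z → ∀ {T : Finset (Fin k)} {Y : Fin k → V}, Proj z T Y →
      ∀ {i : Fin k}, i ∈ T → 3 ≤ (Tᶜ).card → ∀ {a c : Fin k}, a ∉ T → c ∉ T → a ≠ c →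
      let b : ℝ := (Tᶜ).card
      let A : ℝ := (b + 1) * ‖z i‖
      let S' : ℝ := ∑ t ∈ T.erase i, ‖z t‖ ^ 2
      let Δ : ℝ := √(‖Y a‖ ^ 2 * ‖Y c‖ ^ 2 - ⟪Y a, Y c⟫ ^ 2)
      4 * π * Δ * ‖z i‖ ≤ (2 * A ^ 2 + S') / √(2 * π)) :
    ∃ σ p : ℕ → ℝ, NumGeo k σ p := by
  classical
  -- sort
  obtain ⟨w, hw, hanti⟩ : ∃ w : Fin k → V, Crit w ∧ ∀ i j : Fin k, i ≤ j → ‖w j‖ ≤ ‖w i‖ := by
    let e := Tuple.sort (fun i => -‖z i‖)
    refine ⟨z ∘ e, hz.comp e, fun i j hij => ?_⟩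
    have := Tuple.monotone_sort (fun i => -‖z i‖) hij
    simp only [Function.comp_apply] at this ⊢
    linarith
  have hk := hw.hk
  have hpos : ∀ i, 0 < ‖w i‖ := fun i => by
    rw [norm_pos_iff]
    intro h0
    have : ∃ j, i ≠ j := by
      by_contra hcon
      push Not at hcon
      have : Fintype.card (Fin k) ≤ 1 := Fintype.card_le_one_iff.2 fun a b => by
        rw [← hcon a, ← hcon b]
      simp at this
      omega
    obtain ⟨j, hj⟩ := this
    have := hw.neg i j hj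
    rw [h0, inner_zero_left] at this
    exact lt_irrefl _ this
  refine ⟨extz fun i => ‖w i‖, extz fun i => pm w i, ?_, ?_, ?_, ?_, ?_, ?_, ?_, ?_, ?_⟩
  · exact hw.hk
  · intro i hi
    rw [extz_of_lt _ hi]
    exact hpos _
  · intro i j hij hj
    rw [extz_of_lt _ hj, extz_of_lt _ (lt_of_le_of_lt hij hj)]
    exact hanti _ _ hij
  · rw [Finset.sum_range]
    simp_rw [extz_val]
    exact hw.sum_pm
  · rw [Finset.sum_range]
    simp_rw [extz_val]
    exact hw.S_gt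
  · intro i hi
    rw [extz_of_lt _ hi, extz_of_lt _ hi]
    have h1 := lc hw ⟨i, hi⟩
    have h2 := pm_pos hw ⟨i, hi⟩
    refine lt_of_pow_lt_pow_left₀ 2 (by positivity) ?_
    rw [mul_pow, Real.sq_sqrt (by norm_num)]
    exact h1
  · intro i hi t
    rw [extz_of_lt _ hi, extz_of_lt _ hi]
    have := hI (cell w ⟨i, hi⟩) (measurableSet_cell w _) t
    rw [hw.mom_cell] at this
    exact this
  · intro n hn hkn i hi c hc0 hc1
    rw [extz_of_lt _ hi, extz_of_lt _ hi]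
    have hU := finrank_span_le w (by omega) hw.sum_zero
    obtain ⟨W, hUW, hW⟩ := exists_super (Submodule.span ℝ (Set.range w)) n (by omega)
      (by rcases hn with rfl | rfl | rfl | rfl <;> omega)
    have hmem : ∀ j, w j ∈ W := fun j => hUW (Submodule.subset_span ⟨j, rfl⟩)
    have := hcap (Or.inr hn) W hW (cell w ⟨i, hi⟩) (measurableSet_cell w _)
      (fun x hx c hc j => by
        rw [inner_smul_left, inner_smul_left]
        exact mul_le_mul_of_nonneg_left (hx j) hc.le)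
      (fun x hx y hy j => by
        rw [inner_add_left, inner_add_left,
          Submodule.inner_left_of_mem_orthogonal (hmem j) hy,
          Submodule.inner_left_of_mem_orthogonal (hmem _) hy]
        simpa using hx j) hc0 hc1
    rw [hw.mom_cell] at this
    exact this
  · intro b hb3 hbk
    obtain ⟨Y, hY⟩ := exists_proj (z := w) (fun i j hij => (hw.neg i j hij).le) hw.sum_zero
      (fun i => norm_pos_iff.1 (hpos i)) (Tb k b)
    have hmemT : ∀ {l : Fin k}, l.val < b → l ∉ Tb k b := fun h => notMem_Tb.2 h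
    have hcard : ((Tb k b)ᶜ).card = b := card_compl_Tb hbk.le
    -- maximal pair
    obtain ⟨q, hq, hqmax⟩ := Finset.exists_max_image ((Tb k b)ᶜ).offDiag (par Y) (by
      refine ⟨(⟨0, by omega⟩, ⟨1, by omega⟩), ?_⟩
      simp only [Finset.mem_offDiag, Finset.mem_compl, notMem_Tb]
      refine ⟨by omega, by omega, ?_⟩
      simp)
    rw [Finset.mem_offDiag, Finset.mem_compl, Finset.mem_compl] at hq
    -- bound for a pair
    have hpair : ∀ a c : Fin k, a.val < b → c.val < b → a ≠ c →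
        ‖Y a‖ ^ 2 * ‖Y c‖ ^ 2 - ⟪Y a, Y c⟫ ^ 2 ≤ par Y q ^ 2 := by
      intro a c ha hc hac
      have h1 := hqmax (a, c) (by
        rw [Finset.mem_offDiag, Finset.mem_compl, Finset.mem_compl]
        exact ⟨hmemT ha, hmemT hc, hac⟩)
      have h2 : ‖Y a‖ ^ 2 * ‖Y c‖ ^ 2 - ⟪Y a, Y c⟫ ^ 2 ≤ par Y (a, c) ^ 2 := by
        unfold par
        rcases le_total 0 (‖Y a‖ ^ 2 * ‖Y c‖ ^ 2 - ⟪Y a, Y c⟫ ^ 2) with h | h
        · rw [Real.sq_sqrt h]
        · exact h.trans (sq_nonneg _)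
      have h3 : 0 ≤ par Y (a, c) := Real.sqrt_nonneg _
      nlinarith
    have hk0 : 0 < k := by omega
    have hk1 : 1 < k := by omega
    have hk2 : 2 < k := by omega
    have hk3 : 3 < k := by omega
    refine ⟨extz fun i => ‖Y i‖ ^ 2, par Y q, Real.sqrt_nonneg _, ?_, ?_, ?_, ?_, ?_, ?_⟩
    · intro l hl
      rw [extz_of_lt _ (hl.trans hbk), extz_of_lt _ (hl.trans hbk)]
      exact ⟨sq_nonneg _, hY.norm_le _ (hmemT hl)⟩
    · have h1 := hY.loss
      have e1 : ∑ l ∈ (Tb k b)ᶜ, (‖w l‖ ^ 2 - ‖Y l‖ ^ 2) =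
          ∑ l ∈ Finset.range b, ((extz (fun i => ‖w i‖) l) ^ 2 - extz (fun i => ‖Y i‖ ^ 2) l) := by
        rw [← sum_compl_Tb hbk.le]
        simp_rw [extz_val]
      have e2 : ∑ t ∈ Tb k b, ‖w t‖ ^ 2 =
          ∑ j ∈ Finset.Ico b k, (extz (fun i => ‖w i‖) j) ^ 2 := by
        rw [← sum_Tb]
        simp_rw [extz_val]
      rw [← e1, ← e2]
      exact h1
    · rw [extz_of_lt _ hk2, extz_of_lt _ hk1, extz_of_lt _ hk0]
      have b0 : ((⟨0, hk0⟩ : Fin k) : ℕ) < b := by simp only; omega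
      have b1 : ((⟨1, hk1⟩ : Fin k) : ℕ) < b := by simp only; omega
      have b2 : ((⟨2, hk2⟩ : Fin k) : ℕ) < b := by simp only; omega
      have n02 : (⟨0, hk0⟩ : Fin k) ≠ ⟨2, hk2⟩ := by simp
      have n12 : (⟨1, hk1⟩ : Fin k) ≠ ⟨2, hk2⟩ := by simp
      have n01 : (⟨0, hk0⟩ : Fin k) ≠ ⟨1, hk1⟩ := by simp
      obtain ⟨c, hc, -, -, h3⟩ := hY.pivot (q := ⟨2, hk2⟩) (hmemT b2)
        (N := {⟨0, hk0⟩, ⟨1, hk1⟩}) (by
          intro c hc
          simp only [Finset.mem_insert, Finset.mem_singleton] at hc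
          rcases hc with rfl | rfl
          · exact ⟨hmemT b0, n02⟩
          · exact ⟨hmemT b1, n12⟩) (by simp)
      have hcb : c.val < b ∧ c ≠ ⟨2, hk2⟩ ∧
          min (‖Y ⟨0, hk0⟩‖ ^ 2) (‖Y ⟨1, hk1⟩‖ ^ 2) ≤ ‖Y c‖ ^ 2 := by
        simp only [Finset.mem_insert, Finset.mem_singleton] at hc
        rcases hc with rfl | rfl
        · exact ⟨b0, n02, min_le_left _ _⟩
        · exact ⟨b1, n12, min_le_right _ _⟩
      have h4 := hpair ⟨2, hk2⟩ c b2 hcb.1 hcb.2.1.symm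
      have h5 : (({⟨0, hk0⟩, ⟨1, hk1⟩} : Finset (Fin k)).card : ℝ) = 2 := by
        rw [Finset.card_pair n01]; norm_num
      rw [h5] at h3
      have h6 : ‖Y ⟨2, hk2⟩‖ ^ 2 * min (‖Y ⟨0, hk0⟩‖ ^ 2) (‖Y ⟨1, hk1⟩‖ ^ 2) ≤
          ‖Y ⟨2, hk2⟩‖ ^ 2 * ‖Y c‖ ^ 2 := mul_le_mul_of_nonneg_left hcb.2.2 (sq_nonneg _)
      have h7 : (‖Y ⟨2, hk2⟩‖ ^ 2 / 2) ^ 2 = (‖Y ⟨2, hk2⟩‖ ^ 2) ^ 2 / 4 := by ring
      linarith
    · intro hb4
      rw [extz_of_lt _ hk2, extz_of_lt _ hk1, extz_of_lt _ hk0, extz_of_lt _ hk3]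
      have b0 : ((⟨0, hk0⟩ : Fin k) : ℕ) < b := by simp only; omega
      have b1 : ((⟨1, hk1⟩ : Fin k) : ℕ) < b := by simp only; omega
      have b2 : ((⟨2, hk2⟩ : Fin k) : ℕ) < b := by simp only; omega
      have b3 : ((⟨3, hk3⟩ : Fin k) : ℕ) < b := by simp only; omega
      have n10 : (⟨1, hk1⟩ : Fin k) ≠ ⟨0, hk0⟩ := by simp
      have n20 : (⟨2, hk2⟩ : Fin k) ≠ ⟨0, hk0⟩ := by simp
      have n30 : (⟨3, hk3⟩ : Fin k) ≠ ⟨0, hk0⟩ := by simp
      have n12 : (⟨1, hk1⟩ : Fin k) ≠ ⟨2, hk2⟩ := by simp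
      have n13 : (⟨1, hk1⟩ : Fin k) ≠ ⟨3, hk3⟩ := by simp
      have n23 : (⟨2, hk2⟩ : Fin k) ≠ ⟨3, hk3⟩ := by simp
      obtain ⟨c, hc, -, -, h3⟩ := hY.pivot (q := ⟨0, hk0⟩) (hmemT b0)
        (N := {⟨1, hk1⟩, ⟨2, hk2⟩, ⟨3, hk3⟩}) (by
          intro c hc
          simp only [Finset.mem_insert, Finset.mem_singleton] at hc
          rcases hc with rfl | rfl | rfl
          · exact ⟨hmemT b1, n10⟩
          · exact ⟨hmemT b2, n20⟩
          · exact ⟨hmemT b3, n30⟩) (by simp)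
      have hcb : c.val < b ∧ c ≠ ⟨0, hk0⟩ ∧
          min (‖Y ⟨1, hk1⟩‖ ^ 2) (min (‖Y ⟨2, hk2⟩‖ ^ 2) (‖Y ⟨3, hk3⟩‖ ^ 2)) ≤ ‖Y c‖ ^ 2 := by
        simp only [Finset.mem_insert, Finset.mem_singleton] at hc
        rcases hc with rfl | rfl | rfl
        · exact ⟨b1, n10, min_le_left _ _⟩
        · exact ⟨b2, n20, (min_le_right _ _).trans (min_le_left _ _)⟩
        · exact ⟨b3, n30, (min_le_right _ _).trans (min_le_right _ _)⟩
      have h4 := hpair ⟨0, hk0⟩ c b0 hcb.1 hcb.2.1.symm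
      have h5 : (({⟨1, hk1⟩, ⟨2, hk2⟩, ⟨3, hk3⟩} : Finset (Fin k)).card : ℝ) = 3 := by
        rw [Finset.card_insert_of_notMem (by simp), Finset.card_pair n23]; norm_num
      rw [h5] at h3
      have h6 : ‖Y ⟨0, hk0⟩‖ ^ 2 * min (‖Y ⟨1, hk1⟩‖ ^ 2)
          (min (‖Y ⟨2, hk2⟩‖ ^ 2) (‖Y ⟨3, hk3⟩‖ ^ 2)) ≤
          ‖Y ⟨0, hk0⟩‖ ^ 2 * ‖Y c‖ ^ 2 := mul_le_mul_of_nonneg_left hcb.2.2 (sq_nonneg _)
      have h7 : (‖Y ⟨0, hk0⟩‖ ^ 2 / 3) ^ 2 = (‖Y ⟨0, hk0⟩‖ ^ 2) ^ 2 / 9 := by ring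
      linarith
    · have h1 := hP hw hY (i := ⟨b, hbk⟩) (mem_Tb.2 le_rfl) (by rw [hcard]; exact hb3)
        hq.1 hq.2.1 hq.2.2
      rw [hcard, erase_Tb hbk] at h1
      have e2 : ∑ t ∈ Tb k (b + 1), ‖w t‖ ^ 2 =
          ∑ j ∈ Finset.Ico (b + 1) k, (extz (fun i => ‖w i‖) j) ^ 2 := by
        rw [← sum_Tb]
        simp_rw [extz_val]
      rw [e2] at h1
      rw [extz_of_lt _ hbk]
      exact h1.le
    · have h1 := hFO hw hY (i := ⟨b, hbk⟩) (mem_Tb.2 le_rfl) (by rw [hcard]; exact hb3)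
        hq.1 hq.2.1 hq.2.2
      rw [hcard, erase_Tb hbk] at h1
      have e2 : ∑ t ∈ Tb k (b + 1), ‖w t‖ ^ 2 =
          ∑ j ∈ Finset.Ico (b + 1) k, (extz (fun i => ‖w i‖) j) ^ 2 := by
        rw [← sum_Tb]
        simp_rw [extz_val]
      rw [e2] at h1
      rw [extz_of_lt _ hbk]
      exact h1

end main

end P226
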