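import Vale.Agent.P226.Exist
import Vale.Agent.P226.Glue

/-!
# P226 : three cells
-/

open MeasureTheory ProbabilityTheory Real
open scoped RealInnerProductSpace

namespace P226

variable {V : Type*} [NormedAddCommGroup V] [InnerProductSpace ℝ V] [FiniteDimensional ℝ V]
  [MeasurableSpace V] [BorelSpace V]

lemma sin_sq_three {a b c : ℝ} (h : a + b + c = π) :
    sin a ^ 2 + sin b ^ 2 + sin c ^ 2 ≤ 9 / 4 := by
  have hc : c = π - (a + b) := by linarith
  rw [hc, Real.sin_pi_sub]
  have h1 : cos (a - b) * cos (a + b) = 1 - sin a ^ 2 - sin b ^ 2 := by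
    rw [Real.cos_sub, Real.cos_add]
    have ha := Real.sin_sq_add_cos_sq a
    have hb := Real.sin_sq_add_cos_sq b
    linear_combination (cos b ^ 2) * ha + (1 - sin a ^ 2) * hb
  have h2 : sin (a + b) ^ 2 = 1 - cos (a + b) ^ 2 := by
    have := Real.sin_sq_add_cos_sq (a + b)
    linarith
  have h3 : cos (a - b) ^ 2 ≤ 1 := Real.cos_sq_le_one _
  nlinarith [sq_nonneg (cos (a + b) + cos (a - b) / 2)]

lemma mom_compl {A : Set V} (hA : MeasurableSet A) : mom Aᶜ = -mom A := by
  have h := integral_add_compl hA (integrable_id_std (V := V))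
  rw [integral_id_stdGaussian] at h
  unfold mom
  exact eq_neg_of_add_eq_zero_right h

/-- a planar sector of Gaussian measure `p` has first moment at most `sin (π p) / √(2π)`. -/
lemma sector_bound
    (hcap2 : ∀ W : Submodule ℝ V, Module.finrank ℝ W = 2 →
      ∀ A : Set V, MeasurableSet A → (∀ x ∈ A, ∀ c : ℝ, 0 < c → c • x ∈ A) →
      (∀ x ∈ A, ∀ y ∈ Wᗮ, x + y ∈ A) → ∀ {c : ℝ}, 0 ≤ c → c < 1 →
      ‖mom A‖ ≤ capJ 2 c + c * capM 2 * ((stdGaussian V).real A - capP 2 c))
    (W : Submodule ℝ V) (hW : Module.finrank ℝ W = 2) (A : Set V) (hA : MeasurableSet A)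
    (hcone : ∀ x ∈ A, ∀ c : ℝ, 0 < c → c • x ∈ A) (hinv : ∀ x ∈ A, ∀ y ∈ Wᗮ, x + y ∈ A) :
    ‖mom A‖ ≤ sin (π * (stdGaussian V).real A) / √(2 * π) := by
  -- small sectors
  have key : ∀ B : Set V, MeasurableSet B → (∀ x ∈ B, ∀ c : ℝ, 0 < c → c • x ∈ B) →
      (∀ x ∈ B, ∀ y ∈ Wᗮ, x + y ∈ B) → (stdGaussian V).real B ≤ 1 / 2 →
      ‖mom B‖ ≤ sin (π * (stdGaussian V).real B) / √(2 * π) := by
    intro B hB hBc hBi hp
    set p := (stdGaussian V).real B with hpdef
    have hp0 : 0 ≤ p := measureReal_nonneg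
    have hπ := Real.pi_pos
    rcases hp0.lt_or_eq with h0 | h0
    · have hx1 : 0 < π * p := by positivity
      have hx2 : π * p ≤ π / 2 := by nlinarith
      have hc0 : 0 ≤ cos (π * p) := Real.cos_nonneg_of_neg_pi_div_two_le_of_le (by linarith) hx2
      have hc1 : cos (π * p) < 1 := by
        rw [← Real.cos_zero]
        exact Real.cos_lt_cos_of_nonneg_of_le_pi le_rfl (by linarith) hx1
      have h := hcap2 W hW B hB hBc hBi hc0 hc1
      have hJ : capJ 2 (cos (π * p)) = sin (π * p) / √(2 * π) := by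
        unfold capJ
        congr 1
        have h1 : 1 - cos (π * p) ^ 2 = sin (π * p) ^ 2 := by
          have := Real.sin_sq_add_cos_sq (π * p)
          linarith
        have h2 : (((2 : ℕ) : ℝ) - 1) / 2 = 1 / 2 := by norm_num
        rw [h1, h2, ← Real.sqrt_eq_rpow, Real.sqrt_sq]
        exact Real.sin_nonneg_of_nonneg_of_le_pi hx1.le (by linarith)
      have hP : capP 2 (cos (π * p)) = p := by
        change arccos (cos (π * p)) / π = p
        rw [Real.arccos_cos hx1.le (by linarith)]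
        field_simp
      rw [hJ, hP, ← hpdef, sub_self, mul_zero, add_zero] at h
      exact h
    · rw [← h0, mul_zero, Real.sin_zero, zero_div]
      have h1 : stdGaussian V B = 0 := by
        have : (stdGaussian V).real B = 0 := h0.symm
        rwa [measureReal_eq_zero_iff] at this
      have h2 : mom B = 0 := by
        unfold mom
        rw [Measure.restrict_eq_zero.mpr h1, integral_zero_measure]
      rw [h2, norm_zero]
  rcases le_or_gt ((stdGaussian V).real A) (1 / 2) with h | h
  · exact key A hA hcone hinv h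
  · have h1 : (stdGaussian V).real Aᶜ = 1 - (stdGaussian V).real A := by
      rw [measureReal_compl hA]
      simp
    have h2 := key Aᶜ hA.compl
      (fun x hx c hc hcon => hx (by
        have := hcone _ hcon c⁻¹ (inv_pos.2 hc)
        rwa [smul_smul, inv_mul_cancel₀ hc.ne', one_smul] at this))
      (fun x hx y hy hcon => hx (by
        have := hinv _ hcon (-y) (Submodule.neg_mem _ hy)
        rwa [add_neg_cancel_right] at this)) (by rw [h1]; linarith)
    rw [mom_compl hA, norm_neg, h1, mul_sub, mul_one, Real.sin_pi_sub] at h2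
    exact h2

omit [FiniteDimensional ℝ V] [MeasurableSpace V] [BorelSpace V] in
lemma acell_cone {k : ℕ} (z : Fin k → V) (i : Fin k) :
    ∀ x ∈ acell z i, ∀ c : ℝ, 0 < c → c • x ∈ acell z i := by
  intro x hx c hc
  refine ⟨fun j => ?_, fun j hj => ?_⟩
  · rw [inner_smul_left, inner_smul_left]
    exact mul_le_mul_of_nonneg_left (hx.1 j) hc.le
  · rw [inner_smul_left, inner_smul_left]
    exact mul_lt_mul_of_pos_left (hx.2 j hj) hc

omit [FiniteDimensional ℝ V] [MeasurableSpace V] [BorelSpace V] in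
lemma acell_inv {k : ℕ} (z : Fin k → V) (i : Fin k) {W : Submodule ℝ V} (hW : ∀ j, z j ∈ W) :
    ∀ x ∈ acell z i, ∀ y ∈ Wᗮ, x + y ∈ acell z i := by
  intro x hx y hy
  have h : ∀ j, ⟪x + y, z j⟫ = ⟪x, z j⟫ := fun j => by
    rw [inner_add_left, Submodule.inner_left_of_mem_orthogonal (hW j) hy, add_zero]
  refine ⟨fun j => ?_, fun j hj => ?_⟩
  · rw [h, h]; exact hx.1 j
  · rw [h, h]; exact hx.2 j hj

/-- three cells: the propeller is optimal. -/
theorem bd_three
    (hcap2 : ∀ W : Submodule ℝ V, Module.finrank ℝ W = 2 →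
      ∀ A : Set V, MeasurableSet A → (∀ x ∈ A, ∀ c : ℝ, 0 < c → c • x ∈ A) →
      (∀ x ∈ A, ∀ y ∈ Wᗮ, x + y ∈ A) → ∀ {c : ℝ}, 0 ≤ c → c < 1 →
      ‖mom A‖ ≤ capJ 2 c + c * capM 2 * ((stdGaussian V).real A - capP 2 c))
    (hd : 2 ≤ Module.finrank ℝ V) : Bd V 3 := by
  obtain ⟨z, hz, -, hmax⟩ := exists_opt (V := V) (Fin 3)
  have hP := part_acell z
  have hsum : ∑ i, z i = 0 := by
    have := hP.sum_mom
    simpa only [hz] using this
  have hU := finrank_span_le z (by norm_num) hsum
  obtain ⟨W, hUW, hW⟩ := exists_super (Submodule.span ℝ (Set.range z)) 2 (by omega) hd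
  have hmem : ∀ j, z j ∈ W := fun j => hUW (Submodule.subset_span ⟨j, rfl⟩)
  have hb : ∀ i, ‖z i‖ ^ 2 ≤ sin (π * (stdGaussian V).real (acell z i)) ^ 2 / (2 * π) := by
    intro i
    have h := sector_bound hcap2 W hW (acell z i) (hP.meas i) (acell_cone z i)
      (acell_inv z i hmem)
    rw [hz i] at h
    have h2 := pow_le_pow_left₀ (norm_nonneg _) h 2
    rwa [div_pow, Real.sq_sqrt (by positivity)] at h2
  have hp := hP.sum_measure
  intro A hA
  refine (hmax A hA).trans ?_
  rw [Fin.sum_univ_three] at hp ⊢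
  have h3 := sin_sq_three (a := π * (stdGaussian V).real (acell z 0))
    (b := π * (stdGaussian V).real (acell z 1)) (c := π * (stdGaussian V).real (acell z 2))
    (by rw [← mul_add, ← mul_add, hp, mul_one])
  have h0 := hb 0
  have h1 := hb 1
  have h2 := hb 2
  have h4 : (sin (π * (stdGaussian V).real (acell z 0)) ^ 2 +
      sin (π * (stdGaussian V).real (acell z 1)) ^ 2 +
      sin (π * (stdGaussian V).real (acell z 2)) ^ 2) / (2 * π) ≤ (9 / 4) / (2 * π) :=
    div_le_div_of_nonneg_right h3 (by positivity)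
  have h5 : (9 / 4 : ℝ) / (2 * π) = 9 / (8 * π) := by
    field_simp; norm_num
  rw [h5, add_div, add_div] at h4
  linarith

end P226
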