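import Vale.Agent.P226.LC

/-!
# P226, Step 2 : the half space bound `cap_I`
-/

open MeasureTheory ProbabilityTheory Real
open scoped RealInnerProductSpace ENNReal

namespace P226

variable {V : Type*} [NormedAddCommGroup V] [InnerProductSpace ℝ V] [FiniteDimensional ℝ V]
  [MeasurableSpace V] [BorelSpace V]

/-! ### one-dimensional computation -/

lemma continuous_gpdf : Continuous gpdf := by
  unfold gpdf
  fun_prop

lemma gaussianPDFReal_eq_gpdf (t : ℝ) : gaussianPDFReal 0 1 t = gpdf t := by
  unfold gaussianPDFReal gpdf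
  simp only [NNReal.coe_one, mul_one, sub_zero]
  rw [div_eq_inv_mul (exp _)]

lemma integrable_mul_gpdf : Integrable fun x : ℝ => x * gpdf x := by
  have h := (integrable_mul_exp_neg_mul_sq (b := 1 / 2) (by norm_num)).div_const (√(2 * π))
  refine h.congr (Filter.Eventually.of_forall fun x => ?_)
  simp only [gpdf]
  rw [mul_div_assoc]
  congr 3
  ring

lemma tendsto_gpdf : Filter.Tendsto gpdf Filter.atTop (nhds 0) := by
  have h1 : Filter.Tendsto (fun x : ℝ => exp (-x) / √(2 * π)) Filter.atTop (nhds (0 / √(2 * π))) :=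
    Real.tendsto_exp_neg_atTop_nhds_zero.div_const _
  rw [zero_div] at h1
  refine squeeze_zero' (Filter.Eventually.of_forall fun x => ?_) ?_ h1
  · unfold gpdf; positivity
  · filter_upwards [Filter.eventually_ge_atTop (2 : ℝ)] with x hx
    unfold gpdf
    have : exp (-x ^ 2 / 2) ≤ exp (-x) := Real.exp_le_exp.mpr (by nlinarith)
    gcongr

lemma integral_Ioi_mul_gpdf (t : ℝ) : ∫ x in Set.Ioi t, x * gpdf x = gpdf t := by
  have hder : ∀ x ∈ Set.Ioi t, HasDerivAt (fun x => -gpdf x) (x * gpdf x) x := by
    intro x _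
    have h1 : HasDerivAt (fun x : ℝ => -x ^ 2 / 2) (-x) x := by
      have := ((hasDerivAt_pow 2 x).neg).div_const 2
      refine this.congr_deriv ?_
      norm_num
      ring
    have h2 := ((h1.exp).div_const (√(2 * π))).neg
    refine h2.congr_deriv ?_
    unfold gpdf
    ring
  have h := integral_Ioi_of_hasDerivAt_of_tendsto (a := t) (m := 0)
    (f := fun x => -gpdf x) (f' := fun x => x * gpdf x)
    continuous_gpdf.neg.continuousWithinAt hder integrable_mul_gpdf.integrableOn
    (by simpa using tendsto_gpdf.neg)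
  rw [h]
  ring

lemma integrable_id_gaussian : Integrable (fun g : ℝ => g) (gaussianReal 0 1) :=
  (IsGaussian.integrable_id (μ := gaussianReal 0 1))

lemma integral_pos_part (t : ℝ) :
    ∫ g, max (g - t) 0 ∂(gaussianReal 0 1) = gpdf t - t * gtail t := by
  have hna := nullSingletonClass_gaussianReal (μ := 0) (v := 1) one_ne_zero
  have h1 : ∫ g, max (g - t) 0 ∂(gaussianReal 0 1) =
      ∫ g in Set.Ioi t, (g - t) ∂(gaussianReal 0 1) := by
    rw [← integral_indicator measurableSet_Ioi]
    refine integral_congr_ae (Filter.Eventually.of_forall fun g => ?_)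
    by_cases hg : t < g
    · simp only
      rw [Set.indicator_of_mem (show g ∈ Set.Ioi t from hg), max_eq_left (by linarith)]
    · simp only
      rw [Set.indicator_of_notMem (show g ∉ Set.Ioi t from hg), max_eq_right (by linarith)]
  rw [h1, integral_sub integrable_id_gaussian.integrableOn (integrable_const _)]
  congr 1
  · have h2 : ∫ g in Set.Ioi t, g ∂(gaussianReal 0 1) =
        ∫ g, (Set.Ioi t).indicator (fun g => g) g ∂(gaussianReal 0 1) :=
      (integral_indicator measurableSet_Ioi).symm
    rw [h2, integral_gaussianReal_eq_integral_smul one_ne_zero, ← integral_Ioi_mul_gpdf t,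
      ← integral_indicator measurableSet_Ioi]
    refine integral_congr_ae (Filter.Eventually.of_forall fun g => ?_)
    simp only [smul_eq_mul]
    by_cases hg : g ∈ Set.Ioi t
    · rw [Set.indicator_of_mem hg, Set.indicator_of_mem hg, gaussianPDFReal_eq_gpdf]
      ring
    · rw [Set.indicator_of_notMem hg, Set.indicator_of_notMem hg, mul_zero]
  · rw [setIntegral_const, smul_eq_mul, mul_comm]
    congr 1
    unfold gtail
    rw [measureReal_def, measureReal_def, measure_congr Ioi_ae_eq_Ici]

/-! ### the half space bound -/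

lemma map_inner_unit {u : V} (hu : ‖u‖ = 1) :
    (stdGaussian V).map (fun x : V => ⟪x, u⟫) = gaussianReal 0 1 := by
  have hprob : IsProbabilityMeasure ((stdGaussian V).map (fun x : V => ⟪x, u⟫)) :=
    Measure.isProbabilityMeasure_map (by fun_prop)
  apply Measure.ext_of_charFun
  ext s
  rw [charFun_apply, integral_map (by fun_prop) (by fun_prop), charFun_gaussianReal]
  have h := charFun_stdGaussian (E := V) (s • u)
  rw [charFun_apply] at h
  have h1 : ∀ x : V, ⟪x, s • u⟫ = ⟪⟪x, u⟫, s⟫ := by
    intro x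
    rw [real_inner_smul_right]
    simp
  simp_rw [h1] at h
  rw [h, norm_smul, hu, mul_one]
  congr 1
  have h2 : (‖s‖ : ℝ) ^ 2 = s ^ 2 := by rw [Real.norm_eq_abs, sq_abs]
  have h3 : ((‖s‖ : ℝ) : ℂ) ^ 2 = (s : ℂ) ^ 2 := by exact_mod_cast h2
  rw [h3]
  push_cast
  ring

theorem cap_I (A : Set V) (_hA : MeasurableSet A) (t : ℝ) :
    ‖mom A‖ ≤ gpdf t + t * ((stdGaussian V).real A - gtail t) := by
  have hp1 : (stdGaussian V).real A ≤ 1 := measureReal_le_one
  have hp0 : 0 ≤ (stdGaussian V).real A := measureReal_nonneg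
  have hE : ∫ g, max (g - t) 0 ∂(gaussianReal 0 1) = gpdf t - t * gtail t := integral_pos_part t
  have hi1 : Integrable (fun g : ℝ => g - t) (gaussianReal 0 1) :=
    integrable_id_gaussian.sub (integrable_const _)
  have hi2 : Integrable (fun g : ℝ => max (g - t) 0) (gaussianReal 0 1) :=
    hi1.sup (integrable_const 0)
  rcases eq_or_ne (mom A) 0 with h0 | h0
  · rw [h0, norm_zero]
    have h1 : 0 ≤ ∫ g, max (g - t) 0 ∂(gaussianReal 0 1) :=
      integral_nonneg fun g => le_max_right _ _
    have h2 : -t ≤ ∫ g, max (g - t) 0 ∂(gaussianReal 0 1) := by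
      have h3 : ∫ g, (g - t) ∂(gaussianReal 0 1) = -t := by
        rw [integral_sub integrable_id_gaussian (integrable_const _)]
        simp
      rw [← h3]
      exact integral_mono hi1 hi2 fun g => le_max_left _ _
    rcases le_total 0 t with ht | ht
    · nlinarith
    · nlinarith
  · have hn : 0 < ‖mom A‖ := norm_pos_iff.mpr h0
    set u : V := ‖mom A‖⁻¹ • mom A with hu
    have hun : ‖u‖ = 1 := by rw [hu, norm_smul, norm_inv, norm_norm, inv_mul_cancel₀ hn.ne']
    have h1 : ‖mom A‖ = ∫ x in A, ⟪x, u⟫ ∂(stdGaussian V) := by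
      rw [← inner_mom, hu, real_inner_smul_right, real_inner_self_eq_norm_sq]
      field_simp
    have h2 : ∫ x in A, ⟪x, u⟫ ∂(stdGaussian V) =
        (∫ x in A, (⟪x, u⟫ - t) ∂(stdGaussian V)) + t * (stdGaussian V).real A := by
      rw [integral_sub (integrable_inner u).integrableOn (integrable_const _),
        setIntegral_const, smul_eq_mul]
      ring
    have hi3 : Integrable (fun x : V => ⟪x, u⟫ - t) (stdGaussian V) :=
      (integrable_inner u).sub (integrable_const _)
    have hi4 : Integrable (fun x : V => max (⟪x, u⟫ - t) 0) (stdGaussian V) :=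
      hi3.sup (integrable_const 0)
    have h3 : ∫ x in A, (⟪x, u⟫ - t) ∂(stdGaussian V) ≤
        ∫ x in A, max (⟪x, u⟫ - t) 0 ∂(stdGaussian V) :=
      integral_mono hi3.integrableOn hi4.integrableOn fun x => le_max_left _ _
    have h4 : ∫ x in A, max (⟪x, u⟫ - t) 0 ∂(stdGaussian V) ≤
        ∫ x, max (⟪x, u⟫ - t) 0 ∂(stdGaussian V) :=
      setIntegral_le_integral hi4 (Filter.Eventually.of_forall fun x => le_max_right _ _)
    have h5 : ∫ x, max (⟪x, u⟫ - t) 0 ∂(stdGaussian V) =
        ∫ g, max (g - t) 0 ∂(gaussianReal 0 1) := by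
      rw [← map_inner_unit hun, integral_map (by fun_prop) (by fun_prop)]
    rw [h1, h2]
    rw [h5, hE] at h4
    linarith

end P226
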