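import Vale.Agent.P226.Lift

/-!
# P226, Step 2 : reduction of the cap bound to the case `W = V`
-/

open MeasureTheory ProbabilityTheory Real
open scoped RealInnerProductSpace ENNReal

namespace P226

variable {V : Type*} [NormedAddCommGroup V] [InnerProductSpace ℝ V] [FiniteDimensional ℝ V]
  [MeasurableSpace V] [BorelSpace V]

lemma mom_mem (W : Submodule ℝ V) {A : Set V} (hA : MeasurableSet A)
    (hinv : ∀ x ∈ A, ∀ y ∈ Wᗮ, x + y ∈ A) : mom A ∈ W := by
  rw [← Submodule.reflection_eq_self_iff]
  have hpre : W.reflection ⁻¹' A = A := by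
    have h1 : ∀ x : V, W.reflection x - x ∈ Wᗮ := by
      intro x
      have h2 : W.reflection x - x = (-2 : ℝ) • (x - W.starProjection x) := by
        rw [Submodule.reflection_apply, smul_sub, two_nsmul]
        module
      rw [h2]
      exact Wᗮ.smul_mem _ (Submodule.sub_starProjection_mem_orthogonal x)
    ext x
    constructor
    · intro hx
      have h2 := hinv _ hx (x - W.reflection x) (by
        rw [← neg_sub]
        exact Wᗮ.neg_mem (h1 x))
      rwa [add_sub_cancel] at h2
    · intro hx
      have h2 := hinv _ hx _ (h1 x)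
      rw [add_sub_cancel] at h2
      exact h2
  have hmap : (stdGaussian V).map W.reflection = stdGaussian V := stdGaussian_map W.reflection
  unfold mom
  have h3 : W.reflection (∫ x in A, x ∂(stdGaussian V)) =
      ∫ x in A, W.reflection x ∂(stdGaussian V) := by
    have := ContinuousLinearMap.integral_comp_comm
      (W.reflection.toContinuousLinearEquiv : V →L[ℝ] V)
      (integrable_id_std (V := V)).integrableOn (μ := (stdGaussian V).restrict A)
    exact this.symm
  rw [h3]
  conv_rhs => rw [← hmap]
  rw [setIntegral_map hA (by fun_prop) (by fun_prop), hpre]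

theorem cap_red {n : ℕ} (W : Submodule ℝ V) {c : ℝ}
    (hbase : ∀ A' : Set W, MeasurableSet A' → (∀ x ∈ A', ∀ r : ℝ, 0 < r → r • x ∈ A') →
      ‖mom A'‖ ≤ capJ n c + c * capM n * ((stdGaussian W).real A' - capP n c))
    (A : Set V) (hA : MeasurableSet A) (hcone : ∀ x ∈ A, ∀ r : ℝ, 0 < r → r • x ∈ A)
    (hinv : ∀ x ∈ A, ∀ y ∈ Wᗮ, x + y ∈ A) :
    ‖mom A‖ ≤ capJ n c + c * capM n * ((stdGaussian V).real A - capP n c) := by
  set J : W →ₗᵢ[ℝ] V := W.subtypeₗᵢ with hJ
  set T := ContinuousLinearMap.adjoint J.toContinuousLinearMap with hT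
  set A' : Set W := {w | (w : V) ∈ A} with hA'
  have hA'm : MeasurableSet A' := measurable_subtype_coe hA
  have hTx : ∀ x : V, ((T x : W) : V) = W.starProjection x := by
    intro x
    rw [hT, hJ]
    have : ContinuousLinearMap.adjoint W.subtypeₗᵢ.toContinuousLinearMap =
        W.orthogonalProjectionOnto := Submodule.adjoint_subtypeL W
    rw [this]
    rfl
  have hpre : T ⁻¹' A' = A := by
    ext x
    have h1 : x - W.starProjection x ∈ Wᗮ := Submodule.sub_starProjection_mem_orthogonal x
    constructor
    · intro hx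
      have h2 : W.starProjection x ∈ A := by
        rw [← hTx]
        exact hx
      have h3 := hinv _ h2 _ h1
      rwa [add_sub_cancel] at h3
    · intro hx
      show ((T x : W) : V) ∈ A
      rw [hTx]
      have h3 := hinv _ hx _ (Wᗮ.neg_mem h1)
      rw [neg_sub, add_sub_cancel] at h3
      exact h3
  have hmap := map_adjoint J
  rw [← hT] at hmap
  have h1 : (stdGaussian V).real A = (stdGaussian W).real A' := by
    rw [measureReal_def, measureReal_def, ← hmap, Measure.map_apply (by fun_prop) hA'm, hpre]
  have h2 : T (mom A) = mom A' := by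
    unfold mom
    rw [← ContinuousLinearMap.integral_comp_comm T
      (integrable_id_std (V := V)).integrableOn]
    conv_rhs => rw [← hmap]
    rw [setIntegral_map hA'm (by fun_prop) (by fun_prop), hpre]
  have h3 : ‖mom A‖ = ‖mom A'‖ := by
    rw [← h2]
    have h4 : ‖T (mom A)‖ = ‖((T (mom A) : W) : V)‖ := rfl
    rw [h4, hTx, Submodule.starProjection_eq_self_iff.mpr (mom_mem W hA hinv)]
  rw [h1, h3]
  exact hbase A' hA'm (fun x hx r hr => hcone _ hx r hr)

end P226
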