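import Vale.Agent.P226.CapsJ

/-!
# P226, Step 2 : cap bound for cones in `V` itself
-/

open MeasureTheory ProbabilityTheory Real
open scoped RealInnerProductSpace ENNReal

namespace P226

/-- a function whose backward increments are bounded below quadratically is antitone. -/
lemma anti_of_quad {D : ℝ → ℝ} {a b C : ℝ} (hab : a ≤ b)
    (h : ∀ c c', a ≤ c → c ≤ c' → c' ≤ b → D c' - C * (c' - c) ^ 2 ≤ D c) : D b ≤ D a := by
  have hstep : ∀ N : ℕ, 0 < N → ∀ i : ℕ, i ≤ N →
      D (a + i * ((b - a) / N)) - i * (C * ((b - a) / N) ^ 2) ≤ D a := by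
    intro N hN i
    have hN' : (0 : ℝ) < N := by exact_mod_cast hN
    have hd : 0 ≤ (b - a) / N := by
      have := sub_nonneg.mpr hab
      positivity
    induction i with
    | zero => intro _; simp
    | succ i ih =>
      intro hi
      have h1 := ih (by omega)
      have h2 := h (a + i * ((b - a) / N)) (a + (i + 1) * ((b - a) / N))
        (by have : 0 ≤ (i : ℝ) * ((b - a) / N) := by positivity
            linarith) (by nlinarith) (by
          have h3 : ((i : ℝ) + 1) ≤ N := by exact_mod_cast hi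
          have h4 : ((i : ℝ) + 1) * ((b - a) / N) ≤ N * ((b - a) / N) := by gcongr
          rw [mul_div_cancel₀ _ hN'.ne'] at h4
          linarith)
      have h5 : a + (i + 1) * ((b - a) / N) - (a + i * ((b - a) / N)) = (b - a) / N := by ring
      rw [h5] at h2
      push_cast
      linarith
  have hlim : Filter.Tendsto (fun N : ℕ => D b - C * (b - a) ^ 2 * (1 / ((N : ℝ) + 1)))
      Filter.atTop (nhds (D b - C * (b - a) ^ 2 * 0)) :=
    (tendsto_one_div_add_atTop_nhds_zero_nat.const_mul _).const_sub _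
  rw [mul_zero, sub_zero] at hlim
  refine le_of_tendsto' hlim fun N => ?_
  have h1 := hstep (N + 1) (by omega) (N + 1) le_rfl
  have hN : (0 : ℝ) < (N : ℝ) + 1 := by positivity
  push_cast at h1
  have h2 : a + ((N : ℝ) + 1) * ((b - a) / ((N : ℝ) + 1)) = b := by
    field_simp
    ring
  have h3 : ((N : ℝ) + 1) * (C * ((b - a) / ((N : ℝ) + 1)) ^ 2) =
      C * (b - a) ^ 2 * (1 / ((N : ℝ) + 1)) := by
    field_simp
  rw [h2, h3] at h1
  exact h1

/-- abstract comparison. -/
lemma lower_of_deriv {J P κ h : ℝ → ℝ} {m : ℝ} (hm : 0 < m)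
    (hJ : ∀ s, 0 < s → s < 1 → HasDerivAt J (-(m * s * κ s)) s)
    (hP : ∀ s, 0 < s → s < 1 → HasDerivAt P (-κ s) s)
    (hκ : ∀ a b, 0 < a → b < 1 → ∃ B, ∀ s, a ≤ s → s ≤ b → |κ s| ≤ B)
    (hP1 : Filter.Tendsto P (nhdsWithin 1 (Set.Iio 1)) (nhds 0))
    (hh : ∀ c c', 0 < c → c < 1 → 0 < c' → c' < 1 → J c ≤ J c' + c' * m * (h c - h c'))
    (hh0 : ∀ c, 0 ≤ h c) {c : ℝ} (hc0 : 0 < c) (hc1 : c < 1) : P c ≤ h c := by
  -- D = h - P is antitone on (0,1)
  have hanti : ∀ b, c ≤ b → b < 1 → h b - P b ≤ h c - P c := by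
    intro b hcb hb1
    obtain ⟨B, hB⟩ := hκ c b hc0 hb1
    refine anti_of_quad (D := fun s => h s - P s) (C := B / c) hcb fun s s' hs hss' hs' => ?_
    rcases hss'.eq_or_lt with rfl | hlt
    · simp
    have hs0 : 0 < s := hc0.trans_le hs
    have hs'0 : 0 < s' := hs0.trans hlt
    have hs'1 : s' < 1 := hs'.trans_lt hb1
    have h1 := hh s s' hs0 (hlt.trans hs'1) hs'0 hs'1
    -- ψ t = J t / (m s') - P t
    have hψ : ∀ t ∈ Set.Icc s s', HasDerivAt (fun t => J t / (m * s') - P t)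
        (κ t * ((s' - t) / s')) t := by
      intro t ht
      have ht0 : 0 < t := hs0.trans_le ht.1
      have ht1 : t < 1 := ht.2.trans_lt hs'1
      refine (((hJ t ht0 ht1).div_const (m * s')).sub (hP t ht0 ht1)).congr_deriv ?_
      field_simp
      ring
    obtain ⟨t, ht, hslope⟩ := exists_hasDerivAt_eq_slope (fun t => J t / (m * s') - P t)
      (fun t => κ t * ((s' - t) / s')) hlt
      (fun t ht => (hψ t ht).continuousAt.continuousWithinAt)
      (fun t ht => hψ t ⟨ht.1.le, ht.2.le⟩)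
    have hκt := hB t (hs.trans ht.1.le) (ht.2.le.trans hs')
    have hbd : κ t * ((s' - t) / s') ≤ B * ((s' - s) / c) := by
      have e1 : κ t ≤ B := (le_abs_self _).trans hκt
      have e2 : 0 ≤ (s' - t) / s' := div_nonneg (by linarith [ht.2]) hs'0.le
      have e3 : (s' - t) / s' ≤ (s' - s) / c := by
        have : 0 ≤ s' - s := by linarith
        have := ht.1
        gcongr
        linarith
      have e4 : 0 ≤ B := (abs_nonneg _).trans hκt
      calc κ t * ((s' - t) / s') ≤ B * ((s' - t) / s') := by gcongr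
        _ ≤ B * ((s' - s) / c) := by gcongr
    rw [hslope, div_le_iff₀ (by linarith)] at hbd
    have h2 : J s / (m * s') - J s' / (m * s') ≤ h s - h s' := by
      rw [← sub_div, div_le_iff₀ (by positivity)]
      linarith
    have e5 : B * ((s' - s) / c) * (s' - s) = B / c * (s' - s) ^ 2 := by ring
    rw [e5] at hbd
    linarith
  have hlim : Filter.Tendsto (fun b => -P b) (nhdsWithin 1 (Set.Iio 1)) (nhds 0) := by
    simpa using hP1.neg
  have hev : ∀ᶠ b in nhdsWithin (1 : ℝ) (Set.Iio 1), -P b ≤ h c - P c := by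
    have : Set.Ioo c 1 ∈ nhdsWithin (1 : ℝ) (Set.Iio 1) := Ioo_mem_nhdsLT hc1
    filter_upwards [this] with b hb
    have := hanti b hb.1.le hb.2
    have := hh0 b
    linarith
  have := le_of_tendsto hlim hev
  linarith

/-! ### derivatives of `capJ` and `capP` -/

/-- `K_n (1-s²)^{(n-3)/2}`. -/
noncomputable def capK (n : ℕ) (s : ℝ) : ℝ :=
  ((n : ℝ) - 1) * (1 - s ^ 2) ^ (((n : ℝ) - 3) / 2) / (√(2 * π) * capM n)

lemma capM_pos {n : ℕ} (hn : n = 2 ∨ n = 3 ∨ n = 4 ∨ n = 5 ∨ n = 7) : 0 < capM n := by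
  rcases hn with rfl | rfl | rfl | rfl | rfl <;> simp only [capM] <;> positivity

lemma hasDerivAt_capJ {n : ℕ} (hn : n = 2 ∨ n = 3 ∨ n = 4 ∨ n = 5 ∨ n = 7) {s : ℝ} (h0 : 0 < s)
    (h1 : s < 1) : HasDerivAt (capJ n) (-(capM n * s * capK n s)) s := by
  have hpos : 0 < 1 - s ^ 2 := by nlinarith
  have hm := capM_pos hn
  have d1 : HasDerivAt (fun s : ℝ => 1 - s ^ 2) (-(2 * s)) s := by
    have := (hasDerivAt_pow 2 s).const_sub 1
    refine this.congr_deriv ?_
    norm_num
  have d2 := (d1.rpow_const (p := ((n : ℝ) - 1) / 2) (Or.inl hpos.ne')).div_const (√(2 * π))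
  refine d2.congr_deriv ?_
  unfold capK
  rw [show ((n : ℝ) - 1) / 2 - 1 = ((n : ℝ) - 3) / 2 by ring]
  field_simp

lemma sqrt_prod : √(2 * π) * √(2 / π) = 2 := by
  rw [← Real.sqrt_mul (by positivity), show 2 * π * (2 / π) = 2 ^ 2 by field_simp,
    Real.sqrt_sq (by norm_num)]

lemma sqrt_prod' : √(2 * π) * √(π / 2) = π := by
  rw [← Real.sqrt_mul (by positivity), show 2 * π * (π / 2) = π ^ 2 by ring,
    Real.sqrt_sq pi_pos.le]

lemma capK_two (s : ℝ) : capK 2 s = (1 - s ^ 2) ^ (-(1 / 2) : ℝ) / π := by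
  simp only [capK, capM]
  rw [sqrt_prod']
  norm_num

lemma capK_three (s : ℝ) : capK 3 s = 1 / 2 := by
  simp only [capK, capM]
  rw [show √(2 * π) * (2 * √(2 / π)) = 4 by linear_combination 2 * sqrt_prod]
  norm_num

lemma capK_four (s : ℝ) : capK 4 s = 2 * √(1 - s ^ 2) / π := by
  simp only [capK, capM]
  rw [show √(2 * π) * (3 / 2 * √(π / 2)) = 3 / 2 * π by linear_combination 3 / 2 * sqrt_prod',
    Real.sqrt_eq_rpow]
  norm_num
  field_simp

lemma capK_five (s : ℝ) : capK 5 s = 3 / 4 * (1 - s ^ 2) := by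
  simp only [capK, capM]
  rw [show √(2 * π) * (8 / 3 * √(2 / π)) = 16 / 3 by linear_combination 8 / 3 * sqrt_prod]
  norm_num
  ring

lemma capK_seven (s : ℝ) : capK 7 s = 15 / 16 * (1 - s ^ 2) ^ 2 := by
  simp only [capK, capM]
  rw [show √(2 * π) * (16 / 5 * √(2 / π)) = 32 / 5 by linear_combination 16 / 5 * sqrt_prod]
  norm_num
  ring

lemma hasDerivAt_capP {n : ℕ} (hn : n = 2 ∨ n = 3 ∨ n = 4 ∨ n = 5 ∨ n = 7) {s : ℝ} (h0 : 0 < s)
    (h1 : s < 1) : HasDerivAt (capP n) (-capK n s) s := by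
  have hpos : 0 < 1 - s ^ 2 := by nlinarith
  have hsq : √(1 - s ^ 2) ^ 2 = 1 - s ^ 2 := Real.sq_sqrt hpos.le
  have hsp : 0 < √(1 - s ^ 2) := Real.sqrt_pos.mpr hpos
  have d1 : HasDerivAt (fun s : ℝ => 1 - s ^ 2) (-(2 * s)) s := by
    have := (hasDerivAt_pow 2 s).const_sub 1
    refine this.congr_deriv ?_
    norm_num
  have da := Real.hasDerivAt_arccos (by linarith : s ≠ -1) (by linarith : s ≠ 1)
  rcases hn with rfl | rfl | rfl | rfl | rfl
  · have : capP 2 = fun c => arccos c / π := by ext c; simp only [capP]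
    rw [this, capK_two, Real.rpow_neg hpos.le, ← Real.sqrt_eq_rpow]
    refine (da.div_const π).congr_deriv ?_
    rw [neg_div, one_div]
  · have : capP 3 = fun c => (1 - c) / 2 := by ext c; simp only [capP]
    rw [this, capK_three]
    exact (((hasDerivAt_id s).const_sub 1).div_const 2).congr_deriv (by norm_num)
  · have : capP 4 = fun c => (arccos c - c * √(1 - c ^ 2)) / π := by ext c; simp only [capP]
    rw [this, capK_four]
    refine ((da.sub ((hasDerivAt_id s).mul (d1.sqrt hpos.ne'))).div_const π).congr_deriv ?_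
    simp only [id]
    field_simp
    rw [hsq]
    ring
  · have : capP 5 = fun c => 1 / 2 - 3 / 4 * c + 1 / 4 * c ^ 3 := by ext c; simp only [capP]
    rw [this, capK_five]
    refine ((((hasDerivAt_id s).const_mul (3 / 4 : ℝ)).const_sub (1 / 2)).add
      ((hasDerivAt_pow 3 s).const_mul (1 / 4 : ℝ))).congr_deriv ?_
    norm_num
    ring
  · have : capP 7 = fun c => 1 / 2 - 15 / 16 * (c - 2 / 3 * c ^ 3 + 1 / 5 * c ^ 5) := by
      ext c; simp only [capP]
    rw [this, capK_seven]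
    refine (((((hasDerivAt_id s).sub ((hasDerivAt_pow 3 s).const_mul (2 / 3 : ℝ))).add
      ((hasDerivAt_pow 5 s).const_mul (1 / 5 : ℝ))).const_mul (15 / 16 : ℝ)).const_sub
      (1 / 2)).congr_deriv ?_
    norm_num
    ring

lemma capK_bound (n : ℕ) (a b : ℝ) (ha : 0 < a) (hb : b < 1) :
    ∃ B, ∀ s, a ≤ s → s ≤ b → |capK n s| ≤ B := by
  have hc : ContinuousOn (capK n) (Set.Icc a b) := by
    unfold capK
    refine ContinuousOn.div_const (continuousOn_const.mul ?_) _
    refine ContinuousOn.rpow_const (by fun_prop) fun s hs => Or.inl ?_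
    have h1 : 0 < s := ha.trans_le hs.1
    have h2 : s < 1 := hs.2.trans_lt hb
    nlinarith
  obtain ⟨B, hB⟩ := isCompact_Icc.exists_bound_of_continuousOn hc
  exact ⟨B, fun s h1 h2 => by simpa using hB s ⟨h1, h2⟩⟩

lemma tendsto_capP {n : ℕ} (hn : n = 2 ∨ n = 3 ∨ n = 4 ∨ n = 5 ∨ n = 7) :
    Filter.Tendsto (capP n) (nhdsWithin 1 (Set.Iio 1)) (nhds 0) := by
  have key : Continuous (capP n) ∧ capP n 1 = 0 := by
    rcases hn with rfl | rfl | rfl | rfl | rfl
    · have : capP 2 = fun c => arccos c / π := by ext c; simp only [capP]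
      rw [this]
      exact ⟨by fun_prop, by simp⟩
    · have : capP 3 = fun c => (1 - c) / 2 := by ext c; simp only [capP]
      rw [this]
      exact ⟨by fun_prop, by simp⟩
    · have : capP 4 = fun c => (arccos c - c * √(1 - c ^ 2)) / π := by ext c; simp only [capP]
      rw [this]
      exact ⟨by fun_prop, by simp⟩
    · have : capP 5 = fun c => 1 / 2 - 3 / 4 * c + 1 / 4 * c ^ 3 := by ext c; simp only [capP]
      rw [this]
      exact ⟨by fun_prop, by norm_num⟩
    · have : capP 7 = fun c => 1 / 2 - 15 / 16 * (c - 2 / 3 * c ^ 3 + 1 / 5 * c ^ 5) := by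
        ext c; simp only [capP]
      rw [this]
      exact ⟨by fun_prop, by norm_num⟩
  have h := key.1.tendsto 1
  rw [key.2] at h
  exact h.mono_left nhdsWithin_le_nhds

/-! ### the cap bound in `V` -/

variable {V : Type*} [NormedAddCommGroup V] [InnerProductSpace ℝ V] [FiniteDimensional ℝ V]
  [MeasurableSpace V] [BorelSpace V]

/-- `E[ξ; A] ≤ J_n(c) + c (E[|x|; A] - E[|x|; K_c])`. -/
lemma inner_le_rcone {u : V} (hu : ‖u‖ = 1) {c : ℝ} (hc0 : 0 ≤ c) (hc1 : c < 1) {A : Set V}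
    (hA : MeasurableSet A) :
    ∫ x in A, ⟪x, u⟫ ∂(stdGaussian V) ≤ capJ (Module.finrank ℝ V) c +
      c * (∫ x in A, ‖x‖ ∂(stdGaussian V) - ∫ x in rcone u c, ‖x‖ ∂(stdGaussian V)) := by
  have hn : Integrable (fun x : V => ‖x‖) (stdGaussian V) :=
    (IsGaussian.integrable_id (μ := stdGaussian V)).norm
  have hi := integrable_inner (V := V) u
  have hf : Integrable (fun x : V => ⟪x, u⟫ - c * ‖x‖) (stdGaussian V) := hi.sub (hn.const_mul c)
  have h1 := setIntegral_le_nonneg (μ := stdGaussian V) (f := fun x : V => ⟪x, u⟫ - c * ‖x‖) hA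
    (by fun_prop) hf
  have h2 : {y : V | 0 ≤ ⟪y, u⟫ - c * ‖y‖} = rcone u c := by
    ext y
    show 0 ≤ ⟪y, u⟫ - c * ‖y‖ ↔ c * ‖y‖ ≤ ⟪y, u⟫
    rw [sub_nonneg]
  rw [h2, integral_sub hi.restrict (hn.const_mul c).restrict,
    integral_sub hi.restrict (hn.const_mul c).restrict, integral_const_mul, integral_const_mul,
    int_rcone hu hc0 hc1] at h1
  linarith

/-- cap bound, given the polar formula for cones. -/
theorem cap_cone {n : ℕ} (hn : n = 2 ∨ n = 3 ∨ n = 4 ∨ n = 5 ∨ n = 7)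
    (hd : Module.finrank ℝ V = n)
    (hpol : ∀ A : Set V, MeasurableSet A → (∀ x ∈ A, ∀ c : ℝ, 0 < c → c • x ∈ A) →
      ∫ x in A, ‖x‖ ∂(stdGaussian V) = capM n * (stdGaussian V).real A)
    {A : Set V} (hA : MeasurableSet A) (hcone : ∀ x ∈ A, ∀ c : ℝ, 0 < c → c • x ∈ A)
    {c : ℝ} (hc0 : 0 ≤ c) (hc1 : c < 1) :
    ‖mom A‖ ≤ capJ n c + c * capM n * ((stdGaussian V).real A - capP n c) := by
  have hm := capM_pos hn
  have hrc : ∀ (u : V) (c : ℝ), ∀ x ∈ rcone u c, ∀ r : ℝ, 0 < r → r • x ∈ rcone u c := by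
    intro u c x hx r hr
    have hx' : c * ‖x‖ ≤ ⟪x, u⟫ := hx
    show c * ‖r • x‖ ≤ ⟪r • x, u⟫
    rw [norm_smul, real_inner_smul_left, Real.norm_of_nonneg hr.le]
    nlinarith
  -- the bound with the true cone measure
  have main : ∀ u : V, ‖u‖ = 1 → ∀ c : ℝ, 0 ≤ c → c < 1 → ∀ A : Set V, MeasurableSet A →
      (∀ x ∈ A, ∀ c : ℝ, 0 < c → c • x ∈ A) → ∫ x in A, ⟪x, u⟫ ∂(stdGaussian V) ≤
      capJ n c + c * capM n * ((stdGaussian V).real A - (stdGaussian V).real (rcone u c)) := by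
    intro u hu c hc0 hc1 A hA hcone
    have h1 := inner_le_rcone hu hc0 hc1 hA
    rw [hpol A hA hcone, hpol _ (measurableSet_rcone u c) (hrc u c), hd] at h1
    refine h1.trans (le_of_eq ?_)
    ring
  have hmeas : ∀ u : V, ‖u‖ = 1 → ∀ c : ℝ, 0 < c → c < 1 →
      capP n c ≤ (stdGaussian V).real (rcone u c) := by
    intro u hu c hc0 hc1
    refine lower_of_deriv (J := capJ n) (P := capP n) (κ := capK n)
      (h := fun c => (stdGaussian V).real (rcone u c)) hm (fun s h0 h1 => hasDerivAt_capJ hn h0 h1)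
      (fun s h0 h1 => hasDerivAt_capP hn h0 h1) (capK_bound n) (tendsto_capP hn) ?_
      (fun c => measureReal_nonneg) hc0 hc1
    intro c c' h1 h2 h3 h4
    have h5 := main u hu c' h3.le h4 (rcone u c) (measurableSet_rcone u c) (hrc u c)
    rw [int_rcone hu h1.le h2, hd] at h5
    exact h5
  have main2 : ∀ u : V, ‖u‖ = 1 → ⟪mom A, u⟫ ≤
      capJ n c + c * capM n * ((stdGaussian V).real A - capP n c) := by
    intro u hu
    rw [inner_mom]
    refine (main u hu c hc0 hc1 A hA hcone).trans ?_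
    rcases hc0.eq_or_lt with rfl | hc
    · simp
    · have := hmeas u hu c hc hc1
      gcongr
  by_cases h0 : mom A = 0
  · have : Nontrivial V := by
      rw [← Module.finrank_pos_iff (R := ℝ), hd]
      omega
    obtain ⟨u, hu⟩ := exists_norm_eq V (zero_le_one' ℝ)
    have h1 := main2 u hu
    rw [h0, inner_zero_left] at h1
    rw [h0, norm_zero]
    exact h1
  · have hne : ‖mom A‖ ≠ 0 := norm_ne_zero_iff.mpr h0
    have h1 := main2 (‖mom A‖⁻¹ • mom A) (by
      rw [norm_smul, norm_inv, norm_norm, inv_mul_cancel₀ hne])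
    rw [real_inner_smul_right, real_inner_self_eq_norm_sq] at h1
    have : ‖mom A‖⁻¹ * ‖mom A‖ ^ 2 = ‖mom A‖ := by
      field_simp
    rwa [this] at h1

end P226
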