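import Vale.Agent.P226.Density
import Mathlib.MeasureTheory.Constructions.HaarToSphere

/-!
# P226, Step 2 : `E[|x|; A] = m_n γ(A)` for measurable cones
-/

open MeasureTheory ProbabilityTheory Real
open scoped RealInnerProductSpace ENNReal

namespace P226

variable {V : Type*} [NormedAddCommGroup V] [InnerProductSpace ℝ V] [FiniteDimensional ℝ V]
  [MeasurableSpace V] [BorelSpace V]

/-- polar coordinates on a cone. -/
lemma cone_polar [Nontrivial V] {A : Set V} (hA : MeasurableSet A)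
    (hcone : ∀ x ∈ A, ∀ c : ℝ, 0 < c → c • x ∈ A) (f : ℝ → ℝ) :
    ∫ x in A, f ‖x‖ =
      ((volume : Measure V).toSphere).real (Subtype.val ⁻¹' A) *
        ∫ y in Set.Ioi (0 : ℝ), y ^ (Module.finrank ℝ V - 1) * f y := by
  classical
  set μ : Measure V := volume with hμ
  set τ := μ.toSphere with hτ
  have hmem : ∀ (ω : V) (r : ℝ), 0 < r → (r • ω ∈ A ↔ ω ∈ A) := by
    intro ω r hr
    constructor
    · intro h
      have := hcone _ h r⁻¹ (inv_pos.2 hr)
      rwa [smul_smul, inv_mul_cancel₀ hr.ne', one_smul] at this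
    · intro h
      exact hcone _ h r hr
  have hS : MeasurableSet (Subtype.val ⁻¹' A : Set (Metric.sphere (0 : V) 1)) :=
    measurable_subtype_coe hA
  let g : Metric.sphere (0 : V) 1 → ℝ :=
    (Subtype.val ⁻¹' A : Set (Metric.sphere (0 : V) 1)).indicator fun _ => 1
  calc ∫ x in A, f ‖x‖ ∂μ = ∫ x, A.indicator (fun x => f ‖x‖) x ∂μ :=
        (integral_indicator hA).symm
    _ = ∫ x : ({(0 : V)}ᶜ : Set V), A.indicator (fun x => f ‖x‖) x.1 ∂(μ.comap (↑)) := by
      rw [integral_subtype_comap (measurableSet_singleton _).compl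
        (fun x => A.indicator (fun x => f ‖x‖) x), restrict_compl_singleton]
    _ = ∫ p : Metric.sphere (0 : V) 1 × Set.Ioi (0 : ℝ), g p.1 * f p.2.1
          ∂(τ.prod (Measure.volumeIoiPow (Module.finrank ℝ V - 1))) := by
      have h := μ.measurePreserving_homeomorphUnitSphereProd.integral_comp
        (Homeomorph.measurableEmbedding _)
        (fun p : Metric.sphere (0 : V) 1 × Set.Ioi (0 : ℝ) => g p.1 * f p.2.1)
      rw [hτ, ← h]
      refine integral_congr_ae (Filter.Eventually.of_forall fun x => ?_)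
      have hx0 : 0 < ‖x.1‖ := norm_pos_iff.2 x.2
      have h1 : ((homeomorphUnitSphereProd V x).1 : V) = ‖x.1‖⁻¹ • x.1 := by
        simp [homeomorphUnitSphereProd_apply_fst_coe]
      have h2 : ((homeomorphUnitSphereProd V x).2 : ℝ) = ‖x.1‖ := by
        simp [homeomorphUnitSphereProd_apply_snd_coe]
      simp only [g, h2]
      by_cases hxA : x.1 ∈ A
      · have h3 : (homeomorphUnitSphereProd V x).1 ∈
            (Subtype.val ⁻¹' A : Set (Metric.sphere (0 : V) 1)) := by
          rw [Set.mem_preimage, h1, hmem _ _ (inv_pos.2 hx0)]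
          exact hxA
        rw [Set.indicator_of_mem hxA, Set.indicator_of_mem h3, one_mul]
      · have h3 : (homeomorphUnitSphereProd V x).1 ∉
            (Subtype.val ⁻¹' A : Set (Metric.sphere (0 : V) 1)) := by
          rw [Set.mem_preimage, h1, hmem _ _ (inv_pos.2 hx0)]
          exact hxA
        rw [Set.indicator_of_notMem hxA, Set.indicator_of_notMem h3, zero_mul]
    _ = (∫ ω, g ω ∂τ) * ∫ y : Set.Ioi (0 : ℝ), f y.1
          ∂(Measure.volumeIoiPow (Module.finrank ℝ V - 1)) :=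
      integral_prod_mul g (fun y : Set.Ioi (0 : ℝ) => f y.1)
    _ = _ := by
      congr 1
      · simp only [g]
        rw [integral_indicator hS]
        simp
      · simp only [Measure.volumeIoiPow, ENNReal.ofReal]
        rw [integral_withDensity_eq_integral_smul,
          integral_subtype_comap measurableSet_Ioi
            fun a => Real.toNNReal (a ^ (Module.finrank ℝ V - 1)) • f a,
          setIntegral_congr_fun measurableSet_Ioi fun x hx => ?_]
        · rw [NNReal.smul_def, Real.coe_toNNReal _ (pow_nonneg (le_of_lt hx) _), smul_eq_mul]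
        · exact (measurable_subtype_coe.pow_const _).real_toNNReal

/-- `∫_0^∞ y^j e^{-y²/2} dy`. -/
lemma gamma_int (j : ℕ) : ∫ y in Set.Ioi (0 : ℝ), y ^ j * exp (-y ^ 2 / 2) =
    (1 / 2 : ℝ) ^ (-((j : ℝ) + 1) / 2) * (1 / 2) * Gamma (((j : ℝ) + 1) / 2) := by
  rw [← integral_rpow_mul_exp_neg_mul_rpow (p := 2) (q := (j : ℝ)) (b := 1 / 2) (by norm_num)
    (by have : (0 : ℝ) ≤ j := Nat.cast_nonneg j; linarith) (by norm_num)]
  refine setIntegral_congr_fun measurableSet_Ioi fun y hy => ?_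
  rw [Real.rpow_natCast, Real.rpow_two]
  congr 2
  ring

lemma gamma_int_succ (j : ℕ) : ∫ y in Set.Ioi (0 : ℝ), y ^ (j + 1) * exp (-y ^ 2 / 2) =
    √2 * Gamma (((j : ℝ) + 2) / 2) / Gamma (((j : ℝ) + 1) / 2) *
      ∫ y in Set.Ioi (0 : ℝ), y ^ j * exp (-y ^ 2 / 2) := by
  rw [gamma_int, gamma_int]
  have h0 : Gamma (((j : ℝ) + 1) / 2) ≠ 0 := (Real.Gamma_pos_of_pos (by positivity)).ne'
  have h1 : (1 / 2 : ℝ) ^ (-(((j + 1 : ℕ) : ℝ) + 1) / 2) =
      √2 * (1 / 2 : ℝ) ^ (-((j : ℝ) + 1) / 2) := by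
    have e : -(((j + 1 : ℕ) : ℝ) + 1) / 2 = -(1 / 2) + (-((j : ℝ) + 1) / 2) := by
      push_cast; ring
    rw [e, Real.rpow_add (by norm_num)]
    congr 1
    rw [Real.rpow_neg (by norm_num), ← Real.sqrt_eq_rpow]
    rw [← Real.sqrt_inv]
    norm_num
  have h2 : (((j + 1 : ℕ) : ℝ) + 1) / 2 = ((j : ℝ) + 2) / 2 := by push_cast; ring
  rw [h1, h2]
  field_simp

/-- first radial moment of a cone. -/
theorem cone_norm {n : ℕ} (hn : 1 ≤ n) (hV : Module.finrank ℝ V = n) {A : Set V}
    (hA : MeasurableSet A) (hcone : ∀ x ∈ A, ∀ c : ℝ, 0 < c → c • x ∈ A) :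
    ∫ x in A, ‖x‖ ∂(stdGaussian V) =
      √2 * Gamma (((n : ℝ) + 1) / 2) / Gamma ((n : ℝ) / 2) * (stdGaussian V).real A := by
  have hnt : Nontrivial V := Module.nontrivial_of_finrank_pos (R := ℝ) (by omega)
  obtain ⟨m, rfl⟩ : ∃ m, n = m + 1 := ⟨n - 1, by omega⟩
  set K : ℝ := (2 * π) ^ (-(Module.finrank ℝ V / 2 : ℝ)) with hK
  have hI : ∀ F : V → ℝ, ∫ x in A, F x ∂(stdGaussian V) = ∫ x in A, gden x * F x := by
    intro F
    rw [stdGaussian_eq_withDensity,
      setIntegral_withDensity_eq_setIntegral_toReal_smul₀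
        measurable_gden.ennreal_ofReal.aemeasurable
        (Filter.Eventually.of_forall fun _ => ENNReal.ofReal_lt_top) _ hA]
    refine setIntegral_congr_fun hA fun x _ => ?_
    rw [ENNReal.toReal_ofReal (gden_pos x).le, smul_eq_mul]
  have h1 : ∫ x in A, ‖x‖ ∂(stdGaussian V) =
      ((volume : Measure V).toSphere).real (Subtype.val ⁻¹' A) *
        (K * ∫ y in Set.Ioi (0 : ℝ), y ^ (m + 1) * exp (-y ^ 2 / 2)) := by
    rw [hI]
    have := cone_polar hA hcone (fun y => K * exp (-y ^ 2 / 2) * y)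
    rw [hV] at this
    simp only [gden]
    rw [← hK, this, ← integral_const_mul K]
    congr 1
    refine setIntegral_congr_fun measurableSet_Ioi fun y _ => ?_
    simp only [Nat.add_sub_cancel, pow_succ]
    ring
  have h2 : (stdGaussian V).real A =
      ((volume : Measure V).toSphere).real (Subtype.val ⁻¹' A) *
        (K * ∫ y in Set.Ioi (0 : ℝ), y ^ m * exp (-y ^ 2 / 2)) := by
    have h3 : (stdGaussian V).real A = ∫ x in A, (1 : ℝ) ∂(stdGaussian V) := by simp
    rw [h3, hI]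
    have := cone_polar hA hcone (fun y => K * exp (-y ^ 2 / 2))
    rw [hV] at this
    simp only [gden, mul_one]
    rw [← hK, this, ← integral_const_mul K]
    congr 1
    refine setIntegral_congr_fun measurableSet_Ioi fun y _ => ?_
    simp only [Nat.add_sub_cancel]
    ring
  rw [h1, h2, gamma_int_succ]
  have e1 : (((m + 1 : ℕ) : ℝ) + 1) / 2 = ((m : ℝ) + 2) / 2 := by push_cast; ring
  have e2 : ((m + 1 : ℕ) : ℝ) / 2 = ((m : ℝ) + 1) / 2 := by push_cast; ring
  rw [e1, e2]
  ring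

lemma capM_gamma {n : ℕ} (hn : n = 2 ∨ n = 3 ∨ n = 4 ∨ n = 5 ∨ n = 7) :
    √2 * Gamma (((n : ℝ) + 1) / 2) / Gamma ((n : ℝ) / 2) = capM n := by
  have hπ := Real.pi_pos
  have hs : 0 < √π := Real.sqrt_pos.2 hπ
  have h2 : √2 ^ 2 = 2 := Real.sq_sqrt (by norm_num)
  have h20 : 0 < √2 := Real.sqrt_pos.2 (by norm_num)
  have g12 : Gamma (1 / 2) = √π := Real.Gamma_one_half_eq
  have g32 : Gamma (3 / 2) = √π / 2 := by
    rw [show (3 / 2 : ℝ) = 1 / 2 + 1 by norm_num, Real.Gamma_add_one (by norm_num), g12]; ring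
  have g52 : Gamma (5 / 2) = 3 * √π / 4 := by
    rw [show (5 / 2 : ℝ) = 3 / 2 + 1 by norm_num, Real.Gamma_add_one (by norm_num), g32]; ring
  have g72 : Gamma (7 / 2) = 15 * √π / 8 := by
    rw [show (7 / 2 : ℝ) = 5 / 2 + 1 by norm_num, Real.Gamma_add_one (by norm_num), g52]; ring
  have g2 : Gamma 2 = 1 := Real.Gamma_two
  have g3 : Gamma 3 = 2 := by
    rw [show (3 : ℝ) = 2 + 1 by norm_num, Real.Gamma_add_one (by norm_num), g2]; norm_num
  have g4 : Gamma 4 = 6 := by
    rw [show (4 : ℝ) = 3 + 1 by norm_num, Real.Gamma_add_one (by norm_num), g3]; norm_num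
  have e1 : √(π / 2) = √π / √2 := Real.sqrt_div hπ.le 2
  have e2 : √(2 / π) = √2 / √π := Real.sqrt_div (by norm_num) π
  rcases hn with rfl | rfl | rfl | rfl | rfl
  · have : capM 2 = √(π / 2) := rfl
    rw [this, e1]
    norm_num
    rw [g32]
    field_simp
    rw [h2]
  · have : capM 3 = 2 * √(2 / π) := rfl
    rw [this, e2]
    norm_num
    rw [g32]
    field_simp
  · have : capM 4 = 3 / 2 * √(π / 2) := rfl
    rw [this, e1]
    norm_num
    rw [g52]
    field_simp
    rw [h2]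
    norm_num
  · have : capM 5 = 8 / 3 * √(2 / π) := rfl
    rw [this, e2]
    norm_num
    rw [g52]
    field_simp
    norm_num
  · have : capM 7 = 16 / 5 * √(2 / π) := rfl
    rw [this, e2]
    norm_num
    rw [g72]
    field_simp
    norm_num

/-- `E[|x|; A] = m_n γ(A)` for a measurable cone. -/
theorem cone_norm_cap {n : ℕ} (hn : n = 2 ∨ n = 3 ∨ n = 4 ∨ n = 5 ∨ n = 7)
    (hV : Module.finrank ℝ V = n) {A : Set V}
    (hA : MeasurableSet A) (hcone : ∀ x ∈ A, ∀ c : ℝ, 0 < c → c • x ∈ A) :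
    ∫ x in A, ‖x‖ ∂(stdGaussian V) = capM n * (stdGaussian V).real A := by
  rw [cone_norm (by omega) hV hA hcone, capM_gamma hn]

end P226
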