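import Vale.Agent.P226.CapI
import Vale.Agent.P226.CapRed
import Vale.Agent.P226.CapsPolar
import Vale.Agent.P226.CapsCone

/-!
# P226, Step 2 : the cap bound
-/

open MeasureTheory ProbabilityTheory Real
open scoped RealInnerProductSpace

namespace P226

variable {V : Type*} [NormedAddCommGroup V] [InnerProductSpace ℝ V] [FiniteDimensional ℝ V]
  [MeasurableSpace V] [BorelSpace V]

/-- cap bound for cones invariant under `Wᗮ`, `dim W = n`. -/
theorem cap_n {n : ℕ} (hn : n = 2 ∨ n = 3 ∨ n = 4 ∨ n = 5 ∨ n = 7)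
    (W : Submodule ℝ V) (hW : Module.finrank ℝ W = n)
    (A : Set V) (hA : MeasurableSet A) (hcone : ∀ x ∈ A, ∀ c : ℝ, 0 < c → c • x ∈ A)
    (hinv : ∀ x ∈ A, ∀ y ∈ Wᗮ, x + y ∈ A) {c : ℝ} (hc0 : 0 ≤ c) (hc1 : c < 1) :
    ‖mom A‖ ≤ capJ n c + c * capM n * ((stdGaussian V).real A - capP n c) :=
  cap_red W (fun _ hA' hc' => cap_cone hn hW
    (fun _ hB hcB => cone_norm_cap hn hW hB hcB) hA' hc' hc0 hc1) A hA hcone hinv

end P226
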