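import Vale.Agent.P226.PlanarAux

/-!
# P226, Step 2 : the exact first moment of a round cone
-/

open MeasureTheory ProbabilityTheory Real
open scoped RealInnerProductSpace ENNReal

namespace P226

variable {V : Type*} [NormedAddCommGroup V] [InnerProductSpace ℝ V] [FiniteDimensional ℝ V]
  [MeasurableSpace V] [BorelSpace V]

lemma gpdf_eq_J (t : ℝ) : gpdf t = (√(2 * π))⁻¹ * exp (-t ^ 2 / 2) := by
  unfold gpdf; rw [div_eq_mul_inv, mul_comm]

lemma gpdf_pos_J (t : ℝ) : 0 < gpdf t := by unfold gpdf; positivity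

lemma hasDerivAt_neg_gpdf (t : ℝ) : HasDerivAt (fun t => -gpdf t) (t * gpdf t) t := by
  have h1 : HasDerivAt (fun t : ℝ => -t ^ 2 / 2) (-t) t := by
    have := ((hasDerivAt_pow 2 t).neg).div_const 2
    refine this.congr_deriv ?_
    norm_num
    ring
  have h2 := (h1.exp.div_const (√(2 * π))).neg
  refine h2.congr_deriv ?_
  unfold gpdf
  ring

lemma tendsto_neg_gpdf : Filter.Tendsto (fun t => -gpdf t) Filter.atTop (nhds 0) := by
  have h1 : Filter.Tendsto (fun t : ℝ => -t ^ 2 / 2) Filter.atTop Filter.atBot := by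
    have : (fun t : ℝ => -t ^ 2 / 2) = fun t => -(t ^ 2 / 2) := by ext; ring
    rw [this]
    exact Filter.tendsto_neg_atTop_atBot.comp
      ((Filter.tendsto_pow_atTop (by norm_num)).atTop_div_const (by norm_num))
  have h2 := ((Real.tendsto_exp_atBot.comp h1).div_const (√(2 * π))).neg
  simpa [gpdf, Function.comp_def] using h2

/-- `∫_{g ≥ a} g dγ₁ = φ(a)`. -/
lemma lint_tail {a : ℝ} (ha : 0 ≤ a) :
    ∫⁻ g in Set.Ici a, ENNReal.ofReal g ∂(gaussianReal 0 1) = ENNReal.ofReal (gpdf a) := by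
  have hnn : ∀ t ∈ Set.Ioi a, 0 ≤ t * gpdf t := fun t ht =>
    mul_nonneg (ha.trans (le_of_lt ht)) (gpdf_pos_J t).le
  have hI := integral_Ioi_of_hasDerivAt_of_nonneg'
    (fun t (_ : t ∈ Set.Ici a) => hasDerivAt_neg_gpdf t) hnn tendsto_neg_gpdf
  have hint := integrableOn_Ioi_deriv_of_nonneg'
    (fun t (_ : t ∈ Set.Ici a) => hasDerivAt_neg_gpdf t) hnn tendsto_neg_gpdf
  rw [sub_neg_eq_add, zero_add] at hI
  rw [gaussianReal_of_var_ne_zero _ one_ne_zero,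
    setLIntegral_withDensity_eq_setLIntegral_mul _ (measurable_gaussianPDF _ _)
      (by fun_prop) measurableSet_Ici, setLIntegral_congr Ioi_ae_eq_Ici.symm, ← hI,
    ofReal_integral_eq_lintegral_ofReal hint]
  · refine setLIntegral_congr_fun measurableSet_Ioi fun g hg => ?_
    simp only [Pi.mul_apply]
    unfold gaussianPDF gaussianPDFReal
    rw [← ENNReal.ofReal_mul (by positivity)]
    congr 1
    simp only [NNReal.coe_one, mul_one, sub_zero]
    rw [gpdf_eq_J]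
    ring
  · exact (ae_restrict_iff' measurableSet_Ioi).mpr (Filter.Eventually.of_forall hnn)

/-- `E exp(-s‖x‖²/2) = (1+s)^{-n/2}`. -/
lemma lint_exp_sq {s : ℝ} (hs : 0 ≤ s) :
    ∫⁻ x : V, ENNReal.ofReal (exp (-(s * ‖x‖ ^ 2 / 2))) ∂(stdGaussian V) =
      ENNReal.ofReal ((1 + s) ^ (-(Module.finrank ℝ V / 2 : ℝ))) := by
  have hb : 0 < (1 + s) / 2 := by positivity
  have hI := GaussianFourier.integral_rexp_neg_mul_sq_norm (V := V) (b := (1 + s) / 2) hb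
  have hne : (π / ((1 + s) / 2)) ^ (Module.finrank ℝ V / 2 : ℝ) ≠ 0 := by positivity
  have hint : Integrable (fun x : V => exp (-((1 + s) / 2) * ‖x‖ ^ 2)) := by
    by_contra hcon
    rw [integral_undef hcon] at hI
    exact hne hI.symm
  rw [lintegral_stdGaussian (by fun_prop)]
  have h1 : ∀ x : V, ENNReal.ofReal (gden x) * ENNReal.ofReal (exp (-(s * ‖x‖ ^ 2 / 2))) =
      ENNReal.ofReal ((2 * π) ^ (-(Module.finrank ℝ V / 2 : ℝ)) *
        exp (-((1 + s) / 2) * ‖x‖ ^ 2)) := by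
    intro x
    rw [← ENNReal.ofReal_mul (gden_pos x).le]
    congr 1
    unfold gden
    rw [mul_assoc, ← Real.exp_add]
    congr 2
    ring
  simp_rw [h1]
  rw [← ofReal_integral_eq_lintegral_ofReal (hint.const_mul _)
    (Filter.Eventually.of_forall fun x => by positivity), integral_const_mul, hI]
  congr 1
  rw [Real.rpow_neg (by positivity), Real.rpow_neg (by positivity), ← div_eq_inv_mul,
    ← Real.div_rpow (by positivity) (by positivity), ← Real.inv_rpow (by positivity)]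
  congr 1
  field_simp

lemma stdGaussian_real : stdGaussian ℝ = gaussianReal 0 1 := by
  apply Measure.ext_of_charFun
  ext t
  rw [charFun_stdGaussian, charFun_gaussianReal]
  have h : ((|t| : ℝ) : ℂ) ^ 2 = (t : ℂ) ^ 2 := by exact_mod_cast sq_abs t
  simp only [Real.norm_eq_abs, h]
  congr 1
  push_cast
  ring

lemma lint_exp_sq_one {s : ℝ} (hs : 0 ≤ s) :
    ∫⁻ g, ENNReal.ofReal (exp (-(s * g ^ 2 / 2))) ∂(gaussianReal 0 1) =
      ENNReal.ofReal ((1 + s) ^ (-(1 / 2 : ℝ))) := by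
  have h := lint_exp_sq (V := ℝ) hs
  rw [stdGaussian_real] at h
  simpa using h

lemma norm_perp_add {u : V} (hu : ‖u‖ = 1) (x : V) (g : ℝ) :
    ‖x - ⟪x, u⟫ • u + g • u‖ ^ 2 = ‖x - ⟪x, u⟫ • u‖ ^ 2 + g ^ 2 := by
  rw [norm_add_sq_real, real_inner_smul_right, inner_sub_left, real_inner_smul_left,
    real_inner_self_eq_norm_sq, hu, norm_smul, hu, Real.norm_eq_abs, mul_one, sq_abs]
  ring

lemma inner_perp_add {u : V} (hu : ‖u‖ = 1) (x : V) (g : ℝ) :
    ⟪x - ⟪x, u⟫ • u + g • u, u⟫ = g := by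
  rw [inner_add_left, inner_sub_left, real_inner_smul_left, real_inner_smul_left,
    real_inner_self_eq_norm_sq, hu]
  ring

/-- `E exp(-s|w|²/2) = (1+s)^{-(n-1)/2}` for the projection `w` of `x` to `u^⊥`. -/
lemma lint_exp_perp {u : V} (hu : ‖u‖ = 1) {s : ℝ} (hs : 0 ≤ s) :
    ∫⁻ x : V, ENNReal.ofReal (exp (-(s * ‖x - ⟪x, u⟫ • u‖ ^ 2 / 2))) ∂(stdGaussian V) =
      ENNReal.ofReal ((1 + s) ^ (-(((Module.finrank ℝ V : ℝ) - 1) / 2))) := by
  have h1 := lintegral_dis u hu (G := fun x => ENNReal.ofReal (exp (-(s * ‖x‖ ^ 2 / 2))))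
    (by fun_prop)
  rw [lint_exp_sq hs] at h1
  have h2 : ∀ x : V, ∫⁻ g, ENNReal.ofReal (exp (-(s * ‖x - ⟪x, u⟫ • u + g • u‖ ^ 2 / 2)))
      ∂(gaussianReal 0 1) = ENNReal.ofReal (exp (-(s * ‖x - ⟪x, u⟫ • u‖ ^ 2 / 2))) *
        ENNReal.ofReal ((1 + s) ^ (-(1 / 2 : ℝ))) := by
    intro x
    rw [← lint_exp_sq_one hs, ← lintegral_const_mul _ (by fun_prop)]
    refine lintegral_congr fun g => ?_
    rw [← ENNReal.ofReal_mul (exp_pos _).le, ← Real.exp_add, norm_perp_add hu]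
    congr 2
    ring
  simp_rw [h2] at h1
  rw [lintegral_mul_const _ (by fun_prop)] at h1
  have hc : (0 : ℝ) < (1 + s) ^ (-(1 / 2 : ℝ)) := by positivity
  have h3 : ENNReal.ofReal ((1 + s) ^ (-(((Module.finrank ℝ V : ℝ) - 1) / 2))) *
      ENNReal.ofReal ((1 + s) ^ (-(1 / 2 : ℝ))) =
      ENNReal.ofReal ((1 + s) ^ (-(Module.finrank ℝ V / 2 : ℝ))) := by
    rw [← ENNReal.ofReal_mul (by positivity), ← Real.rpow_add (by positivity)]
    congr 2
    ring
  rw [← h3] at h1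
  exact ((ENNReal.mul_left_inj (ENNReal.ofReal_pos.mpr hc).ne' ENNReal.ofReal_ne_top).mp h1).symm

/-- round cone. -/
def rcone (u : V) (c : ℝ) : Set V := {x | c * ‖x‖ ≤ ⟪x, u⟫}

lemma measurableSet_rcone (u : V) (c : ℝ) : MeasurableSet (rcone u c) :=
  measurableSet_le (by fun_prop) (by fun_prop)

lemma mem_rcone_iff {u : V} (hu : ‖u‖ = 1) {c : ℝ} (hc0 : 0 ≤ c) (hc1 : c < 1) (x : V) (g : ℝ) :
    x - ⟪x, u⟫ • u + g • u ∈ rcone u c ↔ c / √(1 - c ^ 2) * ‖x - ⟪x, u⟫ • u‖ ≤ g := by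
  set w := x - ⟪x, u⟫ • u with hw
  have hpos : 0 < 1 - c ^ 2 := by nlinarith
  have hs : 0 < √(1 - c ^ 2) := Real.sqrt_pos.mpr hpos
  have hs2 : √(1 - c ^ 2) ^ 2 = 1 - c ^ 2 := Real.sq_sqrt hpos.le
  have hin : ⟪w + g • u, u⟫ = g := inner_perp_add hu x g
  have hno : ‖w + g • u‖ ^ 2 = ‖w‖ ^ 2 + g ^ 2 := norm_perp_add hu x g
  show c * ‖w + g • u‖ ≤ ⟪w + g • u, u⟫ ↔ _
  rw [hin, div_mul_eq_mul_div, div_le_iff₀ hs]
  have hw0 := norm_nonneg w
  have hn0 := norm_nonneg (w + g • u)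
  constructor
  · intro h
    have hg : 0 ≤ g := (mul_nonneg hc0 hn0).trans h
    have h2 : (c * ‖w + g • u‖) ^ 2 ≤ g ^ 2 := by
      have := mul_nonneg hc0 hn0
      gcongr
    rw [mul_pow, hno] at h2
    refine le_of_sq_le_sq ?_ (by positivity)
    rw [mul_pow, mul_pow, hs2]
    nlinarith
  · intro h
    have hg : 0 ≤ g := by
      by_contra hcon
      push Not at hcon
      have : g * √(1 - c ^ 2) < 0 := mul_neg_of_neg_of_pos hcon hs
      linarith [mul_nonneg hc0 hw0]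
    have h2 : (c * ‖w‖) ^ 2 ≤ (g * √(1 - c ^ 2)) ^ 2 := by
      have := mul_nonneg hc0 hw0
      gcongr
    rw [mul_pow, mul_pow, hs2] at h2
    refine le_of_sq_le_sq ?_ hg
    rw [mul_pow, hno]
    nlinarith

/-- `E[⟪x,u⟫; K_c] = J_n(c)` (lintegral version). -/
lemma lint_rcone {u : V} (hu : ‖u‖ = 1) {c : ℝ} (hc0 : 0 ≤ c) (hc1 : c < 1) :
    ∫⁻ x in rcone u c, ENNReal.ofReal ⟪x, u⟫ ∂(stdGaussian V) =
      ENNReal.ofReal (capJ (Module.finrank ℝ V) c) := by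
  have hpos : 0 < 1 - c ^ 2 := by nlinarith
  have hs2 : √(1 - c ^ 2) ^ 2 = 1 - c ^ 2 := Real.sq_sqrt hpos.le
  set α := c / √(1 - c ^ 2) with hα
  have hα0 : 0 ≤ α := by positivity
  have hα2 : 1 + α ^ 2 = (1 - c ^ 2)⁻¹ := by
    rw [hα, div_pow, hs2]
    field_simp
    ring
  rw [← lintegral_indicator (measurableSet_rcone u c),
    lintegral_dis u hu ((by fun_prop : Measurable fun x : V =>
      ENNReal.ofReal ⟪x, u⟫).indicator (measurableSet_rcone u c))]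
  have h1 : ∀ x : V, ∫⁻ g, (rcone u c).indicator (fun x => ENNReal.ofReal ⟪x, u⟫)
      (x - ⟪x, u⟫ • u + g • u) ∂(gaussianReal 0 1) =
      ENNReal.ofReal ((√(2 * π))⁻¹) *
        ENNReal.ofReal (exp (-(α ^ 2 * ‖x - ⟪x, u⟫ • u‖ ^ 2 / 2))) := by
    intro x
    have ha : 0 ≤ α * ‖x - ⟪x, u⟫ • u‖ := by positivity
    rw [← ENNReal.ofReal_mul (by positivity)]
    have h2 := lint_tail ha
    rw [gpdf_eq_J] at h2
    rw [show -(α ^ 2 * ‖x - ⟪x, u⟫ • u‖ ^ 2 / 2) = -(α * ‖x - ⟪x, u⟫ • u‖) ^ 2 / 2 by ring, ← h2,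
      ← lintegral_indicator measurableSet_Ici]
    refine lintegral_congr fun g => ?_
    by_cases hg : α * ‖x - ⟪x, u⟫ • u‖ ≤ g
    · rw [Set.indicator_of_mem ((mem_rcone_iff hu hc0 hc1 x g).mpr hg),
        Set.indicator_of_mem (by exact hg), inner_perp_add hu]
    · rw [Set.indicator_of_notMem (fun h => hg ((mem_rcone_iff hu hc0 hc1 x g).mp h)),
        Set.indicator_of_notMem (by exact hg)]
  simp_rw [h1]
  rw [lintegral_const_mul _ (by fun_prop), lint_exp_perp hu (by positivity : 0 ≤ α ^ 2),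
    ← ENNReal.ofReal_mul (by positivity)]
  congr 1
  unfold capJ
  rw [hα2, Real.inv_rpow hpos.le, Real.rpow_neg hpos.le, inv_inv]
  ring

lemma rcone_nonneg {u : V} {c : ℝ} (hc0 : 0 ≤ c) {x : V} (hx : x ∈ rcone u c) : 0 ≤ ⟪x, u⟫ :=
  (mul_nonneg hc0 (norm_nonneg x)).trans hx

lemma capJ_nonneg {n : ℕ} {c : ℝ} (hc0 : 0 ≤ c) (hc1 : c < 1) : 0 ≤ capJ n c := by
  have : 0 < 1 - c ^ 2 := by nlinarith
  unfold capJ
  positivity

/-- `E[⟪x,u⟫; K_c] = J_n(c)`. -/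
lemma int_rcone {u : V} (hu : ‖u‖ = 1) {c : ℝ} (hc0 : 0 ≤ c) (hc1 : c < 1) :
    ∫ x in rcone u c, ⟪x, u⟫ ∂(stdGaussian V) = capJ (Module.finrank ℝ V) c := by
  rw [integral_eq_lintegral_of_nonneg_ae, lint_rcone hu hc0 hc1,
    ENNReal.toReal_ofReal (capJ_nonneg hc0 hc1)]
  · exact (ae_restrict_iff' (measurableSet_rcone u c)).mpr
      (Filter.Eventually.of_forall fun x hx => rcone_nonneg hc0 hx)
  · exact (integrable_inner u).aestronglyMeasurable.restrict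

end P226
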