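import Mathlib

/-!
# P226, Step 7 : the box checker (computable part)

All quantities are integers: `x = 10^4 σ`, `P = 10^8 p`.
A box is a list of intervals for `x 0, x 1, …, x (n-1)` and an interval for `X = ∑_{j ≥ n} x j`.
-/

namespace P226.Chk

/-- `1000 (A + B x) - β x²`. -/
def fv (β : ℤ) (l : ℤ × ℤ) (x : ℤ) : ℤ := 1000 * (l.1 + l.2 * x) - β * x * x

/-- lower bound of `1000 P - β x²` on `[lo, hi]`. -/
def fF (β : ℤ) : List (ℤ × ℤ) → ℤ → ℤ → ℤ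
  | [], _, hi => -(β * hi * hi)
  | l :: ls, lo, hi => max (fF β ls lo hi) (min (fv β l lo) (fv β l hi))

/-- lower bound of `P`. -/
def pF : List (ℤ × ℤ) → ℤ → ℤ
  | [], _ => 0
  | l :: ls, lo => max (pF ls lo) (l.1 + l.2 * lo)

/-- `∑ hi²`. -/
def sqH : List (ℤ × ℤ) → ℤ
  | [] => 0
  | b :: t => b.2 * b.2 + sqH t

/-- `∑ hi`. -/
def suH : List (ℤ × ℤ) → ℤ
  | [] => 0
  | b :: t => b.2 + suH t

/-- last upper bound. -/
def laH : List (ℤ × ℤ) → ℤ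
  | [] => 0
  | [b] => b.2
  | _ :: c :: t => laH (c :: t)

/-- `∑ fF`. -/
def suF (β : ℤ) (ls : List (ℤ × ℤ)) : List (ℤ × ℤ) → ℤ
  | [] => 0
  | b :: t => fF β ls b.1 b.2 + suF β ls t

/-- `∑ pF`. -/
def suP (ls : List (ℤ × ℤ)) : List (ℤ × ℤ) → ℤ
  | [] => 0
  | b :: t => pF ls b.1 + suP ls t

/-- parameters: `β` (in 1/1000), lines, `κ ≤ kn/kd`. -/
structure Par where
  β : ℤ
  ls : List (ℤ × ℤ)
  kn : ℤ
  kd : ℤ

/-- lower bound of `10^8 · 9/(8π)`. -/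
def Mlo : ℤ := 35809862

/-- the boxes: intervals for the `x i` and for `X`. -/
structure Bx where
  l : List (ℤ × ℤ)
  xl : ℤ
  xh : ℤ

def ckBud (p : Par) (b : Bx) : Bool :=
  decide (0 ≤ 7071000 - p.β * laH b.l) &&
  decide (100000000000 - p.β * Mlo ≤ suF p.β p.ls b.l + (7071000 - p.β * laH b.l) * b.xl)

def ckM (b : Bx) : Bool := decide (sqH b.l + b.xh * laH b.l < Mlo)

def ckP (p : Par) (b : Bx) : Bool := decide (100000000 < suP p.ls b.l + 7071 * b.xl)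

/-- `36 u v - c v²`. -/
def gG (c u v : ℤ) : ℤ := 36 * u * v - c * v * v

/-- lower bound of `36 (y_q m - y_q² c/36)`: pivot square in `[a, b]`, other squares `≥ m`, loss `≤ U`. -/
def dlow (c a b m U : ℤ) : ℤ :=
  min (min (gG c m (a - U)) (gG c m (b - U))) (min (gG c (m - U) a) (gG c (m - U) b))

/-- lower bound of `36 D²`. -/
def dd (b : ℕ) (l : List (ℤ × ℤ)) (U : ℤ) : ℤ :=
  match l with
  | p0 :: p1 :: p2 :: t =>
    let d1 := dlow 9 (p2.1 * p2.1) (p2.2 * p2.2) (p1.1 * p1.1) U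
    match t with
    | [] => d1
    | p3 :: _ =>
      if 4 ≤ b then max d1 (dlow 4 (p0.1 * p0.1) (p0.2 * p0.2) (p3.1 * p3.1) U) else d1
  | _ => 0

/-- `16 (b+1)^4 x^4 + 24 (b+1)^2 Q x^2 + 3 Q^2`. -/
def rR (b : ℤ) (Q x : ℤ) : ℤ :=
  16 * (b + 1) ^ 4 * x ^ 4 + 24 * (b + 1) ^ 2 * Q * x ^ 2 + 3 * Q ^ 2

/-- violation of (P) at `x`. -/
def vP (p : Par) (b : ℤ) (D Q x : ℤ) : Bool :=
  decide (0 < x) &&
  decide (9 * 4233 ^ 2 * p.kn ^ 2 * rR b Q x ^ 2 <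
    D * (6400 * (b + 1) ^ 2 * b ^ 2 * p.kd ^ 2 * x ^ 6))

def ckPl (p : Par) (b : ℕ) (bx : Bx) : Bool :=
  match bx.l.drop b with
  | [] => false
  | pb :: rest =>
    let Q := sqH rest + bx.xh * laH bx.l
    let D := dd b bx.l (pb.2 * pb.2 + Q)
    decide (0 < D) &&
    ((vP p b D Q pb.1 && vP p b D Q pb.2) ||
      decide (36 * 3175 ^ 2 * (2 * ((b : ℤ) + 1) ^ 2 * pb.2 + suH rest + bx.xh) ^ 2 < 100 * D))

/-- `x i ≤ m` : all later ones too. -/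
def cutH : ℕ → ℤ → List (ℤ × ℤ) → List (ℤ × ℤ)
  | _, _, [] => []
  | 0, m, b :: t => (b.1, min b.2 m) :: cutH 0 m t
  | i + 1, m, b :: t => b :: cutH i m t

/-- `m ≤ x i` : all earlier ones too. -/
def cutL : ℕ → ℤ → List (ℤ × ℤ) → List (ℤ × ℤ)
  | _, _, [] => []
  | 0, m, b :: t => (max b.1 m, b.2) :: t
  | i + 1, m, b :: t => (max b.1 m, b.2) :: cutL i m t

/-- certificate trees. -/
inductive T where
  /-- leaf: 0 budget, 1 second moment, 2 total measure, `b ≥ 3` planar -/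
  | f (c : ℕ)
  /-- split `x i` at `m` -/
  | n (i m : ℕ) (l r : T)
  /-- split `X` at `m` -/
  | x (m : ℕ) (l r : T)

def leafOk (p : Par) (c : ℕ) (b : Bx) : Bool :=
  match c with
  | 0 => ckBud p b
  | 1 => ckM b
  | 2 => ckP p b
  | c + 3 => ckPl p (c + 3) b

def check (p : Par) : T → Bx → Bool
  | .f c, b => leafOk p c b
  | .n i m l r, b =>
    check p l ⟨cutH i m b.l, b.xl, b.xh⟩ && check p r ⟨cutL i m b.l, b.xl, b.xh⟩
  | .x m l r, b => check p l ⟨b.l, b.xl, min b.xh m⟩ && check p r ⟨b.l, max b.xl m, b.xh⟩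

end P226.Chk
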