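import Mathlib

/-!
# P226 (Gaussian propeller) : definitions shared by all modules

See team docs `P226-full`.  `stdGaussian V` is Mathlib's standard Gaussian measure.
-/

open MeasureTheory ProbabilityTheory Real
open scoped RealInnerProductSpace

namespace P226

variable {V : Type*} [NormedAddCommGroup V] [InnerProductSpace ℝ V] [FiniteDimensional ℝ V]
  [MeasurableSpace V] [BorelSpace V] {k : ℕ}

/-- Gaussian first moment of a set. -/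
noncomputable def mom (A : Set V) : V := ∫ x in A, x ∂(stdGaussian V)

/-- closed cell of index `i` : the points where `⟪x, z i⟫` is maximal. -/
def cell (z : Fin k → V) (i : Fin k) : Set V := {x | ∀ j, ⟪x, z j⟫ ≤ ⟪x, z i⟫}

/-- Gaussian measure of a cell. -/
noncomputable def pm (z : Fin k → V) (i : Fin k) : ℝ := (stdGaussian V).real (cell z i)

/-- the excess `X_i - max_{j ≠ i} X_j`. -/
noncomputable def exc (z : Fin k → V) (i : Fin k) (x : V) : ℝ :=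
  ⨅ j : {j : Fin k // j ≠ i}, (⟪x, z i⟫ - ⟪x, z j⟫)

/-- `D_i = E (X_i - max_{j ≠ i} X_j)_+`. -/
noncomputable def Dex (z : Fin k → V) (i : Fin k) : ℝ := ∫ x, max (exc z i x) 0 ∂(stdGaussian V)

/-- A critical configuration: what we get from a counterexample with a minimal number of cells. -/
structure Crit (z : Fin k → V) : Prop where
  hk : 4 ≤ k
  mom_cell : ∀ i, mom (cell z i) = z i
  sum_pm : ∑ i, pm z i = 1
  neg : ∀ i j, i ≠ j → ⟪z i, z j⟫ < 0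
  sum_zero : ∑ i, z i = 0
  S_gt : 9 / (8 * π) < ∑ i, ‖z i‖ ^ 2
  removal : ∀ i, (k : ℝ) / (k - 1) * ‖z i‖ ^ 2 < 2 * Dex z i

/-- standard normal density. -/
noncomputable def gpdf (t : ℝ) : ℝ := exp (-t ^ 2 / 2) / √(2 * π)

/-- standard normal upper tail. -/
noncomputable def gtail (t : ℝ) : ℝ := (gaussianReal 0 1).real (Set.Ici t)

/-- cap density exponent function: `J_n(c) = (1-c²)^{(n-1)/2} / √(2π)`. -/
noncomputable def capJ (n : ℕ) (c : ℝ) : ℝ := (1 - c ^ 2) ^ (((n : ℝ) - 1) / 2) / √(2 * π)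

/-- `P_n(c)`: normalised measure of the spherical cap `{cos θ ≥ c}` in dimension `n`. -/
noncomputable def capP : ℕ → ℝ → ℝ
  | 2, c => arccos c / π
  | 3, c => (1 - c) / 2
  | 4, c => (arccos c - c * √(1 - c ^ 2)) / π
  | 5, c => 1 / 2 - 3 / 4 * c + 1 / 4 * c ^ 3
  | 7, c => 1 / 2 - 15 / 16 * (c - 2 / 3 * c ^ 3 + 1 / 5 * c ^ 5)
  | _, _ => 0

/-- `m_n = E |x|` in dimension `n`. -/
noncomputable def capM : ℕ → ℝ
  | 2 => √(π / 2)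
  | 3 => 2 * √(2 / π)
  | 4 => 3 / 2 * √(π / 2)
  | 5 => 8 / 3 * √(2 / π)
  | 7 => 16 / 5 * √(2 / π)
  | _ => 0

/-- data of the projected family (Step 4): `T` is the set of projected-out indices. -/
structure Proj (z : Fin k → V) (T : Finset (Fin k)) (Y : Fin k → V) : Prop where
  orth : ∀ l ∉ T, ∀ t ∈ T, ⟪Y l, z t⟫ = 0
  diff_mem : ∀ l ∉ T, z l - Y l ∈ Submodule.span ℝ (z '' (T : Set (Fin k)))
  neg : ∀ l ∉ T, ∀ l' ∉ T, l ≠ l' → ⟪Y l, Y l'⟫ ≤ 0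
  sum_zero : ∑ l ∈ Tᶜ, Y l = 0
  norm_le : ∀ l ∉ T, ‖Y l‖ ^ 2 ≤ ‖z l‖ ^ 2
  loss : ∑ l ∈ Tᶜ, (‖z l‖ ^ 2 - ‖Y l‖ ^ 2) ≤ ∑ t ∈ T, ‖z t‖ ^ 2

/-
INTERFACES (each proved in its own file):

-- Caps.lean (Step 2)
theorem cap_I (A : Set V) (hA : MeasurableSet A) (t : ℝ) :
    ‖mom A‖ ≤ gpdf t + t * ((stdGaussian V).real A - gtail t)
theorem cap_n {n : ℕ} (hn : n = 2 ∨ n = 3 ∨ n = 4 ∨ n = 5 ∨ n = 7)
    (W : Submodule ℝ V) (hW : Module.finrank ℝ W = n)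
    (A : Set V) (hA : MeasurableSet A) (hcone : ∀ x ∈ A, ∀ c : ℝ, 0 < c → c • x ∈ A)
    (hinv : ∀ x ∈ A, ∀ y ∈ Wᗮ, x + y ∈ A) {c : ℝ} (hc0 : 0 ≤ c) (hc1 : c < 1) :
    ‖mom A‖ ≤ capJ n c + c * capM n * ((stdGaussian V).real A - capP n c)

-- LC.lean (Step 3)
theorem lc {z : Fin k → V} (hz : Crit z) (i : Fin k) : ‖z i‖ ^ 2 < 2 * pm z i ^ 2

-- ProjExists.lean (Step 4)
theorem exists_proj {z : Fin k → V} (hneg : ∀ i j, i ≠ j → ⟪z i, z j⟫ ≤ 0)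
    (hsum : ∑ i, z i = 0) (hne : ∀ i, z i ≠ 0)  (T : Finset (Fin k)) : ∃ Y, Proj z T Y

-- Planar.lean (Step 5)
theorem planar_P {z : Fin k → V} (hz : Crit z) {T : Finset (Fin k)} {Y : Fin k → V}
    (hY : Proj z T Y) {i : Fin k} (hi : i ∈ T) (hb : 3 ≤ (Tᶜ).card) {a c : Fin k}
    (ha : a ∉ T) (hc : c ∉ T) (hac : a ≠ c) :
    let b : ℝ := (Tᶜ).card
    let A : ℝ := (b + 1) * ‖z i‖
    let S' : ℝ := ∑ t ∈ T.erase i, ‖z t‖ ^ 2
    let Δ : ℝ := √(‖Y a‖ ^ 2 * ‖Y c‖ ^ 2 - ⟪Y a, Y c⟫ ^ 2)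
    6 * π * b * Δ * ((k : ℝ) / (k - 1) * ‖z i‖ ^ 2) <
      √(2 / π) * (A ^ 3 + 3 / 2 * A * S' + 3 / 16 * S' ^ 2 / A)
theorem planar_FO (same hypotheses) :
    4 * π * Δ * ‖z i‖ ≤ (2 * A ^ 2 + S') / √(2 * π)
-/

end P226
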