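import Vale.Agent.P226.Defs

/-!
# P226 : density of the standard Gaussian measure and the Cameron-Martin formula
-/

open MeasureTheory ProbabilityTheory Real
open scoped RealInnerProductSpace ENNReal

namespace P226

variable {V : Type*} [NormedAddCommGroup V] [InnerProductSpace ℝ V] [FiniteDimensional ℝ V]
  [MeasurableSpace V] [BorelSpace V]

/-- density of the standard Gaussian measure with respect to Lebesgue measure. -/
noncomputable def gden (x : V) : ℝ :=
  (2 * π) ^ (-(Module.finrank ℝ V / 2 : ℝ)) * exp (-‖x‖ ^ 2 / 2)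

omit [FiniteDimensional ℝ V] [MeasurableSpace V] [BorelSpace V] in
lemma gden_pos (x : V) : 0 < gden x := by
  unfold gden; positivity

omit [FiniteDimensional ℝ V] in
lemma measurable_gden : Measurable (gden : V → ℝ) := by
  unfold gden; fun_prop

lemma integrable_exp_sq_norm : Integrable (fun x : V => exp (-‖x‖ ^ 2 / 2)) := by
  have h := (GaussianFourier.integrable_cexp_neg_mul_sq_norm_add
    (V := V) (b := ((1 / 2 : ℝ) : ℂ)) (by simp) 0 (0 : V)).norm
  refine h.congr (Filter.Eventually.of_forall fun x => ?_)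
  simp only [Complex.norm_exp]
  congr 1
  simp only [zero_mul, add_zero]
  rw [← Complex.ofReal_neg, ← Complex.ofReal_pow, ← Complex.ofReal_mul, Complex.ofReal_re]
  ring

lemma integral_exp_sq_norm : ∫ x : V, exp (-‖x‖ ^ 2 / 2) =
    (2 * π) ^ (Module.finrank ℝ V / 2 : ℝ) := by
  have h := GaussianFourier.integral_rexp_neg_mul_sq_norm (V := V) (b := 1 / 2) (by norm_num)
  rw [show (π / (1 / 2) : ℝ) = 2 * π by ring] at h
  rw [← h]
  refine integral_congr_ae (Filter.Eventually.of_forall fun x => ?_)
  simp only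
  congr 1
  ring

lemma integrable_gden : Integrable (gden : V → ℝ) := integrable_exp_sq_norm.const_mul _

instance : IsFiniteMeasure (volume.withDensity (fun x : V => ENNReal.ofReal (gden x))) :=
  isFiniteMeasure_withDensity_ofReal integrable_gden.hasFiniteIntegral

theorem stdGaussian_eq_withDensity :
    stdGaussian V = volume.withDensity (fun x : V => ENNReal.ofReal (gden x)) := by
  apply Measure.ext_of_charFun
  ext t
  rw [charFun_stdGaussian, charFun_apply,
    integral_withDensity_eq_integral_toReal_smul measurable_gden.ennreal_ofReal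
      (Filter.Eventually.of_forall fun _ => ENNReal.ofReal_lt_top)]
  have h := GaussianFourier.integral_cexp_neg_mul_sq_norm_add (V := V) (b := ((1 / 2 : ℝ) : ℂ))
    (by simp) Complex.I t
  have e1 : (fun x : V => (ENNReal.ofReal (gden x)).toReal • Complex.exp (⟪x, t⟫ * Complex.I)) =
      fun x : V => ((2 * π) ^ (-(Module.finrank ℝ V / 2 : ℝ)) : ℝ) *
        Complex.exp (-((1 / 2 : ℝ) : ℂ) * ‖x‖ ^ 2 + Complex.I * ⟪t, x⟫) := by
    ext x
    rw [ENNReal.toReal_ofReal (gden_pos x).le, Complex.real_smul, gden, Complex.ofReal_mul,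
      mul_assoc]
    congr 1
    rw [Complex.ofReal_exp, ← Complex.exp_add]
    congr 1
    rw [real_inner_comm]
    push_cast
    ring
  rw [e1, integral_const_mul, h]
  have e2 : ((π : ℂ) / ((1 / 2 : ℝ) : ℂ)) ^ (Module.finrank ℝ V / 2 : ℂ) =
      (((2 * π) ^ (Module.finrank ℝ V / 2 : ℝ) : ℝ) : ℂ) := by
    rw [Complex.ofReal_cpow (by positivity)]
    push_cast
    congr 1
    ring
  rw [e2, ← mul_assoc, ← Complex.ofReal_mul, ← Real.rpow_add (by positivity)]
  simp only [neg_add_cancel, Real.rpow_zero, Complex.ofReal_one, one_mul]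
  congr 1
  rw [Complex.I_sq]
  push_cast
  ring

omit [FiniteDimensional ℝ V] [MeasurableSpace V] [BorelSpace V] in
lemma gden_add (x e : V) : gden (x + e) = gden x * exp (-⟪x, e⟫ - ‖e‖ ^ 2 / 2) := by
  unfold gden
  rw [mul_assoc, ← Real.exp_add, norm_add_sq_real]
  congr 2
  ring

lemma lintegral_stdGaussian {f : V → ℝ≥0∞} (hf : Measurable f) :
    ∫⁻ x, f x ∂(stdGaussian V) = ∫⁻ x, ENNReal.ofReal (gden x) * f x := by
  rw [stdGaussian_eq_withDensity,
    lintegral_withDensity_eq_lintegral_mul _ measurable_gden.ennreal_ofReal hf]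
  rfl

/-- Cameron-Martin formula. -/
theorem lintegral_cm (e : V) {f : V → ℝ≥0∞} (hf : Measurable f) :
    ∫⁻ x, f x ∂(stdGaussian V) =
      ∫⁻ x, f (x + e) * ENNReal.ofReal (exp (-⟪x, e⟫ - ‖e‖ ^ 2 / 2)) ∂(stdGaussian V) := by
  rw [lintegral_stdGaussian hf, lintegral_stdGaussian (by fun_prop),
    ← lintegral_add_right_eq_self _ e]
  refine lintegral_congr fun x => ?_
  rw [gden_add, ENNReal.ofReal_mul (gden_pos x).le]
  ring

/-- Cameron-Martin formula for a shifted set. -/
theorem measure_cm (e : V) {A : Set V} (hA : MeasurableSet A) :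
    stdGaussian V {x | x - e ∈ A} =
      ∫⁻ x in A, ENNReal.ofReal (exp (-⟪x, e⟫ - ‖e‖ ^ 2 / 2)) ∂(stdGaussian V) := by
  have hB : MeasurableSet {x : V | x - e ∈ A} := (measurable_id.sub_const e) hA
  rw [← lintegral_indicator_one hB, lintegral_cm e (measurable_one.indicator hB),
    ← lintegral_indicator hA]
  refine lintegral_congr fun x => ?_
  by_cases hx : x ∈ A
  · rw [Set.indicator_of_mem (by simpa using hx), Set.indicator_of_mem hx]
    simp
  · rw [Set.indicator_of_notMem (by simpa using hx), Set.indicator_of_notMem hx]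
    simp

end P226
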