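import Vale.Agent.P226.Opt

/-!
# P226, Step 1b : a counterexample yields a critical configuration
-/

open MeasureTheory ProbabilityTheory Real
open scoped RealInnerProductSpace

namespace P226

variable {V : Type*} [NormedAddCommGroup V] [InnerProductSpace ℝ V] [FiniteDimensional ℝ V]
  [MeasurableSpace V] [BorelSpace V] {ι : Type*} [Fintype ι]

variable (V) in
/-- the bound for partitions with `n` cells. -/
def Bd (n : ℕ) : Prop :=
  ∀ A : Fin n → Set V, Part A → ∑ i, ‖mom (A i)‖ ^ 2 ≤ 9 / (8 * π)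

omit [BorelSpace V] in
lemma Bd.reindex {n : ℕ} (h : Bd V n) (hn : Fintype.card ι = n) {A : ι → Set V} (hA : Part A) :
    ∑ i, ‖mom (A i)‖ ^ 2 ≤ 9 / (8 * π) := by
  let e : ι ≃ Fin n := Fintype.equivFinOfCardEq hn
  have hP : Part (A ∘ e.symm) :=
    ⟨fun i => hA.meas _, hA.disj.comp_of_injective e.symm.injective, by
      rw [← hA.cover]; exact e.symm.surjective.iUnion_comp A⟩
  have h1 := h _ hP
  rwa [show ∑ i, ‖mom ((A ∘ e.symm) i)‖ ^ 2 = ∑ i, ‖mom (A i)‖ ^ 2 from
    e.symm.sum_comp fun i => ‖mom (A i)‖ ^ 2] at h1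

lemma Bd.Phi_le {n : ℕ} (h : Bd V n) [LinearOrder ι] [Nonempty ι] (hn : Fintype.card ι = n)
    (w : ι → V) : Phi w ≤ 9 / (8 * π) := by
  have h1 := h.reindex hn (part_acell w)
  have h2 : 0 ≤ ∑ i, ‖w i - mom (acell w i)‖ ^ 2 := Finset.sum_nonneg fun i _ => sq_nonneg _
  rw [Phi_eq]
  linarith

omit [BorelSpace V] in
lemma mom_empty : mom (∅ : Set V) = 0 := by simp [mom]

omit [BorelSpace V] in
lemma Bd.pad {n : ℕ} (h : Bd V (n + 1)) : Bd V n := by
  intro A hA
  have hP : Part (Fin.cons ∅ A : Fin (n + 1) → Set V) := by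
    refine ⟨fun i => ?_, ?_, ?_⟩
    · refine Fin.cases ?_ (fun j => ?_) i
      · simp
      · simpa using hA.meas j
    · intro i j hij
      rcases Fin.eq_zero_or_eq_succ i with rfl | ⟨i, rfl⟩
      · simp [Function.onFun]
      · rcases Fin.eq_zero_or_eq_succ j with rfl | ⟨j, rfl⟩
        · simp [Function.onFun]
        · simp only [Function.onFun, Fin.cons_succ]
          exact hA.disj fun h => hij (by rw [h])
    · rw [← hA.cover]
      ext x
      simp only [Set.mem_iUnion]
      constructor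
      · rintro ⟨i, hi⟩
        rcases Fin.eq_zero_or_eq_succ i with rfl | ⟨i, rfl⟩
        · simp at hi
        · exact ⟨i, by simpa using hi⟩
      · rintro ⟨i, hi⟩
        exact ⟨i.succ, by simpa using hi⟩
  have h1 := h _ hP
  rw [Fin.sum_univ_succ] at h1
  simpa [mom_empty] using h1

omit [BorelSpace V] in
lemma Bd.empty_cell {k : ℕ} (h : Bd V (k - 1)) {A : Fin k → Set V} (hA : Part A) {j : Fin k}
    (hj : A j = ∅) : ∑ i, ‖mom (A i)‖ ^ 2 ≤ 9 / (8 * π) := by
  have hP : Part (fun l : {l : Fin k // l ≠ j} => A l) := by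
    refine ⟨fun i => hA.meas _, hA.disj.comp_of_injective Subtype.val_injective, ?_⟩
    rw [← hA.cover]
    ext x
    simp only [Set.mem_iUnion]
    constructor
    · rintro ⟨i, hi⟩
      exact ⟨i, hi⟩
    · rintro ⟨i, hi⟩
      rcases eq_or_ne i j with rfl | hij
      · rw [hj] at hi
        exact absurd hi (Set.notMem_empty _)
      · exact ⟨⟨i, hij⟩, hi⟩
  have h1 := h.reindex (by simp) hP
  have h2 : ∑ l : {l : Fin k // l ≠ j}, ‖mom (A l)‖ ^ 2 = ∑ i, ‖mom (A i)‖ ^ 2 := by
    rw [← Finset.sum_erase (a := j) Finset.univ (f := fun i => ‖mom (A i)‖ ^ 2)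
      (by simp [hj, mom_empty])]
    rw [← Finset.sum_subtype (Finset.univ.erase j) (p := fun l => l ≠ j) (by simp)
      (fun i => ‖mom (A i)‖ ^ 2)]
  rwa [h2] at h1

lemma integrable_id_std : Integrable (fun x : V => x) (stdGaussian V) :=
  IsGaussian.integrable_id (μ := stdGaussian V)

lemma mom_union {A B : Set V} (hB : MeasurableSet B) (hAB : Disjoint A B) :
    mom (A ∪ B) = mom A + mom B := by
  unfold mom
  exact setIntegral_union hAB hB integrable_id_std.integrableOn integrable_id_std.integrableOn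

/-! ### merging -/

lemma neg_of_max {k : ℕ} (hB : Bd V (k - 1)) {z : Fin k → V}
    (hz : ∀ i, mom (acell z i) = z i) (hS : 9 / (8 * π) < ∑ i, ‖z i‖ ^ 2) {i j : Fin k}
    (hij : i ≠ j) : ⟪z i, z j⟫ < 0 := by
  have hne : Nonempty (Fin k) := ⟨i⟩
  have hP := part_acell z
  set A' : Fin k → Set V := fun l =>
    if l = i then acell z i ∪ acell z j else if l = j then ∅ else acell z l with hA'
  have hP' : Part A' := by
    refine ⟨fun l => ?_, ?_, ?_⟩
    · simp only [hA']
      split_ifs
      · exact (hP.meas i).union (hP.meas j)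
      · exact MeasurableSet.empty
      · exact hP.meas l
    · intro a b hab
      simp only [Function.onFun, hA']
      by_cases ha : a = i
      · by_cases hb : b = j
        · subst ha hb
          simp [hab.symm]
        · have hbi : b ≠ i := fun h => hab (ha.trans h.symm)
          simp only [ha, if_true, hbi, if_false, hb]
          exact Set.disjoint_union_left.mpr ⟨hP.disj hbi.symm, hP.disj (Ne.symm hb)⟩
      · by_cases hb : b = i
        · by_cases haj : a = j
          · simp [haj, hij.symm]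
          · simp only [ha, if_false, haj, hb, if_true]
            exact Set.disjoint_union_right.mpr ⟨hP.disj ha, hP.disj haj⟩
        · simp only [ha, hb, if_false]
          split_ifs
          · simp
          · simp
          · simp
          · exact hP.disj hab
    · rw [Set.eq_univ_iff_forall]
      intro x
      have hx : x ∈ ⋃ l, acell z l := by rw [hP.cover]; trivial
      obtain ⟨l, hl⟩ := Set.mem_iUnion.mp hx
      rw [Set.mem_iUnion]
      by_cases hli : l = i
      · exact ⟨i, by simp only [hA', if_true]; exact Or.inl (hli ▸ hl)⟩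
      · by_cases hlj : l = j
        · exact ⟨i, by simp only [hA', if_true]; exact Or.inr (hlj ▸ hl)⟩
        · exact ⟨l, by simp only [hA', hli, hlj, if_false]; exact hl⟩
  have h1 := hB.empty_cell hP' (j := j) (by simp [hA', hij.symm])
  have hmom : ∀ l, mom (A' l) = if l = i then z i + z j else if l = j then 0 else z l := by
    intro l
    simp only [hA']
    split_ifs
    · rw [mom_union (hP.meas j) (hP.disj hij), hz, hz]
    · exact mom_empty
    · exact hz l
  have h2 : ∑ l, ‖mom (A' l)‖ ^ 2 = ∑ l, ‖z l‖ ^ 2 + 2 * ⟪z i, z j⟫ := by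
    have e1 : ∀ l, ‖mom (A' l)‖ ^ 2 = ‖z l‖ ^ 2 + (if l = i then
        (‖z i + z j‖ ^ 2 - ‖z i‖ ^ 2) else 0) + (if l = j then - ‖z j‖ ^ 2 else 0) := by
      intro l
      rw [hmom]
      by_cases hli : l = i
      · subst hli
        simp [hij]
      · by_cases hlj : l = j
        · subst hlj
          simp [hli]
        · simp [hli, hlj]
    simp_rw [e1]
    rw [Finset.sum_add_distrib, Finset.sum_add_distrib]
    simp only [Finset.sum_ite_eq', Finset.mem_univ, if_true]
    rw [norm_add_sq_real]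
    ring
  rw [h2] at h1
  linarith

/-! ### null boundaries -/

lemma hyperplane_null {v : V} (hv : v ≠ 0) : (stdGaussian V) {x | ⟪x, v⟫ = 0} = 0 := by
  rw [stdGaussian_eq_withDensity]
  refine withDensity_absolutelyContinuous _ _ ?_
  have h1 : ({x | ⟪x, v⟫ = 0} : Set V) = ((ℝ ∙ v)ᗮ : Submodule ℝ V) := by
    ext x
    simp only [Set.mem_ofPred_eq, SetLike.mem_coe, Submodule.mem_orthogonal_singleton_iff_inner_left]
  rw [h1]
  refine Measure.addHaar_submodule _ _ fun htop => ?_
  have h2 : v ∈ ((ℝ ∙ v)ᗮ : Submodule ℝ V) := by rw [htop]; trivial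
  rw [Submodule.mem_orthogonal_singleton_iff_inner_left] at h2
  exact hv (inner_self_eq_zero.mp h2)

lemma acell_ae_eq {k : ℕ} {z : Fin k → V} (hinj : ∀ i j, i ≠ j → z i ≠ z j) (i : Fin k) :
    acell z i =ᵐ[stdGaussian V] cell z i := by
  have hnull : (stdGaussian V) (⋃ j : {j // j ≠ i}, {x | ⟪x, z i - z j⟫ = 0}) = 0 := by
    rw [measure_iUnion_null_iff]
    intro j
    exact hyperplane_null (sub_ne_zero.mpr (hinj i j j.2.symm))
  refine Filter.EventuallyLE.antisymm ?_ ?_
  · exact Filter.Eventually.of_forall fun x hx => hx.1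
  · have h2 : ∀ᵐ x ∂(stdGaussian V), x ∉ ⋃ j : {j // j ≠ i}, {x | ⟪x, z i - z j⟫ = 0} :=
      measure_eq_zero_iff_ae_notMem.mp hnull
    filter_upwards [h2] with x hx hc
    refine ⟨hc, fun j hj => lt_of_le_of_ne (hc j) fun heq => hx ?_⟩
    refine Set.mem_iUnion.mpr ⟨⟨j, hj.ne⟩, ?_⟩
    simp only [Set.mem_ofPred_eq, inner_sub_right]
    linarith

/-! ### removal -/

omit [FiniteDimensional ℝ V] [MeasurableSpace V] [BorelSpace V] in
lemma mx_remove {k : ℕ} (hk : 2 ≤ k) (z : Fin k → V) (i : Fin k) (x : V) (a : ℝ) :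
    mx (fun j : {j : Fin k // j ≠ i} => z j + a • z i) x =
      mx z x - max (exc z i x) 0 + a * ⟪x, z i⟫ := by
  have hne : Nonempty {j : Fin k // j ≠ i} := by
    have : Nontrivial (Fin k) := Fin.nontrivial_iff_two_le.mpr hk
    obtain ⟨j, hj⟩ := exists_ne i
    exact ⟨⟨j, hj⟩⟩
  have hne' : Nonempty (Fin k) := ⟨i⟩
  set m := mx (fun j : {j : Fin k // j ≠ i} => z j) x with hm
  have h1 : mx (fun j : {j : Fin k // j ≠ i} => z j + a • z i) x = m + a * ⟪x, z i⟫ := by
    refine le_antisymm (mx_le fun j => ?_) ?_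
    · rw [inner_add_right, real_inner_smul_right]
      have := le_mx (fun j : {j : Fin k // j ≠ i} => z j) x j
      linarith
    · rw [← le_sub_iff_add_le]
      refine mx_le fun j => ?_
      have := le_mx (fun j : {j : Fin k // j ≠ i} => z j + a • z i) x j
      rw [inner_add_right, real_inner_smul_right] at this
      linarith
  have h2 : exc z i x = ⟪x, z i⟫ - m := by
    unfold exc
    refine le_antisymm ?_ (le_ciInf fun j => ?_)
    · rw [le_sub_comm]
      refine mx_le fun j => ?_
      have := ciInf_le (f := fun j : {j : Fin k // j ≠ i} => ⟪x, z i⟫ - ⟪x, z j⟫)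
        (Set.finite_range _).bddBelow j
      linarith
    · have := le_mx (fun j : {j : Fin k // j ≠ i} => z j) x j
      linarith
  have h3 : mx z x = max m ⟪x, z i⟫ := by
    refine le_antisymm (mx_le fun j => ?_) (max_le (mx_le fun j => le_mx z x j) (le_mx z x i))
    rcases eq_or_ne j i with rfl | hj
    · exact le_max_right _ _
    · exact (le_mx (fun j : {j : Fin k // j ≠ i} => z j) x ⟨j, hj⟩).trans (le_max_left _ _)
  rw [h1, h2, h3]
  rcases le_total m ⟪x, z i⟫ with h | h
  · rw [max_eq_right h, max_eq_left (by linarith)]; ring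
  · rw [max_eq_left h, max_eq_right (by linarith)]; ring

lemma integrable_exc_pos {k : ℕ} (hk : 2 ≤ k) (z : Fin k → V) (i : Fin k) :
    Integrable (fun x => max (exc z i x) 0) (stdGaussian V) := by
  have hne : Nonempty {j : Fin k // j ≠ i} := by
    have : Nontrivial (Fin k) := Fin.nontrivial_iff_two_le.mpr hk
    obtain ⟨j, hj⟩ := exists_ne i
    exact ⟨⟨j, hj⟩⟩
  have hne' : Nonempty (Fin k) := ⟨i⟩
  have h1 : (fun x => max (exc z i x) 0) = fun x => mx z x -
      mx (fun j : {j : Fin k // j ≠ i} => z j + (0 : ℝ) • z i) x := by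
    ext x
    rw [mx_remove hk z i x 0]
    ring
  rw [h1]
  exact (integrable_mx z).sub (integrable_mx _)

lemma removal_of_max {k : ℕ} (hk : 2 ≤ k) (hB : Bd V (k - 1)) {z : Fin k → V}
    (hPhi : Phi z = ∑ i, ‖z i‖ ^ 2) (hsum : ∑ i, z i = 0)
    (hS : 9 / (8 * π) < ∑ i, ‖z i‖ ^ 2) (i : Fin k) :
    (k : ℝ) / (k - 1) * ‖z i‖ ^ 2 < 2 * Dex z i := by
  have hne : Nonempty {j : Fin k // j ≠ i} := by
    have : Nontrivial (Fin k) := Fin.nontrivial_iff_two_le.mpr hk
    obtain ⟨j, hj⟩ := exists_ne i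
    exact ⟨⟨j, hj⟩⟩
  have hne' : Nonempty (Fin k) := ⟨i⟩
  have hk1 : (0 : ℝ) < (k : ℝ) - 1 := by
    have : (2 : ℝ) ≤ k := by exact_mod_cast hk
    linarith
  set S := ∑ i, ‖z i‖ ^ 2 with hSdef
  set a : ℝ := 1 / ((k : ℝ) - 1) with ha
  have h1 := hB.Phi_le (ι := {j : Fin k // j ≠ i}) (by simp) (fun j => z j + a • z i)
  have hE : ∫ x, mx z x ∂(stdGaussian V) = S := by
    unfold Phi at hPhi
    linarith
  have h2 : ∫ x, mx (fun j : {j : Fin k // j ≠ i} => z j + a • z i) x ∂(stdGaussian V) =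
      S - Dex z i := by
    simp_rw [mx_remove hk z i _ a]
    have hI : Integrable (fun x => mx z x - max (exc z i x) 0) (stdGaussian V) :=
      (integrable_mx z).sub (integrable_exc_pos hk z i)
    rw [integral_add hI
      ((integrable_inner (z i)).const_mul a), integral_sub (integrable_mx z)
      (integrable_exc_pos hk z i), hE, integral_const_mul]
    have h3 : ∫ x, ⟪x, z i⟫ ∂(stdGaussian V) = 0 := by
      have h4 := inner_mom (V := V) Set.univ (z i)
      rw [setIntegral_univ] at h4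
      rw [← h4]
      simp [mom]
    rw [h3]
    unfold Dex
    ring
  have h5 : ∑ j : {j : Fin k // j ≠ i}, ‖z j + a • z i‖ ^ 2 =
      S - (k : ℝ) / (k - 1) * ‖z i‖ ^ 2 := by
    have e1 : ∑ j : {j : Fin k // j ≠ i}, ‖z j + a • z i‖ ^ 2 =
        ∑ j ∈ Finset.univ.erase i, ‖z j + a • z i‖ ^ 2 := by
      rw [← Finset.sum_subtype (Finset.univ.erase i) (p := fun l => l ≠ i) (by simp)
        (fun j => ‖z j + a • z i‖ ^ 2)]
    have e2 : ∀ j, ‖z j + a • z i‖ ^ 2 = ‖z j‖ ^ 2 + 2 * a * ⟪z j, z i⟫ + a ^ 2 * ‖z i‖ ^ 2 := by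
      intro j
      rw [norm_add_sq_real, real_inner_smul_right, norm_smul, mul_pow, Real.norm_eq_abs, sq_abs]
      ring
    have e3 : ∑ j ∈ Finset.univ.erase i, ‖z j‖ ^ 2 = S - ‖z i‖ ^ 2 := by
      rw [hSdef, ← Finset.add_sum_erase _ _ (Finset.mem_univ i)]
      ring
    have e4 : ∑ j ∈ Finset.univ.erase i, ⟪z j, z i⟫ = - ‖z i‖ ^ 2 := by
      have : ∑ j, ⟪z j, z i⟫ = 0 := by rw [← sum_inner, hsum, inner_zero_left]
      rw [← Finset.add_sum_erase _ _ (Finset.mem_univ i), real_inner_self_eq_norm_sq] at this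
      linarith
    have e5 : ((Finset.univ.erase i).card : ℝ) = (k : ℝ) - 1 := by
      rw [Finset.card_erase_of_mem (Finset.mem_univ i), Finset.card_univ, Fintype.card_fin,
        Nat.cast_sub (by omega)]
      simp
    rw [e1]
    simp_rw [e2]
    rw [Finset.sum_add_distrib, Finset.sum_add_distrib, e3, ← Finset.mul_sum, e4,
      Finset.sum_const, nsmul_eq_mul, e5, ha]
    field_simp
    ring
  unfold Phi at h1
  rw [h2, h5] at h1
  linarith

/-- a counterexample yields a critical configuration. -/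
theorem exists_crit (hB3 : Bd V 3) {n : ℕ} (hn : ¬ Bd V n) :
    ∃ (k : ℕ) (z : Fin k → V), Crit z := by
  classical
  have hex : ∃ n, ¬ Bd V n := ⟨n, hn⟩
  set k := Nat.find hex with hkdef
  have hk0 : ¬ Bd V k := Nat.find_spec hex
  have hmin : ∀ m < k, Bd V m := fun m hm => not_not.mp (Nat.find_min hex hm)
  have hB2 := hB3.pad
  have hB1 := hB2.pad
  have hB0 := hB1.pad
  have hk : 4 ≤ k := by
    by_contra hlt
    push Not at hlt
    interval_cases k
    · exact hk0 hB0
    · exact hk0 hB1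
    · exact hk0 hB2
    · exact hk0 hB3
  have hBk : Bd V (k - 1) := hmin _ (by omega)
  have hne : Nonempty (Fin k) := ⟨⟨0, by omega⟩⟩
  obtain ⟨z, hz, hPhi, hopt⟩ := exists_opt (V := V) (Fin k)
  have hS : 9 / (8 * π) < ∑ i, ‖z i‖ ^ 2 := by
    unfold Bd at hk0
    push Not at hk0
    obtain ⟨A, hA, hlt⟩ := hk0
    exact hlt.trans_le (hopt A hA)
  have hneg : ∀ i j, i ≠ j → ⟪z i, z j⟫ < 0 := fun i j hij => neg_of_max hBk hz hS hij
  have hinj : ∀ i j, i ≠ j → z i ≠ z j := by
    intro i j hij heq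
    have h1 := hneg i j hij
    rw [heq] at h1
    exact absurd h1 (not_lt.mpr real_inner_self_nonneg)
  have hsum : ∑ i, z i = 0 := by
    have h1 := (part_acell z).sum_mom
    simpa [hz] using h1
  refine ⟨k, z, hk, fun i => ?_, ?_, hneg, hsum, hS, fun i => removal_of_max (by omega) hBk hPhi hsum hS i⟩
  · rw [← hz i]
    unfold mom
    rw [Measure.restrict_congr_set (acell_ae_eq hinj i)]
  · have h1 := (part_acell z).sum_measure
    rw [← h1]
    refine Finset.sum_congr rfl fun i _ => ?_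
    unfold pm
    exact (measureReal_congr (acell_ae_eq hinj i)).symm

end P226
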