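import Vale.Agent.P226.Exist

/-!
# P226 : passing to a space of larger dimension
-/

open MeasureTheory ProbabilityTheory Real
open scoped RealInnerProductSpace

namespace P226

section general

variable {E V : Type*} [NormedAddCommGroup E] [InnerProductSpace ℝ E] [FiniteDimensional ℝ E]
  [MeasurableSpace E] [BorelSpace E]
  [NormedAddCommGroup V] [InnerProductSpace ℝ V] [FiniteDimensional ℝ V]
  [MeasurableSpace V] [BorelSpace V]

/-- the law of the adjoint of an isometry. -/
lemma map_adjoint (J : E →ₗᵢ[ℝ] V) :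
    (stdGaussian V).map (ContinuousLinearMap.adjoint J.toContinuousLinearMap) =
      stdGaussian E := by
  have hprob : IsProbabilityMeasure
      ((stdGaussian V).map (ContinuousLinearMap.adjoint J.toContinuousLinearMap)) :=
    Measure.isProbabilityMeasure_map (by fun_prop)
  apply Measure.ext_of_charFun
  ext t
  rw [charFun_stdGaussian, charFun_apply, integral_map (by fun_prop) (by fun_prop)]
  have h : ∀ x : V, ⟪ContinuousLinearMap.adjoint J.toContinuousLinearMap x, t⟫ = ⟪x, J t⟫ := by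
    intro x
    rw [ContinuousLinearMap.adjoint_inner_left]
    rfl
  simp_rw [h]
  have h2 := charFun_stdGaussian (E := V) (J t)
  rw [charFun_apply] at h2
  rw [h2, J.norm_map]

lemma norm_mom_lift (J : E →ₗᵢ[ℝ] V) {A : Set E} (hA : MeasurableSet A) :
    ‖mom A‖ ≤ ‖mom (ContinuousLinearMap.adjoint J.toContinuousLinearMap ⁻¹' A)‖ := by
  set T := ContinuousLinearMap.adjoint J.toContinuousLinearMap with hT
  have h1 : T (mom (T ⁻¹' A)) = mom A := by
    unfold mom
    rw [← ContinuousLinearMap.integral_comp_comm T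
      (integrable_id_std (V := V)).integrableOn]
    have h2 := map_adjoint J
    rw [← hT] at h2
    conv_rhs => rw [← h2]
    rw [setIntegral_map hA (by fun_prop) (by fun_prop)]
  have h3 : ‖T‖ ≤ 1 := by
    rw [hT, LinearIsometryEquiv.norm_map]
    exact J.norm_toContinuousLinearMap_le
  calc ‖mom A‖ = ‖T (mom (T ⁻¹' A))‖ := by rw [h1]
    _ ≤ ‖T‖ * ‖mom (T ⁻¹' A)‖ := T.le_opNorm _
    _ ≤ 1 * ‖mom (T ⁻¹' A)‖ := by gcongr
    _ = _ := one_mul _

lemma not_bd_lift (J : E →ₗᵢ[ℝ] V) {n : ℕ} {A : Fin n → Set E} (hA : Part A)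
    (h : 9 / (8 * π) < ∑ i, ‖mom (A i)‖ ^ 2) : ¬ Bd V n := by
  intro hB
  set T := ContinuousLinearMap.adjoint J.toContinuousLinearMap with hT
  have hP : Part (fun i => T ⁻¹' A i) := by
    refine ⟨fun i => T.measurable (hA.meas i), ?_, ?_⟩
    · intro i j hij
      exact (hA.disj hij).preimage T
    · rw [← Set.preimage_iUnion, hA.cover, Set.preimage_univ]
  have h1 := hB _ hP
  have h2 : ∑ i, ‖mom (A i)‖ ^ 2 ≤ ∑ i, ‖mom (T ⁻¹' A i)‖ ^ 2 :=
    Finset.sum_le_sum fun i _ =>
      pow_le_pow_left₀ (norm_nonneg _) (norm_mom_lift J (hA.meas i)) 2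
  linarith

end general

/-- the standard isometric embedding. -/
lemma exists_isometry (d : ℕ) :
    Nonempty (EuclideanSpace ℝ (Fin d) →ₗᵢ[ℝ] EuclideanSpace ℝ (Fin (d + 7))) := by
  let v := (EuclideanSpace.basisFun (Fin d) ℝ).toBasis
  let f : EuclideanSpace ℝ (Fin d) →ₗ[ℝ] EuclideanSpace ℝ (Fin (d + 7)) :=
    v.constr ℝ (fun i => EuclideanSpace.basisFun (Fin (d + 7)) ℝ (Fin.castAdd 7 i))
  have hv : Orthonormal ℝ v := by
    have := (EuclideanSpace.basisFun (Fin d) ℝ).orthonormal
    rwa [← OrthonormalBasis.coe_toBasis] at this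
  have hf : Orthonormal ℝ (f ∘ v) := by
    have h1 : f ∘ v = (EuclideanSpace.basisFun (Fin (d + 7)) ℝ) ∘ (Fin.castAdd 7) := by
      ext1 i
      simp only [Function.comp_apply, f]
      rw [Module.Basis.constr_basis]
    rw [h1]
    exact (EuclideanSpace.basisFun (Fin (d + 7)) ℝ).orthonormal.comp _
      (Fin.castAdd_injective d 7)
  exact ⟨f.isometryOfOrthonormal hv hf⟩

end P226
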