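import Vale.Agent.P226.PlanarMom

/-!
# P226, Step 5 : planar bounds `planar_P` and `planar_FO`
-/

open MeasureTheory ProbabilityTheory Real
open scoped RealInnerProductSpace ENNReal

namespace P226

variable {V : Type*} [NormedAddCommGroup V] [InnerProductSpace ℝ V] [FiniteDimensional ℝ V]
  [MeasurableSpace V] [BorelSpace V] {k : ℕ}

omit [FiniteDimensional ℝ V] [MeasurableSpace V] [BorelSpace V] in
lemma Proj.inner_z_eq {z : Fin k → V} {T : Finset (Fin k)} {Y : Fin k → V} (hY : Proj z T Y)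
    {l l' : Fin k} (hl : l ∉ T) (hl' : l' ∉ T) : ⟪Y l, z l'⟫ = ⟪Y l, Y l'⟫ := by
  have h1 : ∀ v ∈ Submodule.span ℝ (z '' (T : Set (Fin k))), ⟪Y l, v⟫ = 0 := by
    intro v hv
    induction hv using Submodule.span_induction with
    | mem x hx =>
      obtain ⟨t, ht, rfl⟩ := hx
      exact hY.orth l hl t ht
    | zero => simp
    | add x y _ _ hx hy => rw [inner_add_right, hx, hy, add_zero]
    | smul a x _ hx => rw [real_inner_smul_right, hx, mul_zero]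
  have h2 := h1 _ (hY.diff_mem l' hl')
  rw [inner_sub_right] at h2
  linarith

omit [FiniteDimensional ℝ V] [MeasurableSpace V] [BorelSpace V] in
lemma inv_inner {u v : V} (h : ⟪u, v⟫ = 0) : Inv u (fun x : V => ⟪x, v⟫) := by
  intro x r
  simp only
  rw [inner_add_left, real_inner_smul_left, h, mul_zero, add_zero]

lemma pair_bound {z : Fin k → V} (hz : Crit z) {T : Finset (Fin k)} {Y : Fin k → V}
    (hY : Proj z T Y) {i : Fin k} (hi : i ∈ T) {a c : Fin k}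
    (ha : a ∉ T) (hc : c ∉ T) (hac : a ≠ c) {Δ : ℝ} (hΔ : 0 < Δ)
    (hΔ2 : Δ ^ 2 = ‖Y a‖ ^ 2 * ‖Y c‖ ^ 2 - ⟪Y a, Y c⟫ ^ 2)
    {G : ℝ → ℝ≥0∞} (hG : Measurable G) (t : ℝ) :
    ∫⁻ x, G ⟪x, z i⟫ * {x | ∀ l, l ∉ T → ⟪x, z l⟫ ≤ ⟪x, z i⟫ - t}.indicator 1 x
        ∂(stdGaussian V) ≤
      ∫⁻ x, G ⟪x, z i⟫ * ENNReal.ofReal (1 / (4 * π * Δ) *
        (max (((Tᶜ).card : ℝ) * (⟪x, z i⟫ - t) + ⟪x, ∑ t ∈ T, z t⟫) 0) ^ 2)
          ∂(stdGaussian V) := by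
  classical
  set b : ℝ := ((Tᶜ).card : ℝ) with hb
  have hYa : Y a ≠ 0 := by
    intro h
    rw [h, norm_zero, inner_zero_left] at hΔ2
    have : Δ ^ 2 = 0 := by rw [hΔ2]; ring
    exact hΔ.ne' (by simpa using this)
  have hna : 0 < ‖Y a‖ := norm_pos_iff.mpr hYa
  set v : V := Y c - (⟪Y a, Y c⟫ / ‖Y a‖ ^ 2) • Y a with hv
  have hvn : ‖v‖ ^ 2 = (Δ / ‖Y a‖) ^ 2 := by
    rw [hv, norm_sub_sq_real, real_inner_smul_right, norm_smul, div_pow, hΔ2, mul_pow,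
      Real.norm_eq_abs, sq_abs, real_inner_comm (Y a) (Y c)]
    field_simp
    ring
  have hvn' : ‖v‖ = Δ / ‖Y a‖ := by
    have h1 : (0 : ℝ) ≤ Δ / ‖Y a‖ := by positivity
    exact (pow_left_inj₀ (norm_nonneg _) h1 two_ne_zero).mp hvn
  have hv0 : 0 < ‖v‖ := by rw [hvn']; positivity
  set u1 : V := ‖Y a‖⁻¹ • Y a with hu1
  set u2 : V := ‖v‖⁻¹ • v with hu2
  have hu1n : ‖u1‖ = 1 := by
    rw [hu1, norm_smul, norm_inv, norm_norm, inv_mul_cancel₀ hna.ne']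
  have hu2n : ‖u2‖ = 1 := by
    rw [hu2, norm_smul, norm_inv, norm_norm, inv_mul_cancel₀ hv0.ne']
  have h1a : ⟪u1, z a⟫ = ‖Y a‖ := by
    rw [hu1, real_inner_smul_left, hY.inner_z_eq ha ha, real_inner_self_eq_norm_sq]
    field_simp
  have hva : ⟪v, z a⟫ = 0 := by
    rw [hv, inner_sub_left, real_inner_smul_left, hY.inner_z_eq ha ha, hY.inner_z_eq hc ha,
      real_inner_self_eq_norm_sq, real_inner_comm (Y a) (Y c)]
    field_simp
    ring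
  have hvc : ⟪v, z c⟫ = ‖v‖ ^ 2 := by
    rw [hvn, hv, inner_sub_left, real_inner_smul_left, hY.inner_z_eq ha hc, hY.inner_z_eq hc hc,
      real_inner_self_eq_norm_sq, div_pow, hΔ2]
    field_simp
  have h2a : ⟪u2, z a⟫ = 0 := by
    rw [hu2, real_inner_smul_left, hva, mul_zero]
  have h2c : ⟪u2, z c⟫ = ‖v‖ := by
    rw [hu2, real_inner_smul_left, hvc]
    field_simp
  have h1T : ∀ t ∈ T, ⟪u1, z t⟫ = 0 := by
    intro t ht
    rw [hu1, real_inner_smul_left, hY.orth a ha t ht, mul_zero]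
  have h2T : ∀ t ∈ T, ⟪u2, z t⟫ = 0 := by
    intro t ht
    rw [hu2, real_inner_smul_left, hv, inner_sub_left, real_inner_smul_left, hY.orth a ha t ht,
      hY.orth c hc t ht]
    ring
  have h1S : ⟪u1, ∑ t ∈ T, z t⟫ = 0 := by
    rw [inner_sum]
    exact Finset.sum_eq_zero h1T
  have h2S : ⟪u2, ∑ t ∈ T, z t⟫ = 0 := by
    rw [inner_sum]
    exact Finset.sum_eq_zero h2T
  have hInv : ∀ u : V, ⟪u, z i⟫ = 0 → ⟪u, ∑ t ∈ T, z t⟫ = 0 →
      Inv u (fun x : V => G ⟪x, z i⟫) ∧ Inv u (fun x : V => ⟪x, z i⟫ - t) ∧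
      Inv u (fun x : V => b * (⟪x, z i⟫ - t) + ⟪x, ∑ t ∈ T, z t⟫) := by
    intro u hui huS
    refine ⟨fun x r => ?_, fun x r => ?_, fun x r => ?_⟩
    · simp only
      rw [inner_add_left, real_inner_smul_left, hui, mul_zero, add_zero]
    · simp only
      rw [inner_add_left, real_inner_smul_left, hui, mul_zero, add_zero]
    · simp only
      rw [inner_add_left, real_inner_smul_left, hui, mul_zero, add_zero, inner_add_left,
        real_inner_smul_left, huS, mul_zero, add_zero]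
  obtain ⟨iF1, iy1, iR1⟩ := hInv u1 (h1T i hi) h1S
  obtain ⟨iF2, iy2, iR2⟩ := hInv u2 (h2T i hi) h2S
  have hk := key hu1n hu2n hna hv0 h1a h2a h2c (F := fun x : V => G ⟪x, z i⟫)
    (y := fun x : V => ⟪x, z i⟫ - t)
    (R := fun x : V => b * (⟪x, z i⟫ - t) + ⟪x, ∑ t ∈ T, z t⟫)
    (hG.comp (by fun_prop)) (by fun_prop) (by fun_prop) iF1 iy1 iR1 iF2 iy2 iR2
  have hcc : ‖Y a‖ * ‖v‖ = Δ := by rw [hvn']; field_simp
  rw [hcc] at hk
  refine le_trans (lintegral_mono fun x => ?_) hk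
  refine mul_le_mul_right ?_ _
  refine Set.indicator_le_indicator_of_subset ?_ (fun _ => zero_le) x
  intro x hx
  have hx' : ∀ l, l ∉ T → ⟪x, z l⟫ ≤ ⟪x, z i⟫ - t := hx
  show ⟪x, z a⟫ ≤ ⟪x, z i⟫ - t ∧ ⟪x, z c⟫ ≤ ⟪x, z i⟫ - t ∧
    (⟪x, z i⟫ - t - ⟪x, z a⟫) + (⟪x, z i⟫ - t - ⟪x, z c⟫) ≤
      b * (⟪x, z i⟫ - t) + ⟪x, ∑ t ∈ T, z t⟫
  refine ⟨hx' a ha, hx' c hc, ?_⟩
  have h3 : ∑ l ∈ Tᶜ, (⟪x, z i⟫ - t - ⟪x, z l⟫) = b * (⟪x, z i⟫ - t) + ⟪x, ∑ t ∈ T, z t⟫ := by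
    rw [Finset.sum_sub_distrib, Finset.sum_const, nsmul_eq_mul, ← inner_sum, ← hb]
    have h4 : ∑ l ∈ Tᶜ, z l = -∑ t ∈ T, z t := by
      rw [eq_neg_iff_add_eq_zero, Finset.sum_compl_add_sum, hz.sum_zero]
    rw [h4, inner_neg_right]
    ring
  rw [← h3]
  have h5 : ({a, c} : Finset (Fin k)) ⊆ Tᶜ := by
    intro l hl
    rw [Finset.mem_insert, Finset.mem_singleton] at hl
    rw [Finset.mem_compl]
    rcases hl with rfl | rfl
    · exact ha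
    · exact hc
  have h6 := Finset.sum_le_sum_of_subset_of_nonneg
    (f := fun l => ⟪x, z i⟫ - t - ⟪x, z l⟫) h5 (fun l hl _ => by
      have := hx' l (Finset.mem_compl.mp hl)
      linarith)
  rw [Finset.sum_pair hac] at h6
  exact h6

/-! ### basic facts on critical configurations -/

omit [FiniteDimensional ℝ V] [MeasurableSpace V] [BorelSpace V] in
lemma sum_inner_zero {z : Fin k → V} (hsum : ∑ i, z i = 0) (x : V) : ∑ j, ⟪x, z j⟫ = 0 := by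
  rw [← inner_sum, hsum, inner_zero_right]

omit [BorelSpace V] in
lemma norm_pos_crit {z : Fin k → V} (hz : Crit z) (i : Fin k) : 0 < ‖z i‖ := by
  rw [norm_pos_iff]
  intro h
  have : Nontrivial (Fin k) := Fin.nontrivial_iff_two_le.mpr (by have := hz.hk; omega)
  obtain ⟨j, hj⟩ := exists_ne i
  have h2 := hz.neg i j hj.symm
  rw [h, inner_zero_left] at h2
  exact lt_irrefl _ h2

omit [FiniteDimensional ℝ V] [MeasurableSpace V] [BorelSpace V] in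
lemma pos_of_Kset {z : Fin k → V} (hk : 2 ≤ k) (hsum : ∑ i, z i = 0) (i : Fin k) {t : ℝ}
    (ht : 0 < t) {x : V} (hx : x ∈ Kset z i t) : 0 < ⟪x, z i⟫ := by
  have h0 := sum_inner_zero hsum x
  rw [← Finset.add_sum_erase _ _ (Finset.mem_univ i)] at h0
  have h1 : ∑ j ∈ Finset.univ.erase i, ⟪x, z j⟫ ≤
      ∑ _j ∈ Finset.univ.erase i, (⟪x, z i⟫ - t) := by
    refine Finset.sum_le_sum fun j hj => ?_
    have := hx j (Finset.ne_of_mem_erase hj)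
    linarith
  rw [Finset.sum_const, Finset.card_erase_of_mem (Finset.mem_univ i), Finset.card_univ,
    Fintype.card_fin, nsmul_eq_mul, Nat.cast_sub (by omega)] at h1
  have hk' : (2 : ℝ) ≤ k := by exact_mod_cast hk
  push_cast at h1
  nlinarith

omit [FiniteDimensional ℝ V] [MeasurableSpace V] [BorelSpace V] in
lemma nonneg_of_cell {z : Fin k → V} (hsum : ∑ i, z i = 0) (i : Fin k) (hk : 2 ≤ k)
    {x : V} (hx : x ∈ cell z i) : 0 ≤ ⟪x, z i⟫ := by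
  have h0 := sum_inner_zero hsum x
  have h1 : ∑ j, ⟪x, z j⟫ ≤ ∑ _j : Fin k, ⟪x, z i⟫ := Finset.sum_le_sum fun j _ => hx j
  rw [h0, Finset.sum_const, Finset.card_univ, Fintype.card_fin, nsmul_eq_mul] at h1
  have hk' : (2 : ℝ) ≤ k := by exact_mod_cast hk
  by_contra hcon
  push Not at hcon
  nlinarith

/-! ### the excess and the first moment as integrals -/

lemma Dex_layer {z : Fin k → V} (hk : 2 ≤ k) (i : Fin k) :
    ENNReal.ofReal (Dex z i) ≤ ∫⁻ t in Set.Ioi (0 : ℝ), stdGaussian V (Kset z i t) := by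
  have h1 : ∫⁻ x, ENNReal.ofReal (max (exc z i x) 0) ∂(stdGaussian V) =
      ∫⁻ t in Set.Ioi (0 : ℝ), stdGaussian V (Kset z i t) := by
    rw [lintegral_eq_lintegral_meas_le (f := fun x => max (exc z i x) 0) _
      (Filter.Eventually.of_forall fun x => le_max_right _ _)
      ((measurable_exc hk z i).max measurable_const).aemeasurable]
    refine setLIntegral_congr_fun measurableSet_Ioi fun t ht => ?_
    have ht' : 0 < t := ht
    have h2 : {x | t ≤ max (exc z i x) 0} = Kset z i t := by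
      ext x
      rw [Set.mem_ofPred_eq, le_max_iff, le_exc_iff hk z i t x]
      constructor
      · rintro (h | h)
        · exact h
        · linarith
      · exact Or.inl
    simp only [h2]
  unfold Dex
  rw [integral_eq_lintegral_of_nonneg_ae (f := fun x => max (exc z i x) 0)
    (Filter.Eventually.of_forall fun x => le_max_right _ _)
    ((measurable_exc hk z i).max measurable_const).aestronglyMeasurable, h1]
  exact ENNReal.ofReal_toReal_le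

lemma planar_D {z : Fin k → V} (hz : Crit z) {T : Finset (Fin k)} {Y : Fin k → V}
    (hY : Proj z T Y) {i : Fin k} (hi : i ∈ T) (hb : 1 ≤ (Tᶜ).card) {a c : Fin k}
    (ha : a ∉ T) (hc : c ∉ T) (hac : a ≠ c) {Δ : ℝ} (hΔ : 0 < Δ)
    (hΔ2 : Δ ^ 2 = ‖Y a‖ ^ 2 * ‖Y c‖ ^ 2 - ⟪Y a, Y c⟫ ^ 2) :
    ENNReal.ofReal (Dex z i) ≤
      ∫⁻ x, (Set.Ioi (0 : ℝ)).indicator (1 : ℝ → ℝ≥0∞) ⟪x, z i⟫ *
        (ENNReal.ofReal (1 / (4 * π * Δ) / (3 * ((Tᶜ).card : ℝ))) * ENNReal.ofReal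
        ((max (((Tᶜ).card : ℝ) * ⟪x, z i⟫ + ⟪x, ∑ t ∈ T, z t⟫) 0) ^ 3)) ∂(stdGaussian V) := by
  have hk2 : 2 ≤ k := by have := hz.hk; omega
  set b : ℝ := ((Tᶜ).card : ℝ) with hbdef
  have hb0 : 0 < b := by
    rw [hbdef]
    have : 0 < (Tᶜ).card := by omega
    exact_mod_cast this
  set G : ℝ → ℝ≥0∞ := (Set.Ioi (0 : ℝ)).indicator (1 : ℝ → ℝ≥0∞) with hG
  have hGm : Measurable G := measurable_one.indicator measurableSet_Ioi
  set wT : V := ∑ t ∈ T, z t with hwT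
  refine (Dex_layer hk2 i).trans ?_
  have h1 : ∀ t ∈ Set.Ioi (0 : ℝ), stdGaussian V (Kset z i t) ≤
      ∫⁻ x, G ⟪x, z i⟫ * (ENNReal.ofReal (1 / (4 * π * Δ)) *
        ENNReal.ofReal ((max ((b * ⟪x, z i⟫ + ⟪x, wT⟫) - b * t) 0) ^ 2)) ∂(stdGaussian V) := by
    intro t ht
    have ht' : 0 < t := ht
    rw [← lintegral_indicator_one (measurableSet_Kset z i t)]
    refine (lintegral_mono fun x => ?_).trans
      ((pair_bound hz hY hi ha hc hac hΔ hΔ2 hGm t).trans (le_of_eq ?_))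
    · by_cases hx : x ∈ Kset z i t
      · rw [Set.indicator_of_mem hx, hG, Set.indicator_of_mem
          (show ⟪x, z i⟫ ∈ Set.Ioi (0 : ℝ) from pos_of_Kset hk2 hz.sum_zero i ht' hx),
          Set.indicator_of_mem]
        · simp
        · intro l hl
          have hli : l ≠ i := fun h => hl (h ▸ hi)
          have := hx l hli
          linarith
      · rw [Set.indicator_of_notMem hx]
        exact zero_le
    · refine lintegral_congr fun x => ?_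
      congr 1
      rw [← ENNReal.ofReal_mul (by positivity)]
      congr 4
      ring
  refine (setLIntegral_mono' measurableSet_Ioi h1).trans (le_of_eq ?_)
  rw [lintegral_lintegral_swap]
  · refine lintegral_congr fun x => ?_
    rw [lintegral_const_mul _ (by fun_prop), lintegral_const_mul _ (by fun_prop),
      lint_pow hb0 two_ne_zero]
    congr 1
    rw [← ENNReal.ofReal_mul (by positivity), ← ENNReal.ofReal_mul (by positivity)]
    congr 1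
    push_cast
    field_simp
    norm_num
  · refine Measurable.aemeasurable ?_
    have hm1 : Measurable fun p : ℝ × V => G ⟪p.2, z i⟫ := hGm.comp (by fun_prop)
    exact hm1.mul (by fun_prop)

lemma planar_M {z : Fin k → V} (hz : Crit z) {T : Finset (Fin k)} {Y : Fin k → V}
    (hY : Proj z T Y) {i : Fin k} (hi : i ∈ T) {a c : Fin k}
    (ha : a ∉ T) (hc : c ∉ T) (hac : a ≠ c) {Δ : ℝ} (hΔ : 0 < Δ)
    (hΔ2 : Δ ^ 2 = ‖Y a‖ ^ 2 * ‖Y c‖ ^ 2 - ⟪Y a, Y c⟫ ^ 2) :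
    ENNReal.ofReal (‖z i‖ ^ 2) ≤
      ∫⁻ x, ENNReal.ofReal (max ⟪x, z i⟫ 0) *
        ENNReal.ofReal (1 / (4 * π * Δ) *
        (max (((Tᶜ).card : ℝ) * ⟪x, z i⟫ + ⟪x, ∑ t ∈ T, z t⟫) 0) ^ 2) ∂(stdGaussian V) := by
  have hk2 : 2 ≤ k := by have := hz.hk; omega
  have h1 : ‖z i‖ ^ 2 = ∫ x in cell z i, ⟪x, z i⟫ ∂(stdGaussian V) := by
    rw [← inner_mom, hz.mom_cell, real_inner_self_eq_norm_sq]
  have h2 : ENNReal.ofReal (‖z i‖ ^ 2) =
      ∫⁻ x in cell z i, ENNReal.ofReal ⟪x, z i⟫ ∂(stdGaussian V) := by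
    rw [h1, ofReal_integral_eq_lintegral_ofReal (integrable_inner (z i)).restrict]
    exact (ae_restrict_iff' (measurableSet_cell z i)).mpr
      (Filter.Eventually.of_forall fun x hx => nonneg_of_cell hz.sum_zero i hk2 hx)
  rw [h2, ← lintegral_indicator (measurableSet_cell z i)]
  have h3 := pair_bound hz hY hi ha hc hac hΔ hΔ2
    (G := fun y : ℝ => ENNReal.ofReal (max y 0)) (by fun_prop) 0
  simp only [sub_zero] at h3
  refine (lintegral_mono fun x => ?_).trans h3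
  by_cases hx : x ∈ cell z i
  · rw [Set.indicator_of_mem hx, Set.indicator_of_mem]
    · rw [Pi.one_apply, mul_one]
      exact ENNReal.ofReal_le_ofReal (le_max_left _ _)
    · intro l _
      exact hx l
  · rw [Set.indicator_of_notMem hx]
    exact zero_le

/-! ### the orthogonal remainder -/

omit [FiniteDimensional ℝ V] [MeasurableSpace V] [BorelSpace V] in
lemma exists_rem {z : Fin k → V} (hneg : ∀ i j, i ≠ j → ⟪z i, z j⟫ < 0) {i : Fin k}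
    {T : Finset (Fin k)} (hi : i ∈ T) (hzi : 0 < ‖z i‖) :
    ∃ (r : V) (θ : ℝ), 0 ≤ θ ∧ ⟪z i, r⟫ = 0 ∧ ‖r‖ ^ 2 ≤ ∑ t ∈ T.erase i, ‖z t‖ ^ 2 ∧
      ∑ t ∈ T, z t = (1 - θ) • z i + r := by
  classical
  set w : V := ∑ t ∈ T.erase i, z t with hw
  have hwi : ⟪w, z i⟫ ≤ 0 := by
    rw [hw, sum_inner]
    exact Finset.sum_nonpos fun t ht => (hneg t i (Finset.ne_of_mem_erase ht)).le
  set θ : ℝ := -⟪w, z i⟫ / ‖z i‖ ^ 2 with hθ
  have hθ0 : 0 ≤ θ := div_nonneg (by linarith) (sq_nonneg _)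
  have hr : ⟪z i, w + θ • z i⟫ = 0 := by
    rw [inner_add_right, real_inner_smul_right, real_inner_self_eq_norm_sq, real_inner_comm w (z i),
      hθ]
    field_simp
    ring
  refine ⟨w + θ • z i, θ, hθ0, hr, ?_, ?_⟩
  · have h1 : ‖w + θ • z i‖ ^ 2 ≤ ‖w‖ ^ 2 := by
      have h2 : ‖w + θ • z i‖ ^ 2 = ‖w‖ ^ 2 + θ * ⟪w, z i⟫ := by
        rw [← real_inner_self_eq_norm_sq (w + θ • z i)]
        conv_lhs => rw [inner_add_left, real_inner_smul_left, hr, mul_zero, add_zero,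
          inner_add_right, real_inner_smul_right, real_inner_self_eq_norm_sq]
      rw [h2]
      nlinarith
    refine h1.trans ?_
    have h3 : ‖w‖ ^ 2 = ∑ t ∈ T.erase i, ⟪z t, w⟫ := by
      rw [← sum_inner, ← hw, real_inner_self_eq_norm_sq]
    rw [h3]
    refine Finset.sum_le_sum fun t ht => ?_
    rw [hw, inner_sum, ← Finset.add_sum_erase _ _ ht, real_inner_self_eq_norm_sq]
    have h4 : ∑ t' ∈ (T.erase i).erase t, ⟪z t, z t'⟫ ≤ 0 :=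
      Finset.sum_nonpos fun t' ht' => (hneg t t' (Finset.ne_of_mem_erase ht').symm).le
    linarith
  · rw [← Finset.add_sum_erase _ _ hi, ← hw, sub_smul, one_smul]
    abel

/-! ### the two planar bounds -/

lemma planar_P_pos {z : Fin k → V} (hz : Crit z) {T : Finset (Fin k)} {Y : Fin k → V}
    (hY : Proj z T Y) {i : Fin k} (hi : i ∈ T) (hb : 1 ≤ (Tᶜ).card) {a c : Fin k}
    (ha : a ∉ T) (hc : c ∉ T) (hac : a ≠ c) {Δ A S' : ℝ} (hΔ : 0 < Δ)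
    (hΔ2 : Δ ^ 2 = ‖Y a‖ ^ 2 * ‖Y c‖ ^ 2 - ⟪Y a, Y c⟫ ^ 2)
    (hA : A = (((Tᶜ).card : ℝ) + 1) * ‖z i‖) (hS : S' = ∑ t ∈ T.erase i, ‖z t‖ ^ 2) :
    12 * π * ((Tᶜ).card : ℝ) * Δ * Dex z i ≤
      (2 * A ^ 3 + 3 * A * S' + 3 / 8 * S' ^ 2 / A) / √(2 * π) := by
  have hσ := norm_pos_crit hz i
  set b : ℝ := ((Tᶜ).card : ℝ) with hbdef
  have hb0 : 0 < b := by
    rw [hbdef]
    have : 0 < (Tᶜ).card := by omega
    exact_mod_cast this
  have hA0 : 0 < A := by rw [hA]; positivity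
  have hS0 : 0 ≤ S' := by rw [hS]; exact Finset.sum_nonneg fun t _ => sq_nonneg _
  obtain ⟨r, θ, hθ, hir, hrS, hsum⟩ := exists_rem hz.neg hi hσ
  rw [← hS] at hrS
  set u : V := ‖z i‖⁻¹ • z i with hu
  have hun : ‖u‖ = 1 := by rw [hu, norm_smul, norm_inv, norm_norm, inv_mul_cancel₀ hσ.ne']
  have hur : ⟪u, r⟫ = 0 := by rw [hu, real_inner_smul_left, hir, mul_zero]
  have hxu : ∀ x : V, ⟪x, z i⟫ = ‖z i‖ * ⟪x, u⟫ := by
    intro x
    rw [hu, real_inner_smul_right]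
    field_simp
  have h1 := planar_D hz hY hi hb ha hc hac hΔ hΔ2
  rw [← hbdef] at h1
  set H : ℝ → ℝ → ℝ≥0∞ := fun g β => (Set.Ioi (0 : ℝ)).indicator
    (fun g => ENNReal.ofReal ((max (A * g + β) 0) ^ 3)) g with hH
  have hHm : Measurable fun p : ℝ × ℝ => H p.1 p.2 := by
    have h2 : (fun p : ℝ × ℝ => H p.1 p.2) = {p : ℝ × ℝ | 0 < p.1}.indicator
        (fun p => ENNReal.ofReal ((max (A * p.1 + p.2) 0) ^ 3)) := by
      ext p
      rfl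
    rw [h2]
    exact Measurable.indicator (by fun_prop) (measurableSet_lt measurable_const measurable_fst)
  have h3 : ∀ x : V, (Set.Ioi (0 : ℝ)).indicator (1 : ℝ → ℝ≥0∞) ⟪x, z i⟫ *
        (ENNReal.ofReal (1 / (4 * π * Δ) / (3 * b)) * ENNReal.ofReal
        ((max (b * ⟪x, z i⟫ + ⟪x, ∑ t ∈ T, z t⟫) 0) ^ 3)) ≤
      ENNReal.ofReal (1 / (4 * π * Δ) / (3 * b)) * H ⟪x, u⟫ ⟪x, r⟫ := by
    intro x
    by_cases hx : 0 < ⟪x, z i⟫
    · have hx' : 0 < ⟪x, u⟫ := by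
        rw [hxu] at hx
        exact pos_of_mul_pos_right hx hσ.le
      rw [hH]
      simp only
      rw [Set.indicator_of_mem (show ⟪x, z i⟫ ∈ Set.Ioi (0 : ℝ) from hx),
        Set.indicator_of_mem (show ⟪x, u⟫ ∈ Set.Ioi (0 : ℝ) from hx'), Pi.one_apply, one_mul]
      refine mul_le_mul_right (ENNReal.ofReal_le_ofReal ?_) _
      refine pow_le_pow_left₀ (le_max_right _ _) (max_le_max ?_ le_rfl) 3
      rw [hsum, inner_add_right, real_inner_smul_right, hA]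
      have h4 : (b + 1) * ‖z i‖ * ⟪x, u⟫ = (b + 1) * ⟪x, z i⟫ := by rw [hxu]; ring
      rw [h4]
      nlinarith
    · rw [Set.indicator_of_notMem (show ⟪x, z i⟫ ∉ Set.Ioi (0 : ℝ) from hx), zero_mul]
      exact zero_le
  have h5 : ENNReal.ofReal (Dex z i) ≤ ENNReal.ofReal (1 / (4 * π * Δ) / (3 * b) *
      ((2 * A ^ 3 + 3 * A * S' + 3 / 8 * S' ^ 2 / A) / √(2 * π))) := by
    refine (h1.trans (lintegral_mono h3)).trans ?_
    have hm : Measurable fun x : V => H ⟪x, u⟫ ⟪x, r⟫ :=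
      hHm.comp (f := fun x : V => (⟪x, u⟫, ⟪x, r⟫)) (by fun_prop)
    rw [lintegral_const_mul _ hm, lintegral_pair hun hur hHm, ENNReal.ofReal_mul (by positivity)]
    refine mul_le_mul_right ((mom3 hA0 (norm_nonneg r)).trans (ENNReal.ofReal_le_ofReal ?_)) _
    have h6 : ‖r‖ ^ 4 ≤ S' ^ 2 := by
      have : ‖r‖ ^ 4 = (‖r‖ ^ 2) ^ 2 := by ring
      rw [this]
      exact pow_le_pow_left₀ (sq_nonneg _) hrS 2
    gcongr
  have h7 := (ENNReal.ofReal_le_ofReal_iff (by positivity)).mp h5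
  have h8 : 12 * π * b * Δ * Dex z i ≤ 12 * π * b * Δ * (1 / (4 * π * Δ) / (3 * b) *
      ((2 * A ^ 3 + 3 * A * S' + 3 / 8 * S' ^ 2 / A) / √(2 * π))) :=
    mul_le_mul_of_nonneg_left h7 (by positivity)
  refine h8.trans (le_of_eq ?_)
  field_simp
  norm_num

lemma planar_FO_pos {z : Fin k → V} (hz : Crit z) {T : Finset (Fin k)} {Y : Fin k → V}
    (hY : Proj z T Y) {i : Fin k} (hi : i ∈ T) {a c : Fin k}
    (ha : a ∉ T) (hc : c ∉ T) (hac : a ≠ c) {Δ A S' : ℝ} (hΔ : 0 < Δ)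
    (hΔ2 : Δ ^ 2 = ‖Y a‖ ^ 2 * ‖Y c‖ ^ 2 - ⟪Y a, Y c⟫ ^ 2)
    (hA : A = (((Tᶜ).card : ℝ) + 1) * ‖z i‖) (hS : S' = ∑ t ∈ T.erase i, ‖z t‖ ^ 2) :
    4 * π * Δ * ‖z i‖ ≤ (2 * A ^ 2 + S') / √(2 * π) := by
  have hσ := norm_pos_crit hz i
  set b : ℝ := ((Tᶜ).card : ℝ) with hbdef
  have hA0 : 0 < A := by rw [hA]; positivity
  have hS0 : 0 ≤ S' := by rw [hS]; exact Finset.sum_nonneg fun t _ => sq_nonneg _
  obtain ⟨r, θ, hθ, hir, hrS, hsum⟩ := exists_rem hz.neg hi hσ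
  rw [← hS] at hrS
  set u : V := ‖z i‖⁻¹ • z i with hu
  have hun : ‖u‖ = 1 := by rw [hu, norm_smul, norm_inv, norm_norm, inv_mul_cancel₀ hσ.ne']
  have hur : ⟪u, r⟫ = 0 := by rw [hu, real_inner_smul_left, hir, mul_zero]
  have hxu : ∀ x : V, ⟪x, z i⟫ = ‖z i‖ * ⟪x, u⟫ := by
    intro x
    rw [hu, real_inner_smul_right]
    field_simp
  have h1 := planar_M hz hY hi ha hc hac hΔ hΔ2
  rw [← hbdef] at h1
  set H : ℝ → ℝ → ℝ≥0∞ := fun g β => (Set.Ioi (0 : ℝ)).indicator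
    (fun g => ENNReal.ofReal (g * (A * g + β) ^ 2)) g with hH
  have hHm : Measurable fun p : ℝ × ℝ => H p.1 p.2 := by
    have h2 : (fun p : ℝ × ℝ => H p.1 p.2) = {p : ℝ × ℝ | 0 < p.1}.indicator
        (fun p => ENNReal.ofReal (p.1 * (A * p.1 + p.2) ^ 2)) := by
      ext p
      rfl
    rw [h2]
    exact Measurable.indicator (by fun_prop) (measurableSet_lt measurable_const measurable_fst)
  have h3 : ∀ x : V, ENNReal.ofReal (max ⟪x, z i⟫ 0) *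
        ENNReal.ofReal (1 / (4 * π * Δ) *
        (max (b * ⟪x, z i⟫ + ⟪x, ∑ t ∈ T, z t⟫) 0) ^ 2) ≤
      ENNReal.ofReal (1 / (4 * π * Δ) * ‖z i‖) * H ⟪x, u⟫ ⟪x, r⟫ := by
    intro x
    by_cases hx : 0 < ⟪x, z i⟫
    · have hx' : 0 < ⟪x, u⟫ := by
        rw [hxu] at hx
        exact pos_of_mul_pos_right hx hσ.le
      rw [hH]
      simp only
      rw [Set.indicator_of_mem (show ⟪x, u⟫ ∈ Set.Ioi (0 : ℝ) from hx'), max_eq_left hx.le,
        ← ENNReal.ofReal_mul hx.le, ← ENNReal.ofReal_mul (by positivity)]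
      apply ENNReal.ofReal_le_ofReal
      have h4 : (max (b * ⟪x, z i⟫ + ⟪x, ∑ t ∈ T, z t⟫) 0) ^ 2 ≤ (A * ⟪x, u⟫ + ⟪x, r⟫) ^ 2 := by
        have h5 : b * ⟪x, z i⟫ + ⟪x, ∑ t ∈ T, z t⟫ ≤ A * ⟪x, u⟫ + ⟪x, r⟫ := by
          rw [hsum, inner_add_right, real_inner_smul_right, hA]
          have h4 : (b + 1) * ‖z i‖ * ⟪x, u⟫ = (b + 1) * ⟪x, z i⟫ := by rw [hxu]; ring
          rw [h4]
          nlinarith
        rcases le_total 0 (b * ⟪x, z i⟫ + ⟪x, ∑ t ∈ T, z t⟫) with h | h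
        · rw [max_eq_left h]
          exact pow_le_pow_left₀ h h5 2
        · rw [max_eq_right h, zero_pow two_ne_zero]
          exact sq_nonneg _
      have h6 : 0 ≤ 1 / (4 * π * Δ) := by positivity
      calc ⟪x, z i⟫ * (1 / (4 * π * Δ) *
            (max (b * ⟪x, z i⟫ + ⟪x, ∑ t ∈ T, z t⟫) 0) ^ 2)
          ≤ ⟪x, z i⟫ * (1 / (4 * π * Δ) * (A * ⟪x, u⟫ + ⟪x, r⟫) ^ 2) :=
            mul_le_mul_of_nonneg_left (mul_le_mul_of_nonneg_left h4 h6) hx.le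
        _ = _ := by rw [hxu]; ring
    · push Not at hx
      rw [max_eq_right hx, ENNReal.ofReal_zero, zero_mul]
      exact zero_le
  have h5 : ENNReal.ofReal (‖z i‖ ^ 2) ≤ ENNReal.ofReal (1 / (4 * π * Δ) * ‖z i‖ *
      ((2 * A ^ 2 + S') / √(2 * π))) := by
    refine (h1.trans (lintegral_mono h3)).trans ?_
    have hm : Measurable fun x : V => H ⟪x, u⟫ ⟪x, r⟫ :=
      hHm.comp (f := fun x : V => (⟪x, u⟫, ⟪x, r⟫)) (by fun_prop)
    rw [lintegral_const_mul _ hm, lintegral_pair hun hur hHm,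
      ENNReal.ofReal_mul (p := 1 / (4 * π * Δ) * ‖z i‖) (by positivity)]
    refine mul_le_mul_right ((mom2 hA0 (norm_nonneg r)).trans (ENNReal.ofReal_le_ofReal ?_)) _
    gcongr
  have h7 := (ENNReal.ofReal_le_ofReal_iff (by positivity)).mp h5
  have h8 : 4 * π * Δ / ‖z i‖ * ‖z i‖ ^ 2 ≤ 4 * π * Δ / ‖z i‖ * (1 / (4 * π * Δ) * ‖z i‖ *
      ((2 * A ^ 2 + S') / √(2 * π))) :=
    mul_le_mul_of_nonneg_left h7 (by positivity)
  have h9 : 4 * π * Δ / ‖z i‖ * ‖z i‖ ^ 2 = 4 * π * Δ * ‖z i‖ := by field_simp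
  have h10 : 4 * π * Δ / ‖z i‖ * (1 / (4 * π * Δ) * ‖z i‖ *
      ((2 * A ^ 2 + S') / √(2 * π))) = (2 * A ^ 2 + S') / √(2 * π) := by field_simp
  rw [h9, h10] at h8
  exact h8

omit [MeasurableSpace V] [BorelSpace V] [FiniteDimensional ℝ V] in
lemma gram_nonneg (x y : V) : 0 ≤ ‖x‖ ^ 2 * ‖y‖ ^ 2 - ⟪x, y⟫ ^ 2 := by
  have h1 := abs_real_inner_le_norm x y
  have h2 : ⟪x, y⟫ ^ 2 ≤ (‖x‖ * ‖y‖) ^ 2 := by
    rw [← sq_abs ⟪x, y⟫]
    exact pow_le_pow_left₀ (abs_nonneg _) h1 2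
  nlinarith

theorem planar_P {z : Fin k → V} (hz : Crit z) {T : Finset (Fin k)} {Y : Fin k → V}
    (hY : Proj z T Y) {i : Fin k} (hi : i ∈ T) (hb : 3 ≤ (Tᶜ).card) {a c : Fin k}
    (ha : a ∉ T) (hc : c ∉ T) (hac : a ≠ c) :
    let b : ℝ := (Tᶜ).card
    let A : ℝ := (b + 1) * ‖z i‖
    let S' : ℝ := ∑ t ∈ T.erase i, ‖z t‖ ^ 2
    let Δ : ℝ := √(‖Y a‖ ^ 2 * ‖Y c‖ ^ 2 - ⟪Y a, Y c⟫ ^ 2)
    6 * π * b * Δ * ((k : ℝ) / (k - 1) * ‖z i‖ ^ 2) <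
      √(2 / π) * (A ^ 3 + 3 / 2 * A * S' + 3 / 16 * S' ^ 2 / A) := by
  intro b A S' Δ
  have hσ := norm_pos_crit hz i
  have hb0 : 0 < b := by
    have : 0 < (Tᶜ).card := by omega
    exact Nat.cast_pos.mpr this
  have hA0 : 0 < A := by positivity
  have hS0 : 0 ≤ S' := Finset.sum_nonneg fun t _ => sq_nonneg _
  have hpi := Real.pi_pos
  have hconst : √(2 / π) = 2 / √(2 * π) := by
    rw [show (2 : ℝ) / π = 2 ^ 2 / (2 * π) by field_simp, Real.sqrt_div (by norm_num),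
      Real.sqrt_sq (by norm_num)]
  have hrhs : √(2 / π) * (A ^ 3 + 3 / 2 * A * S' + 3 / 16 * S' ^ 2 / A) =
      (2 * A ^ 3 + 3 * A * S' + 3 / 8 * S' ^ 2 / A) / √(2 * π) := by
    rw [hconst]
    field_simp
    ring
  rw [hrhs]
  have hrpos : 0 < (2 * A ^ 3 + 3 * A * S' + 3 / 8 * S' ^ 2 / A) / √(2 * π) := by positivity
  rcases (Real.sqrt_nonneg (‖Y a‖ ^ 2 * ‖Y c‖ ^ 2 - ⟪Y a, Y c⟫ ^ 2)).lt_or_eq with hΔ | hΔ
  · have hΔ' : 0 < Δ := hΔ
    have hΔ2 : Δ ^ 2 = ‖Y a‖ ^ 2 * ‖Y c‖ ^ 2 - ⟪Y a, Y c⟫ ^ 2 :=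
      Real.sq_sqrt (gram_nonneg _ _)
    have h1 := planar_P_pos hz hY hi (by omega) ha hc hac (A := A) (S' := S') hΔ' hΔ2 rfl rfl
    have h2 := hz.removal i
    have h3 : 6 * π * b * Δ * ((k : ℝ) / (k - 1) * ‖z i‖ ^ 2) <
        6 * π * b * Δ * (2 * Dex z i) := mul_lt_mul_of_pos_left h2 (by positivity)
    have h4 : 6 * π * b * Δ * (2 * Dex z i) = 12 * π * b * Δ * Dex z i := by ring
    rw [h4] at h3
    exact h3.trans_le h1
  · have h1 : Δ = 0 := hΔ.symm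
    rw [h1]
    simpa using hrpos

theorem planar_FO {z : Fin k → V} (hz : Crit z) {T : Finset (Fin k)} {Y : Fin k → V}
    (hY : Proj z T Y) {i : Fin k} (hi : i ∈ T) (_hb : 3 ≤ (Tᶜ).card) {a c : Fin k}
    (ha : a ∉ T) (hc : c ∉ T) (hac : a ≠ c) :
    let b : ℝ := (Tᶜ).card
    let A : ℝ := (b + 1) * ‖z i‖
    let S' : ℝ := ∑ t ∈ T.erase i, ‖z t‖ ^ 2
    let Δ : ℝ := √(‖Y a‖ ^ 2 * ‖Y c‖ ^ 2 - ⟪Y a, Y c⟫ ^ 2)
    4 * π * Δ * ‖z i‖ ≤ (2 * A ^ 2 + S') / √(2 * π) := by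
  intro b A S' Δ
  have hS0 : 0 ≤ S' := Finset.sum_nonneg fun t _ => sq_nonneg _
  rcases (Real.sqrt_nonneg (‖Y a‖ ^ 2 * ‖Y c‖ ^ 2 - ⟪Y a, Y c⟫ ^ 2)).lt_or_eq with hΔ | hΔ
  · have hΔ' : 0 < Δ := hΔ
    have hΔ2 : Δ ^ 2 = ‖Y a‖ ^ 2 * ‖Y c‖ ^ 2 - ⟪Y a, Y c⟫ ^ 2 :=
      Real.sq_sqrt (gram_nonneg _ _)
    exact planar_FO_pos hz hY hi ha hc hac hΔ' hΔ2 rfl rfl
  · have h1 : Δ = 0 := hΔ.symm
    rw [h1]
    simp only [mul_zero, zero_mul]
    positivity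

end P226
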