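import Vale.Agent.P226.Base3
import Vale.Agent.P226.Lift
import Vale.Agent.P226.Planar

/-!
# P226 : assembling
-/

open MeasureTheory ProbabilityTheory Real
open scoped RealInnerProductSpace

namespace P226

/-- the numeric data of a critical configuration, given the cap bounds. -/
theorem Crit.numGeo_caps {V : Type*} [NormedAddCommGroup V] [InnerProductSpace ℝ V]
    [FiniteDimensional ℝ V] [MeasurableSpace V] [BorelSpace V] {k : ℕ} {z : Fin k → V}
    (hz : Crit z) (hd : 7 ≤ Module.finrank ℝ V)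
    (hI : ∀ (A : Set V), MeasurableSet A → ∀ t : ℝ,
      ‖mom A‖ ≤ gpdf t + t * ((stdGaussian V).real A - gtail t))
    (hcap : ∀ {n : ℕ}, (n = 2 ∨ n = 3 ∨ n = 4 ∨ n = 5 ∨ n = 7) →
      ∀ W : Submodule ℝ V, Module.finrank ℝ W = n →
      ∀ A : Set V, MeasurableSet A → (∀ x ∈ A, ∀ c : ℝ, 0 < c → c • x ∈ A) →
      (∀ x ∈ A, ∀ y ∈ Wᗮ, x + y ∈ A) → ∀ {c : ℝ}, 0 ≤ c → c < 1 →
      ‖mom A‖ ≤ capJ n c + c * capM n * ((stdGaussian V).real A - capP n c)) :
    ∃ σ p : ℕ → ℝ, NumGeo k σ p :=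
  hz.numGeo_of hd hI hcap
    (fun {_} hz {_ _} hY {_} hi hb {_ _} ha hc hac => planar_P hz hY hi hb ha hc hac)
    (fun {_} hz {_ _} hY {_} hi hb {_ _} ha hc hac => planar_FO hz hY hi hb ha hc hac)

/-- If there is no critical configuration then the propeller bound holds for all partitions. -/
theorem propeller_part {d n : ℕ} (hB3 : Bd (EuclideanSpace ℝ (Fin (d + 7))) 3)
    (hno : ∀ (k : ℕ) (z : Fin k → EuclideanSpace ℝ (Fin (d + 7))), ¬ Crit z)
    (A : Fin n → Set (EuclideanSpace ℝ (Fin d))) (hA : Part A) :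
    ∑ i, ‖mom (A i)‖ ^ 2 ≤ 9 / (8 * π) := by
  by_contra hcon
  rw [not_le] at hcon
  obtain ⟨J⟩ := exists_isometry d
  obtain ⟨k, z, hz⟩ := exists_crit hB3 (not_bd_lift J hA hcon)
  exact hno k z hz

/-- The same for families which are only disjoint up to null sets, and need not cover. -/
theorem propeller_ae {V : Type*} [NormedAddCommGroup V] [InnerProductSpace ℝ V]
    [FiniteDimensional ℝ V] [MeasurableSpace V] [BorelSpace V]
    (h : ∀ (n : ℕ) (A : Fin n → Set V), Part A → ∑ i, ‖mom (A i)‖ ^ 2 ≤ 9 / (8 * π))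
    {n : ℕ} (A : Fin n → Set V) (hA : ∀ i, MeasurableSet (A i))
    (hdisj : ∀ i j, i ≠ j → stdGaussian V (A i ∩ A j) = 0) :
    ∑ i, ‖mom (A i)‖ ^ 2 ≤ 9 / (8 * π) := by
  classical
  -- disjointify
  let B : Fin n → Set V := fun i => A i \ ⋃ j : {j : Fin n // j < i}, A j
  have hBm : ∀ i, MeasurableSet (B i) := fun i =>
    (hA i).diff (MeasurableSet.iUnion fun j => hA j)
  have hBd : ∀ i j, i < j → Disjoint (B i) (B j) := by
    intro i j hij
    rw [Set.disjoint_left]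
    intro x hx hx'
    exact hx'.2 (Set.mem_iUnion.2 ⟨⟨i, hij⟩, hx.1⟩)
  have hAB : ∀ i, mom (B i) = mom (A i) := by
    intro i
    unfold mom
    refine setIntegral_congr_set ?_
    have h0 : stdGaussian V (A i ∩ ⋃ j : {j : Fin n // j < i}, A j) = 0 := by
      rw [Set.inter_iUnion, measure_iUnion_null_iff]
      intro j
      exact hdisj i j (ne_of_gt j.2)
    refine (sdiff_ae_eq_self).2 h0
  -- add the complement
  let C : Fin (n + 1) → Set V := Fin.cons (⋃ i, B i)ᶜ B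
  have hP : Part C := by
    refine ⟨?_, ?_, ?_⟩
    · intro i
      refine Fin.cases ?_ (fun j => ?_) i
      · exact (MeasurableSet.iUnion hBm).compl
      · exact hBm j
    · intro i j hij
      rcases Fin.eq_zero_or_eq_succ i with rfl | ⟨i, rfl⟩ <;>
        rcases Fin.eq_zero_or_eq_succ j with rfl | ⟨j, rfl⟩
      · exact absurd rfl hij
      · rw [Function.onFun, Set.disjoint_left]
        intro x hx hx'
        exact hx (Set.mem_iUnion.2 ⟨j, hx'⟩)
      · rw [Function.onFun, Set.disjoint_left]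
        intro x hx hx'
        exact hx' (Set.mem_iUnion.2 ⟨i, hx⟩)
      · have hne : i ≠ j := fun h => hij (by rw [h])
        rcases lt_or_gt_of_ne hne with h | h
        · exact hBd i j h
        · exact (hBd j i h).symm
    · refine Set.eq_univ_of_forall fun x => ?_
      rw [Set.mem_iUnion]
      by_cases hx : x ∈ ⋃ i, B i
      · obtain ⟨i, hi⟩ := Set.mem_iUnion.1 hx
        exact ⟨i.succ, hi⟩
      · exact ⟨0, hx⟩
  have h1 := h (n + 1) C hP
  rw [Fin.sum_univ_succ] at h1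
  have h2 : ∑ i : Fin n, ‖mom (C i.succ)‖ ^ 2 = ∑ i, ‖mom (A i)‖ ^ 2 :=
    Finset.sum_congr rfl fun i _ => by
      change ‖mom (B i)‖ ^ 2 = _
      rw [hAB]
  rw [h2] at h1
  have h3 : 0 ≤ ‖mom (C 0)‖ ^ 2 := sq_nonneg _
  linarith

/-- final assembly: cap bounds and the numeric contradiction give the theorem. -/
theorem propeller_of {d : ℕ}
    (hI : ∀ (A : Set (EuclideanSpace ℝ (Fin (d + 7)))), MeasurableSet A → ∀ t : ℝ,
      ‖mom A‖ ≤ gpdf t +
        t * ((stdGaussian (EuclideanSpace ℝ (Fin (d + 7)))).real A - gtail t))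
    (hcap : ∀ {n : ℕ}, (n = 2 ∨ n = 3 ∨ n = 4 ∨ n = 5 ∨ n = 7) →
      ∀ W : Submodule ℝ (EuclideanSpace ℝ (Fin (d + 7))), Module.finrank ℝ W = n →
      ∀ A : Set (EuclideanSpace ℝ (Fin (d + 7))), MeasurableSet A →
      (∀ x ∈ A, ∀ c : ℝ, 0 < c → c • x ∈ A) →
      (∀ x ∈ A, ∀ y ∈ Wᗮ, x + y ∈ A) → ∀ {c : ℝ}, 0 ≤ c → c < 1 →
      ‖mom A‖ ≤ capJ n c + c * capM n *
        ((stdGaussian (EuclideanSpace ℝ (Fin (d + 7)))).real A - capP n c))
    (hnum : ∀ (k : ℕ) (σ p : ℕ → ℝ), ¬ NumGeo k σ p)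
    {n : ℕ} (A : Fin n → Set (EuclideanSpace ℝ (Fin d))) (hA : ∀ i, MeasurableSet (A i))
    (hdisj : ∀ i j, i ≠ j → stdGaussian (EuclideanSpace ℝ (Fin d)) (A i ∩ A j) = 0) :
    ∑ i, ‖∫ x in A i, x ∂(stdGaussian (EuclideanSpace ℝ (Fin d)))‖ ^ 2 ≤ 9 / (8 * π) := by
  have hd : 7 ≤ Module.finrank ℝ (EuclideanSpace ℝ (Fin (d + 7))) := by
    rw [finrank_euclideanSpace_fin]
    omega
  refine propeller_ae (fun n A hA => propeller_part ?_ ?_ A hA) A hA hdisj
  · exact bd_three (fun W hW A hA h1 h2 {c} h3 h4 => hcap (Or.inl rfl) W hW A hA h1 h2 h3 h4)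
      (by omega)
  · intro k z hz
    obtain ⟨σ, p, h⟩ := hz.numGeo_caps hd hI hcap
    exact hnum k σ p h

end P226
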