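import Vale.Agent.P226.PlanarAux

/-!
# P226, Step 5 : Gaussian moment computations
-/

open MeasureTheory ProbabilityTheory Real
open scoped RealInnerProductSpace ENNReal

namespace P226

variable {V : Type*} [NormedAddCommGroup V] [InnerProductSpace ℝ V] [FiniteDimensional ℝ V]
  [MeasurableSpace V] [BorelSpace V] {k : ℕ}

/-! ### one-dimensional half moments -/

lemma half_moment (n : ℕ) :
    ∫⁻ g in Set.Ioi (0 : ℝ), ENNReal.ofReal (g ^ n) ∂(gaussianReal 0 1) =
      ENNReal.ofReal ((√(2 * π))⁻¹ * ((1 / 2 : ℝ) ^ (-((n : ℝ) + 1) / 2) * (1 / 2) *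
        Real.Gamma (((n : ℝ) + 1) / 2))) := by
  have h := integral_rpow_mul_exp_neg_mul_rpow (p := 2) (q := n) (b := 1 / 2) (by norm_num)
    (by have : (0 : ℝ) ≤ n := Nat.cast_nonneg n
        linarith) (by norm_num)
  have hne : (1 / 2 : ℝ) ^ (-((n : ℝ) + 1) / 2) * (1 / 2) * Real.Gamma (((n : ℝ) + 1) / 2) ≠ 0 := by
    have : 0 < Real.Gamma (((n : ℝ) + 1) / 2) := Real.Gamma_pos_of_pos (by positivity)
    positivity
  have hint : IntegrableOn (fun x : ℝ => x ^ (n : ℝ) * exp (-(1 / 2) * x ^ (2 : ℝ)))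
      (Set.Ioi 0) := by
    by_contra hcon
    rw [integral_undef hcon] at h
    exact hne h.symm
  rw [← h, ← integral_const_mul, ofReal_integral_eq_lintegral_ofReal (hint.const_mul _)]
  · rw [gaussianReal_of_var_ne_zero _ one_ne_zero,
      setLIntegral_withDensity_eq_setLIntegral_mul _ (measurable_gaussianPDF _ _)
        (by fun_prop) measurableSet_Ioi]
    refine setLIntegral_congr_fun measurableSet_Ioi fun g hg => ?_
    have hg' : (0 : ℝ) < g := hg
    simp only [Pi.mul_apply]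
    unfold gaussianPDF gaussianPDFReal
    rw [← ENNReal.ofReal_mul (by positivity)]
    congr 1
    simp only [NNReal.coe_one, mul_one, sub_zero]
    rw [Real.rpow_natCast, Real.rpow_two, mul_assoc]
    congr 1
    rw [mul_comm]
    congr 2
    ring
  · refine (ae_restrict_iff' measurableSet_Ioi).mpr (Filter.Eventually.of_forall fun g hg => ?_)
    have hg' : (0 : ℝ) < g := hg
    have : 0 < g ^ (n : ℝ) := Real.rpow_pos_of_pos hg' _
    positivity

lemma half_one : ∫⁻ g in Set.Ioi (0 : ℝ), ENNReal.ofReal (g ^ 1) ∂(gaussianReal 0 1) =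
    ENNReal.ofReal (1 / √(2 * π)) := by
  rw [half_moment]
  congr 1
  have h1 : (-(((1 : ℕ) : ℝ) + 1) / 2) = -1 := by norm_num
  have h2 : ((((1 : ℕ) : ℝ) + 1) / 2) = 1 := by norm_num
  rw [h1, h2, Real.Gamma_one, Real.rpow_neg_one]
  norm_num

lemma half_three : ∫⁻ g in Set.Ioi (0 : ℝ), ENNReal.ofReal (g ^ 3) ∂(gaussianReal 0 1) =
    ENNReal.ofReal (2 / √(2 * π)) := by
  rw [half_moment]
  congr 1
  have h1 : (-(((3 : ℕ) : ℝ) + 1) / 2) = -2 := by norm_num
  have h2 : ((((3 : ℕ) : ℝ) + 1) / 2) = 1 + 1 := by norm_num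
  rw [h1, h2, Real.Gamma_add_one one_ne_zero, Real.Gamma_one,
    show (-2 : ℝ) = ((-2 : ℤ) : ℝ) by norm_num, Real.rpow_intCast]
  norm_num
  ring

lemma half_two : ∫⁻ g in Set.Ioi (0 : ℝ), ENNReal.ofReal (g ^ 2) ∂(gaussianReal 0 1) =
    ENNReal.ofReal (1 / 2) := by
  rw [half_moment]
  congr 1
  have h1 : (-(((2 : ℕ) : ℝ) + 1) / 2) = -1 + -(1 / 2) := by norm_num
  have h2 : ((((2 : ℕ) : ℝ) + 1) / 2) = 1 / 2 + 1 := by norm_num
  rw [h1, h2, Real.Gamma_add_one (by norm_num), Real.Gamma_one_half_eq,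
    Real.rpow_add (by norm_num), Real.rpow_neg_one, Real.rpow_neg (by norm_num),
    ← Real.sqrt_eq_rpow, Real.sqrt_mul (by norm_num), Real.sqrt_div (by norm_num)]
  have h3 : √π ≠ 0 := by positivity
  have h4 : √2 ≠ 0 := by positivity
  norm_num
  field_simp

lemma half_four : ∫⁻ g in Set.Ioi (0 : ℝ), ENNReal.ofReal (g ^ 4) ∂(gaussianReal 0 1) =
    ENNReal.ofReal (3 / 2) := by
  rw [half_moment]
  congr 1
  have h1 : (-(((4 : ℕ) : ℝ) + 1) / 2) = -2 + -(1 / 2) := by norm_num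
  have h2 : ((((4 : ℕ) : ℝ) + 1) / 2) = 1 / 2 + 1 + 1 := by norm_num
  rw [h1, h2, Real.Gamma_add_one (by norm_num), Real.Gamma_add_one (by norm_num),
    Real.Gamma_one_half_eq, Real.rpow_add (by norm_num),
    show (-2 : ℝ) = ((-2 : ℤ) : ℝ) by norm_num, Real.rpow_intCast, Real.rpow_neg (by norm_num),
    ← Real.sqrt_eq_rpow, Real.sqrt_mul (by norm_num), Real.sqrt_div (by norm_num)]
  have h3 : √π ≠ 0 := by positivity
  have h4 : √2 ≠ 0 := by positivity
  norm_num
  field_simp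
  norm_num

lemma full_even {n : ℕ} (hn : Even n) (hn0 : n ≠ 0) :
    ∫⁻ g, ENNReal.ofReal (g ^ n) ∂(gaussianReal 0 1) =
      2 * ∫⁻ g in Set.Ioi (0 : ℝ), ENNReal.ofReal (g ^ n) ∂(gaussianReal 0 1) := by
  have hm : Measurable fun g : ℝ => ENNReal.ofReal (g ^ n) := by fun_prop
  have h1 : ∫⁻ g in Set.Iio (0 : ℝ), ENNReal.ofReal (g ^ n) ∂(gaussianReal 0 1) =
      ∫⁻ g in Set.Ioi (0 : ℝ), ENNReal.ofReal (g ^ n) ∂(gaussianReal 0 1) := by
    have hneg : (gaussianReal 0 1).map (fun g : ℝ => -g) = gaussianReal 0 1 := by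
      rw [gaussianReal_map_neg]; simp
    conv_lhs => rw [← hneg]
    rw [setLIntegral_map measurableSet_Iio hm measurable_neg]
    have h2 : (fun g : ℝ => -g) ⁻¹' Set.Iio 0 = Set.Ioi 0 := by ext g; simp
    rw [h2]
    refine lintegral_congr fun g => ?_
    rw [hn.neg_pow]
  have h0 : ∫⁻ g in {(0 : ℝ)}, ENNReal.ofReal (g ^ n) ∂(gaussianReal 0 1) = 0 := by
    rw [lintegral_singleton]
    simp [hn0]
  rw [← lintegral_add_compl _ (measurableSet_Ioi (a := (0 : ℝ))), Set.compl_Ioi, two_mul]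
  congr 1
  rw [← h1, ← Set.Iio_union_right, lintegral_union (measurableSet_singleton _) (by simp), h0,
    add_zero]

lemma full_two : ∫⁻ g, ENNReal.ofReal (g ^ 2) ∂(gaussianReal 0 1) = 1 := by
  rw [full_even (by decide) (by norm_num), half_two,
    show (2 : ℝ≥0∞) = ENNReal.ofReal 2 by simp, ← ENNReal.ofReal_mul (by norm_num)]
  norm_num

lemma full_four : ∫⁻ g, ENNReal.ofReal (g ^ 4) ∂(gaussianReal 0 1) = ENNReal.ofReal 3 := by
  rw [full_even (by decide) (by norm_num), half_four,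
    show (2 : ℝ≥0∞) = ENNReal.ofReal 2 by simp, ← ENNReal.ofReal_mul (by norm_num)]
  norm_num

/-! ### pairs of orthogonal functionals -/

lemma lintegral_pair {u r : V} (hu : ‖u‖ = 1) (hur : ⟪u, r⟫ = 0) {H : ℝ → ℝ → ℝ≥0∞}
    (hH : Measurable fun p : ℝ × ℝ => H p.1 p.2) :
    ∫⁻ x, H ⟪x, u⟫ ⟪x, r⟫ ∂(stdGaussian V) =
      ∫⁻ η, ∫⁻ g, H g (‖r‖ * η) ∂(gaussianReal 0 1) ∂(gaussianReal 0 1) := by
  have hm1 : Measurable fun x : V => H ⟪x, u⟫ ⟪x, r⟫ :=
    hH.comp (f := fun x : V => (⟪x, u⟫, ⟪x, r⟫)) (by fun_prop)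
  have hm2 : Measurable fun β : ℝ => ∫⁻ g, H g β ∂(gaussianReal 0 1) := by
    have : Measurable fun p : ℝ × ℝ => H p.2 p.1 :=
      hH.comp (f := fun p : ℝ × ℝ => (p.2, p.1)) (by fun_prop)
    exact this.lintegral_prod_right'
  rw [lintegral_dis u hu hm1]
  have h1 : ∀ (x : V) (g : ℝ), H ⟪x - ⟪x, u⟫ • u + g • u, u⟫ ⟪x - ⟪x, u⟫ • u + g • u, r⟫ =
      H g ⟪x, r⟫ := by
    intro x g
    rw [sub_add_eq, inner_add_left, inner_add_left, real_inner_smul_left, real_inner_smul_left,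
      hur, real_inner_self_eq_norm_sq, hu]
    congr 1 <;> ring
  simp_rw [h1]
  rcases eq_or_ne r 0 with hr | hr
  · subst hr
    simp
  · have hr0 : 0 < ‖r‖ := norm_pos_iff.mpr hr
    have hv : ‖‖r‖⁻¹ • r‖ = 1 := by
      rw [norm_smul, norm_inv, norm_norm, inv_mul_cancel₀ hr0.ne']
    rw [lintegral_dis (‖r‖⁻¹ • r) hv (G := fun x : V => ∫⁻ g, H g ⟪x, r⟫ ∂(gaussianReal 0 1))
      (hm2.comp (by fun_prop))]
    have h2 : ∀ (x : V) (g : ℝ), ⟪x - ⟪x, ‖r‖⁻¹ • r⟫ • (‖r‖⁻¹ • r) + g • (‖r‖⁻¹ • r), r⟫ =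
        ‖r‖ * g := by
      intro x g
      rw [sub_add_eq, inner_add_left, real_inner_smul_left, real_inner_smul_left,
        real_inner_smul_right, real_inner_self_eq_norm_sq]
      field_simp
      ring
    simp_rw [h2]
    simp

lemma lintegral_sym {Φ : ℝ → ℝ≥0∞} (hΦ : Measurable Φ) :
    ∫⁻ η, Φ (-η) ∂(gaussianReal 0 1) = ∫⁻ η, Φ η ∂(gaussianReal 0 1) := by
  have hneg : (gaussianReal 0 1).map (fun g : ℝ => -g) = gaussianReal 0 1 := by
    rw [gaussianReal_map_neg]; simp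
  conv_rhs => rw [← hneg]
  rw [lintegral_map hΦ measurable_neg]

lemma sym_bound {Φ : ℝ → ℝ≥0∞} (hΦ : Measurable Φ) {a b c : ℝ} (ha : 0 ≤ a) (hb : 0 ≤ b)
    (hc : 0 ≤ c)
    (h : ∀ η, Φ η + Φ (-η) ≤ ENNReal.ofReal (a + b * η ^ 2 + c * η ^ 4)) :
    ∫⁻ η, Φ η ∂(gaussianReal 0 1) ≤ ENNReal.ofReal ((a + b + 3 * c) / 2) := by
  have h1 : 2 * ∫⁻ η, Φ η ∂(gaussianReal 0 1) = ∫⁻ η, (Φ η + Φ (-η)) ∂(gaussianReal 0 1) := by
    rw [lintegral_add_left hΦ, lintegral_sym hΦ, two_mul]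
  have h2 : ∫⁻ η, (Φ η + Φ (-η)) ∂(gaussianReal 0 1) ≤ ENNReal.ofReal (a + b + 3 * c) := by
    refine (lintegral_mono h).trans (le_of_eq ?_)
    have h3 : ∀ η : ℝ, ENNReal.ofReal (a + b * η ^ 2 + c * η ^ 4) =
        ENNReal.ofReal a + ENNReal.ofReal b * ENNReal.ofReal (η ^ 2) +
          ENNReal.ofReal c * ENNReal.ofReal (η ^ 4) := by
      intro η
      rw [ENNReal.ofReal_add (by positivity) (by positivity),
        ENNReal.ofReal_add ha (by positivity), ENNReal.ofReal_mul hb, ENNReal.ofReal_mul hc]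
    simp_rw [h3]
    rw [lintegral_add_right _ (by fun_prop), lintegral_add_right _ (by fun_prop),
      lintegral_const_mul _ (by fun_prop), lintegral_const_mul _ (by fun_prop), full_two,
      full_four, lintegral_const, measure_univ, mul_one, mul_one,
      ← ENNReal.ofReal_mul hc, ← ENNReal.ofReal_add ha hb,
      ← ENNReal.ofReal_add (by positivity) (by positivity), mul_comm c 3]
  rw [← h1] at h2
  have h4 : ENNReal.ofReal (a + b + 3 * c) = 2 * ENNReal.ofReal ((a + b + 3 * c) / 2) := by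
    rw [show (2 : ℝ≥0∞) = ENNReal.ofReal 2 by simp, ← ENNReal.ofReal_mul (by norm_num)]
    congr 1
    ring
  rw [h4] at h2
  exact (ENNReal.mul_le_mul_iff_right (by norm_num) (by norm_num)).mp h2

lemma lint_gauss_pow {m c : ℝ} (hc : 0 < c) {n : ℕ} (hn : n ≠ 0) :
    ∫⁻ g in Set.Ioi (0 : ℝ), ENNReal.ofReal ((max (m - c * g) 0) ^ n) ∂(gaussianReal 0 1) ≤
      ENNReal.ofReal (1 / √(2 * π) * ((max m 0) ^ (n + 1) / ((n + 1) * c))) := by
  have hm : Measurable fun g : ℝ => ENNReal.ofReal ((max (m - c * g) 0) ^ n) := by fun_prop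
  rw [← lintegral_indicator measurableSet_Ioi]
  refine (lintegral_gaussianReal_le (hm.indicator measurableSet_Ioi)).trans (le_of_eq ?_)
  rw [lintegral_indicator measurableSet_Ioi, lint_pow hc hn, ← ENNReal.ofReal_mul (by positivity)]

lemma cube_sym {a β : ℝ} (ha : 0 ≤ a) :
    (max (a + β) 0) ^ 3 + (max (a - β) 0) ^ 3 =
      2 * a ^ 3 + 6 * a * β ^ 2 + (max (|β| - a) 0) ^ 3 := by
  rcases le_total 0 β with hβ | hβ
  · rw [abs_of_nonneg hβ, max_eq_left (by linarith : (0 : ℝ) ≤ a + β)]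
    rcases le_total a β with h | h
    · rw [max_eq_right (by linarith : a - β ≤ 0), max_eq_left (by linarith : (0 : ℝ) ≤ β - a)]
      ring
    · rw [max_eq_left (by linarith : 0 ≤ a - β), max_eq_right (by linarith : β - a ≤ (0 : ℝ))]
      ring
  · rw [abs_of_nonpos hβ, max_eq_left (by linarith : (0 : ℝ) ≤ a - β)]
    rcases le_total a (-β) with h | h
    · rw [max_eq_right (by linarith : a + β ≤ 0), max_eq_left (by linarith : (0 : ℝ) ≤ -β - a)]
      ring
    · rw [max_eq_left (by linarith : 0 ≤ a + β), max_eq_right (by linarith : -β - a ≤ (0 : ℝ))]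
      ring

lemma mom3 {A ρ : ℝ} (hA : 0 < A) (_hρ : 0 ≤ ρ) :
    ∫⁻ η, ∫⁻ g, (Set.Ioi (0 : ℝ)).indicator
      (fun g => ENNReal.ofReal ((max (A * g + ρ * η) 0) ^ 3)) g
        ∂(gaussianReal 0 1) ∂(gaussianReal 0 1) ≤
      ENNReal.ofReal ((2 * A ^ 3 + 3 * A * ρ ^ 2 + 3 / 8 * ρ ^ 4 / A) / √(2 * π)) := by
  have hs : 0 < √(2 * π) := by positivity
  simp_rw [lintegral_indicator measurableSet_Ioi]
  have hm : Measurable fun η : ℝ => ∫⁻ g in Set.Ioi (0 : ℝ),
      ENNReal.ofReal ((max (A * g + ρ * η) 0) ^ 3) ∂(gaussianReal 0 1) := by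
    have : Measurable fun p : ℝ × ℝ => ENNReal.ofReal ((max (A * p.2 + ρ * p.1) 0) ^ 3) := by
      fun_prop
    exact this.lintegral_prod_right'
  have key := sym_bound hm (a := 4 * A ^ 3 / √(2 * π)) (b := 6 * A * ρ ^ 2 / √(2 * π))
    (c := ρ ^ 4 / (4 * A) / √(2 * π)) (by positivity) (by positivity) (by positivity) ?_
  · refine key.trans (le_of_eq ?_)
    congr 1
    field_simp
    ring
  · intro η
    rw [← lintegral_add_left (by fun_prop)]
    have h1 : ∀ g ∈ Set.Ioi (0 : ℝ), ENNReal.ofReal ((max (A * g + ρ * η) 0) ^ 3) +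
        ENNReal.ofReal ((max (A * g + ρ * -η) 0) ^ 3) =
        ENNReal.ofReal (2 * A ^ 3) * ENNReal.ofReal (g ^ 3) +
          ENNReal.ofReal (6 * A * ρ ^ 2 * η ^ 2) * ENNReal.ofReal (g ^ 1) +
          ENNReal.ofReal ((max (|ρ * η| - A * g) 0) ^ 3) := by
      intro g hg
      have hg' : 0 < g := hg
      rw [← ENNReal.ofReal_mul (by positivity), ← ENNReal.ofReal_mul (by positivity),
        ← ENNReal.ofReal_add (by positivity) (by positivity),
        ← ENNReal.ofReal_add (by positivity) (by positivity),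
        ← ENNReal.ofReal_add (by positivity) (by positivity)]
      congr 1
      have := cube_sym (a := A * g) (β := ρ * η) (by positivity)
      rw [show A * g + ρ * -η = A * g - ρ * η by ring, this]
      ring
    rw [setLIntegral_congr_fun measurableSet_Ioi h1, lintegral_add_left (by fun_prop),
      lintegral_add_left (by fun_prop), lintegral_const_mul _ (by fun_prop),
      lintegral_const_mul _ (by fun_prop), half_three, half_one]
    refine (add_le_add_right (lint_gauss_pow hA (by norm_num)) _).trans (le_of_eq ?_)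
    rw [← ENNReal.ofReal_mul (by positivity), ← ENNReal.ofReal_mul (by positivity),
      ← ENNReal.ofReal_add (by positivity) (by positivity),
      ← ENNReal.ofReal_add (by positivity) (by positivity), max_eq_left (abs_nonneg _)]
    congr 1
    have h4 : |ρ * η| ^ (3 + 1) = ρ ^ 4 * η ^ 4 := by
      rw [show 3 + 1 = 4 from rfl, Even.pow_abs (by decide), mul_pow]
    rw [h4]
    push_cast
    field_simp
    ring

lemma mom2 {A ρ : ℝ} (_hA : 0 < A) (_hρ : 0 ≤ ρ) :
    ∫⁻ η, ∫⁻ g, (Set.Ioi (0 : ℝ)).indicator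
      (fun g => ENNReal.ofReal (g * (A * g + ρ * η) ^ 2)) g
        ∂(gaussianReal 0 1) ∂(gaussianReal 0 1) ≤
      ENNReal.ofReal ((2 * A ^ 2 + ρ ^ 2) / √(2 * π)) := by
  have hs : 0 < √(2 * π) := by positivity
  simp_rw [lintegral_indicator measurableSet_Ioi]
  have hm : Measurable fun η : ℝ => ∫⁻ g in Set.Ioi (0 : ℝ),
      ENNReal.ofReal (g * (A * g + ρ * η) ^ 2) ∂(gaussianReal 0 1) := by
    have : Measurable fun p : ℝ × ℝ => ENNReal.ofReal (p.2 * (A * p.2 + ρ * p.1) ^ 2) := by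
      fun_prop
    exact this.lintegral_prod_right'
  have key := sym_bound hm (a := 4 * A ^ 2 / √(2 * π)) (b := 2 * ρ ^ 2 / √(2 * π))
    (c := 0) (by positivity) (by positivity) le_rfl ?_
  · refine key.trans (le_of_eq ?_)
    congr 1
    field_simp
    ring
  · intro η
    rw [← lintegral_add_left (by fun_prop)]
    have h1 : ∀ g ∈ Set.Ioi (0 : ℝ), ENNReal.ofReal (g * (A * g + ρ * η) ^ 2) +
        ENNReal.ofReal (g * (A * g + ρ * -η) ^ 2) =
        ENNReal.ofReal (2 * A ^ 2) * ENNReal.ofReal (g ^ 3) +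
          ENNReal.ofReal (2 * ρ ^ 2 * η ^ 2) * ENNReal.ofReal (g ^ 1) := by
      intro g hg
      have hg' : 0 < g := hg
      rw [← ENNReal.ofReal_mul (by positivity), ← ENNReal.ofReal_mul (by positivity),
        ← ENNReal.ofReal_add (by positivity) (by positivity),
        ← ENNReal.ofReal_add (by positivity) (by positivity)]
      congr 1
      ring
    rw [setLIntegral_congr_fun measurableSet_Ioi h1, lintegral_add_left (by fun_prop),
      lintegral_const_mul _ (by fun_prop),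
      lintegral_const_mul _ (by fun_prop), half_three, half_one]
    refine le_of_eq ?_
    rw [← ENNReal.ofReal_mul (by positivity), ← ENNReal.ofReal_mul (by positivity),
      ← ENNReal.ofReal_add (by positivity) (by positivity)]
    congr 1
    field_simp
    ring

end P226
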