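import Vale.Agent.P226.LinesSpec
import Vale.Agent.P226.PlanarMom

/-!
# P226, Step 7 : the lines coming from the half space bound (classes 9 and 10)
-/

open MeasureTheory ProbabilityTheory Real

namespace P226

/-! ### numerical bounds for the Gaussian tail -/

lemma gaussian_Ici_zero : (gaussianReal 0 1).real (Set.Ici 0) = 1 / 2 := by
  have h := half_moment 0
  have h1 : (√(2 * π))⁻¹ * ((1 / 2 : ℝ) ^ (-(((0 : ℕ) : ℝ) + 1) / 2) * (1 / 2) *
      Real.Gamma ((((0 : ℕ) : ℝ) + 1) / 2)) = 1 / 2 := by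
    have h2 : (-(((0 : ℕ) : ℝ) + 1) / 2) = -(1 / 2) := by norm_num
    have h3 : ((((0 : ℕ) : ℝ) + 1) / 2) = 1 / 2 := by norm_num
    rw [h2, h3, Real.Gamma_one_half_eq, Real.rpow_neg (by norm_num), ← Real.sqrt_eq_rpow,
      Real.sqrt_mul (by norm_num), Real.sqrt_div (by norm_num)]
    have h4 : √π ≠ 0 := by positivity
    have h5 : √2 ≠ 0 := by positivity
    norm_num
    field_simp
  rw [h1] at h
  simp only [pow_zero, ENNReal.ofReal_one, lintegral_const, one_mul, Measure.restrict_apply,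
    MeasurableSet.univ, Set.univ_inter] at h
  have hna := nullSingletonClass_gaussianReal (μ := 0) (v := 1) one_ne_zero
  have he : (gaussianReal 0 1) (Set.Ici 0) = (gaussianReal 0 1) (Set.Ioi 0) :=
    (measure_congr Ioi_ae_eq_Ici).symm
  rw [measureReal_def, he, h]
  norm_num

lemma gpdf_eq (t : ℝ) : gaussianPDFReal 0 1 t = gpdf t := by
  unfold gaussianPDFReal gpdf
  simp only [NNReal.coe_one, mul_one, sub_zero]
  rw [div_eq_inv_mul (exp _)]

/-- Taylor upper bound for `exp (-x)` on `[0, 1]`. -/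
noncomputable def tay (x : ℝ) : ℝ :=
  1 - x + x ^ 2 / 2 - x ^ 3 / 6 + x ^ 4 / 24 - x ^ 5 / 120 + 7 * x ^ 6 / 4320

lemma exp_le_tay {x : ℝ} (h0 : 0 ≤ x) (h1 : x ≤ 1) : exp (-x) ≤ tay x := by
  have h := Real.exp_bound (x := -x) (by rw [abs_neg, abs_of_nonneg h0]; exact h1)
    (n := 6) (by norm_num)
  have h2 := (abs_le.mp h).2
  rw [abs_neg, abs_of_nonneg h0] at h2
  simp only [Finset.sum_range_succ, Finset.sum_range_zero] at h2
  norm_num [Nat.factorial] at h2
  unfold tay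
  linarith

/-- `∫_0^t tay (s²/2) ds`. -/
noncomputable def tayI (t : ℝ) : ℝ :=
  t - t ^ 3 / 6 + t ^ 5 / 40 - t ^ 7 / 336 + t ^ 9 / 3456 - t ^ 11 / 42240 +
    7 * t ^ 13 / 3594240

lemma gpdf_le {t : ℝ} (ht1 : t ^ 2 / 2 ≤ 1) : gpdf t ≤ tay (t ^ 2 / 2) / √(2 * π) := by
  unfold gpdf
  rw [neg_div]
  have := exp_le_tay (by positivity) ht1
  gcongr

lemma gtail_ge {t : ℝ} (ht0 : 0 ≤ t) (ht1 : t ≤ 1) : 1 / 2 - tayI t / √(2 * π) ≤ gtail t := by
  have h1 : gtail t = 1 / 2 - (gaussianReal 0 1).real (Set.Ico 0 t) := by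
    unfold gtail
    have hd : Disjoint (Set.Ico 0 t) (Set.Ici t) := by
      rw [Set.disjoint_left]
      intro x hx hx'
      exact absurd hx.2 (not_lt.mpr hx')
    rw [← gaussian_Ici_zero, ← Set.Ico_union_Ici_eq_Ici ht0,
      measureReal_union hd measurableSet_Ici]
    ring
  have h2 : (gaussianReal 0 1).real (Set.Ico 0 t) = ∫ s in (0 : ℝ)..t, gpdf s := by
    rw [measureReal_def, gaussianReal_apply_eq_integral _ one_ne_zero, ENNReal.toReal_ofReal]
    · rw [intervalIntegral.integral_of_le ht0]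
      simp_rw [gpdf_eq]
      exact setIntegral_congr_set Ico_ae_eq_Ioc
    · exact integral_nonneg fun s => gaussianPDFReal_nonneg _ _ _
  have h3 : ∫ s in (0 : ℝ)..t, gpdf s ≤ ∫ s in (0 : ℝ)..t, tay (s ^ 2 / 2) / √(2 * π) := by
    refine intervalIntegral.integral_mono_on ht0 ?_ ?_ fun s hs => ?_
    · refine Continuous.intervalIntegrable ?_ _ _
      unfold gpdf
      fun_prop
    · refine Continuous.intervalIntegrable ?_ _ _
      unfold tay
      fun_prop
    · refine gpdf_le ?_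
      have := hs.1
      have := hs.2
      nlinarith
  have h4 : ∫ s in (0 : ℝ)..t, tay (s ^ 2 / 2) / √(2 * π) = tayI t / √(2 * π) := by
    rw [intervalIntegral.integral_div]
    congr 1
    have hder : ∀ s ∈ Set.uIcc 0 t, HasDerivAt tayI (tay (s ^ 2 / 2)) s := by
      intro s _
      have h5 : HasDerivAt (fun t : ℝ => t - t ^ 3 / 6 + t ^ 5 / 40 - t ^ 7 / 336 +
          t ^ 9 / 3456 - t ^ 11 / 42240 + 7 * t ^ 13 / 3594240)
          (1 - (3 : ℕ) * s ^ (3 - 1) / 6 + (5 : ℕ) * s ^ (5 - 1) / 40 -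
            (7 : ℕ) * s ^ (7 - 1) / 336 + (9 : ℕ) * s ^ (9 - 1) / 3456 -
            (11 : ℕ) * s ^ (11 - 1) / 42240 + 7 * ((13 : ℕ) * s ^ (13 - 1)) / 3594240) s := by
        exact ((((((hasDerivAt_id s).sub ((hasDerivAt_pow 3 s).div_const 6)).add
          ((hasDerivAt_pow 5 s).div_const 40)).sub ((hasDerivAt_pow 7 s).div_const 336)).add
          ((hasDerivAt_pow 9 s).div_const 3456)).sub
          ((hasDerivAt_pow 11 s).div_const 42240)).add
          (((hasDerivAt_pow 13 s).const_mul 7).div_const 3594240)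
      refine h5.congr_deriv ?_
      unfold tay
      norm_num
      ring
    rw [intervalIntegral.integral_eq_sub_of_hasDerivAt hder]
    · unfold tayI
      norm_num
    · refine Continuous.intervalIntegrable ?_ _ _
      unfold tay
      fun_prop
  rw [h1, h2]
  rw [h4] at h3
  linarith

lemma inv_sqrt_two_pi_le : 1 / √(2 * π) ≤ 0.3989424 := by
  have h1 : (1 / 0.3989424 : ℝ) ≤ √(2 * π) := by
    apply Real.le_sqrt_of_sq_le
    have := Real.pi_gt_d6
    norm_num at this ⊢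
    linarith
  rw [div_le_iff₀ (by positivity)]
  rw [div_le_iff₀ (by norm_num)] at h1
  linarith

lemma line_num {t A : ℝ} (ht0 : 0 < t) (ht1 : t ≤ 1)
    (hn : 0.3989424 * (tayI t + tay (t ^ 2 / 2) / t) ≤ 1 / 2 - A / 100000000)
    (hp : 0 ≤ tayI t + tay (t ^ 2 / 2) / t) :
    A / 100000000 ≤ gtail t - gpdf t / t := by
  have h1 := gtail_ge ht0.le ht1
  have h2 : gpdf t ≤ tay (t ^ 2 / 2) / √(2 * π) := gpdf_le (by nlinarith)
  have h3 : gpdf t / t ≤ tay (t ^ 2 / 2) / √(2 * π) / t := by gcongr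
  have h4 : tayI t / √(2 * π) + tay (t ^ 2 / 2) / √(2 * π) / t =
      1 / √(2 * π) * (tayI t + tay (t ^ 2 / 2) / t) := by
    field_simp
  have h5 := mul_le_mul_of_nonneg_right inv_sqrt_two_pi_le hp
  linarith

lemma line_of {σ p t A B : ℝ} (hσ : 0 ≤ σ) (ht0 : 0 < t)
    (h : σ ≤ gpdf t + t * (p - gtail t)) (hB : B * t ≤ 10000)
    (hA : A / 100000000 ≤ gtail t - gpdf t / t) :
    A + B * (10000 * σ) ≤ 100000000 * p := by
  have h1 : σ / t ≤ gpdf t / t + (p - gtail t) := by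
    rw [div_le_iff₀ ht0, add_mul, div_mul_cancel₀ _ ht0.ne']
    linarith
  have h2 : B * σ ≤ 10000 * (σ / t) := by
    rw [← mul_div_assoc, le_div_iff₀ ht0]
    nlinarith
  linarith

lemma lineI_lc {σ p : ℝ} (hσ : 0 ≤ σ) (hlc : σ < √2 * p) :
    0 + 7071 * (10000 * σ) ≤ 100000000 * p := by
  have h1 : √2 ≤ 100000 / 70710 := by
    apply Real.sqrt_le_iff.mpr
    norm_num
  have h2 : (0 : ℝ) < √2 := by positivity
  have h3 : 0 ≤ p := by
    by_contra hcon
    push Not at hcon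
    nlinarith
  nlinarith

lemma num3 : (-88922415 : ℝ) / 100000000 ≤ gtail (3 / 10) - gpdf (3 / 10) / (3 / 10) := by
  refine line_num (by norm_num) (by norm_num) ?_ ?_ <;> (unfold tayI tay; norm_num)

lemma num5 : (-39561312 : ℝ) / 100000000 ≤ gtail (5 / 10) - gpdf (5 / 10) / (5 / 10) := by
  refine line_num (by norm_num) (by norm_num) ?_ ?_ <;> (unfold tayI tay; norm_num)

lemma num6 : (-28114123 : ℝ) / 100000000 ≤ gtail (6 / 10) - gpdf (6 / 10) / (6 / 10) := by
  refine line_num (by norm_num) (by norm_num) ?_ ?_ <;> (unfold tayI tay; norm_num)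

lemma num7 : (-20413340 : ℝ) / 100000000 ≤ gtail (7 / 10) - gpdf (7 / 10) / (7 / 10) := by
  refine line_num (by norm_num) (by norm_num) ?_ ?_ <;> (unfold tayI tay; norm_num)

lemma num8 : (-15027905 : ℝ) / 100000000 ≤ gtail (8 / 10) - gpdf (8 / 10) / (8 / 10) := by
  refine line_num (by norm_num) (by norm_num) ?_ ?_ <;> (unfold tayI tay; norm_num)

theorem lines9 {σ p : ℝ} (hσ : 0 ≤ σ) (hlc : σ < √2 * p)
    (h : ∀ t : ℝ, σ ≤ gpdf t + t * (p - gtail t)) :
    ∀ l ∈ Chk.p9.ls, (l.1 : ℝ) + l.2 * (10000 * σ) ≤ 100000000 * p := by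
  intro l hl
  simp only [Chk.p9, List.mem_cons, List.not_mem_nil, or_false] at hl
  rcases hl with rfl | rfl | rfl | rfl | rfl | rfl
  · have h0 := lineI_lc hσ hlc
    push_cast
    exact h0
  · exact_mod_cast line_of hσ (by norm_num) (h (3 / 10)) (by norm_num) num3
  · exact_mod_cast line_of hσ (by norm_num) (h (5 / 10)) (by norm_num) num5
  · exact_mod_cast line_of hσ (by norm_num) (h (6 / 10)) (by norm_num) num6
  · exact_mod_cast line_of hσ (by norm_num) (h (7 / 10)) (by norm_num) num7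
  · exact_mod_cast line_of hσ (by norm_num) (h (8 / 10)) (by norm_num) num8

theorem lines10 {σ p : ℝ} (hσ : 0 ≤ σ) (hlc : σ < √2 * p)
    (h : ∀ t : ℝ, σ ≤ gpdf t + t * (p - gtail t)) :
    ∀ l ∈ Chk.p10.ls, (l.1 : ℝ) + l.2 * (10000 * σ) ≤ 100000000 * p :=
  lines9 hσ hlc h

end P226
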