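import Vale.Agent.P226.Chk

/-! # P226, Step 7 : certificate for class 4 -/

set_option maxRecDepth 100000

namespace P226.Chk

/-- parameters for class 4. -/
def p4 : Par := ⟨2094, [(0, 7071), (-202500000, 62665), (-80000001, 31332), (-40833334, 20888), (-22500000, 15666), (-12500000, 12533), (-6666667, 10444), (-3214286, 8952)], 3, 4⟩

/-- initial box for class 4. -/
def b4 : Bx := ⟨[(0, 3990), (0, 3990), (0, 3990), (0, 2000)], 0, 0⟩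

/-- certificate tree for class 4. -/
def t4 : T :=
  .n 0 3253 (.f 1) (.n 1 2762 (.f 1) (.n 2 1350 (.f 1) (.n 2 2670 (.n 0 3507 (.f 1) (.n 3 1000
  (.n 1 3422 (.f 1) (.n 0 3718 (.f 1) (.n 3 414 (.f 3) (.n 1 3793 (.n 2 2121 (.f 1) (.n 3 918
  (.f 3) (.f 0))) (.f 0))))) (.n 1 3649 (.n 2 1796 (.f 1) (.n 0 3811 (.n 1 3184 (.f 1) (.n 3
  1500 (.n 2 2386 (.f 1) (.n 1 3448 (.f 1) (.n 0 3586 (.f 1) (.f 0)))) (.n 0 3623 (.n 2 2346 (.f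
  1) (.n 1 3238 (.f 1) (.f 0))) (.f 0)))) (.f 0))) (.f 0)))) (.n 2 3552 (.n 3 584 (.f 3) (.n 3
  1292 (.n 3 877 (.f 3) (.n 1 3649 (.n 1 3013 (.f 1) (.n 3 985 (.f 3) (.n 2 3111 (.n 0 3490 (.f
  1) (.n 0 3773 (.n 1 3197 (.f 1) (.n 3 1064 (.f 3) (.n 0 3676 (.n 1 3423 (.n 2 2984 (.f 1) (.n
  1 3307 (.f 1) (.n 3 1189 (.f 3) (.n 0 3553 (.f 1) (.f 0))))) (.n 1 3548 (.n 0 3602 (.n 2 2926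
  (.f 1) (.n 3 1226 (.f 3) (.n 1 3431 (.n 0 3500 (.f 1) (.f 0)) (.f 0)))) (.f 0)) (.f 0))) (.f
  0)))) (.f 0))) (.n 3 1121 (.f 3) (.n 2 3361 (.n 0 3700 (.n 1 3466 (.n 0 3378 (.f 1) (.n 1 3288
  (.n 0 3536 (.f 1) (.n 1 3197 (.f 1) (.n 0 3644 (.n 1 3229 (.f 1) (.n 3 1181 (.f 3) (.n 0 3607
  (.n 2 3211 (.f 1) (.n 1 3250 (.f 1) (.n 0 3575 (.n 1 3268 (.f 1) (.n 2 3247 (.f 1) (.n 0 3556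
  (.n 3 1242 (.f 1) (.f 0)) (.f 0)))) (.f 0)))) (.f 0)))) (.f 0)))) (.n 3 1209 (.f 3) (.n 0 3595
  (.n 2 3236 (.n 0 3440 (.f 1) (.n 1 3377 (.n 0 3501 (.f 1) (.n 0 3567 (.n 2 3164 (.f 1) (.n 1
  3332 (.n 2 3211 (.f 1) (.n 0 3544 (.f 1) (.n 3 1234 (.n 1 3330 (.f 1) (.f 0)) (.f 0)))) (.n 3
  1241 (.f 3) (.n 0 3543 (.n 2 3191 (.f 1) (.n 3 1266 (.n 1 3344 (.f 1) (.n 3 1252 (.f 3) (.n 0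
  3530 (.n 2 3215 (.f 1) (.n 1 3362 (.n 0 3525 (.f 1) (.f 0)) (.f 3))) (.f 0)))) (.n 0 3529 (.n
  1 3348 (.f 1) (.n 2 3206 (.f 1) (.n 0 3519 (.n 1 3359 (.f 1) (.n 2 3217 (.f 1) (.n 3 1275 (.n
  2 3225 (.n 1 3376 (.f 1) (.f 0)) (.f 0)) (.f 0)))) (.f 0)))) (.f 0)))) (.f 0))))) (.f 0))) (.n
  3 1251 (.f 3) (.n 0 3528 (.n 2 3173 (.n 0 3472 (.f 1) (.n 1 3409 (.f 1) (.n 1 3440 (.n 2 3140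
  (.f 1) (.n 3 1272 (.f 3) (.n 0 3475 (.f 1) (.f 0)))) (.f 0)))) (.n 1 3434 (.n 3 1264 (.f 3)
  (.n 2 3204 (.n 0 3476 (.f 1) (.n 1 3405 (.n 0 3504 (.f 1) (.n 0 3519 (.n 2 3187 (.f 1) (.n 1
  3389 (.f 1) (.n 3 1273 (.f 3) (.n 2 3197 (.n 3 1282 (.n 1 3400 (.f 1) (.f 0)) (.f 0)) (.f
  0))))) (.f 0))) (.n 3 1278 (.f 3) (.n 0 3494 (.n 1 3419 (.n 2 3200 (.f 1) (.f 0)) (.f 0)) (.f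
  0))))) (.n 3 1271 (.f 3) (.n 1 3405 (.n 0 3474 (.f 1) (.n 2 3221 (.n 0 3509 (.n 0 3488 (.f 1)
  (.n 1 3392 (.n 0 3501 (.f 1) (.n 2 3208 (.f 1) (.f 0))) (.f 0))) (.f 0)) (.f 0))) (.n 0 3470
  (.n 3 1284 (.f 3) (.n 2 3210 (.f 1) (.f 0))) (.f 0)))))) (.f 3))) (.f 0))))) (.n 1 3406 (.n 3
  1233 (.f 3) (.n 0 3536 (.n 2 3298 (.n 1 3347 (.n 0 3472 (.f 1) (.n 2 3267 (.n 0 3502 (.f 1)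
  (.n 1 3311 (.f 1) (.n 3 1262 (.n 3 1245 (.f 3) (.n 0 3513 (.f 1) (.n 0 3525 (.n 1 3334 (.f 1)
  (.n 3 1256 (.f 3) (.n 0 3515 (.n 2 3264 (.f 1) (.f 0)) (.f 0)))) (.f 0)))) (.n 0 3520 (.n 1
  3328 (.f 1) (.n 2 3252 (.n 0 3516 (.f 1) (.f 0)) (.f 0))) (.f 0))))) (.n 1 3317 (.n 0 3501 (.f
  1) (.n 0 3525 (.n 3 1262 (.n 2 3284 (.f 1) (.n 1 3303 (.f 1) (.n 3 1250 (.f 3) (.n 2 3286 (.n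
  0 3523 (.f 1) (.f 0)) (.f 0))))) (.n 0 3517 (.n 2 3281 (.f 1) (.n 1 3296 (.f 1) (.f 0))) (.f
  0))) (.f 0))) (.n 3 1254 (.f 3) (.n 0 3505 (.n 3 1274 (.n 2 3285 (.n 0 3491 (.f 1) (.n 1 3325
  (.f 1) (.f 0))) (.f 0)) (.f 0)) (.f 0)))))) (.n 3 1263 (.f 3) (.n 0 3457 (.n 0 3415 (.f 1) (.n
  2 3254 (.f 1) (.n 1 3388 (.n 2 3272 (.f 1) (.n 1 3365 (.n 0 3455 (.f 1) (.f 0)) (.f 0))) (.f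
  0)))) (.n 2 3260 (.n 1 3378 (.n 0 3501 (.n 0 3478 (.f 1) (.n 3 1277 (.n 1 3362 (.n 2 3258 (.f
  1) (.f 0)) (.f 0)) (.f 0))) (.f 0)) (.f 0)) (.f 0))))) (.n 3 1250 (.f 3) (.n 2 3338 (.n 0 3488
  (.n 1 3352 (.n 0 3429 (.f 1) (.n 2 3318 (.n 0 3448 (.f 1) (.n 1 3323 (.n 0 3476 (.f 1) (.n 3
  1257 (.f 1) (.f 0))) (.f 0))) (.f 0))) (.n 0 3411 (.n 3 1277 (.f 3) (.f 0)) (.f 0))) (.f 0))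
  (.f 0)))) (.f 0))) (.f 3))) (.f 0))))) (.f 3)) (.f 0)) (.f 3)))))) (.f 0))) (.n 1 3554 (.n 0
  3762 (.n 1 2969 (.f 1) (.n 2 3111 (.n 3 1646 (.n 0 3420 (.f 1) (.n 1 3261 (.n 2 2882 (.f 1)
  (.n 0 3572 (.f 1) (.f 0))) (.n 0 3567 (.n 2 2890 (.n 1 3467 (.f 1) (.n 3 1324 (.f 1) (.f 0)))
  (.n 1 3405 (.n 3 1492 (.n 2 3042 (.f 1) (.n 0 3507 (.f 1) (.n 1 3342 (.f 1) (.f 0)))) (.f 0))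
  (.f 0))) (.f 0)))) (.n 1 3261 (.n 0 3573 (.n 2 2899 (.f 1) (.n 0 3390 (.f 1) (.n 3 1825 (.n 1
  3166 (.f 1) (.n 0 3488 (.f 1) (.n 1 3202 (.n 2 3074 (.f 1) (.n 0 3513 (.f 1) (.f 0))) (.f
  0)))) (.f 0)))) (.f 0)) (.n 1 3409 (.n 0 3534 (.n 2 2890 (.n 0 3440 (.f 1) (.n 3 1759 (.f 1)
  (.f 0))) (.n 3 1830 (.n 1 3321 (.n 0 3427 (.f 1) (.f 0)) (.f 0)) (.f 0))) (.f 0)) (.f 0))))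
  (.n 2 3337 (.n 3 1646 (.n 1 3332 (.n 0 3625 (.n 3 1469 (.n 1 3202 (.f 1) (.n 0 3383 (.f 1) (.n
  2 3221 (.n 0 3488 (.f 1) (.n 0 3569 (.n 1 3246 (.f 1) (.n 3 1380 (.n 2 3172 (.f 1) (.n 0 3525
  (.f 1) (.n 1 3285 (.f 1) (.n 0 3540 (.n 1 3316 (.f 1) (.n 3 1311 (.f 1) (.f 0))) (.f 0)))))
  (.n 0 3531 (.n 2 3175 (.f 1) (.n 1 3287 (.f 1) (.n 3 1434 (.n 1 3303 (.f 1) (.n 2 3195 (.n 0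
  3527 (.f 1) (.f 0)) (.f 0))) (.f 0)))) (.f 0)))) (.f 0))) (.n 0 3547 (.n 3 1380 (.n 1 3265 (.f
  1) (.n 2 3276 (.n 0 3474 (.f 1) (.n 3 1336 (.n 1 3298 (.n 0 3523 (.f 1) (.n 0 3531 (.n 2 3268
  (.f 1) (.f 0)) (.f 0))) (.n 0 3521 (.n 2 3244 (.f 1) (.n 0 3491 (.f 1) (.n 3 1310 (.n 2 3259
  (.n 0 3517 (.f 1) (.f 0)) (.f 0)) (.f 0)))) (.f 0))) (.n 0 3520 (.n 1 3313 (.n 2 3246 (.f 1)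
  (.n 1 3285 (.n 0 3518 (.f 1) (.f 0)) (.f 0))) (.f 0)) (.f 0)))) (.n 2 3315 (.n 0 3437 (.f 1)
  (.n 2 3295 (.n 3 1336 (.n 0 3498 (.n 0 3473 (.f 1) (.n 1 3290 (.f 1) (.f 0))) (.f 0)) (.f 0))
  (.f 0))) (.f 0)))) (.n 2 3280 (.n 0 3433 (.f 1) (.n 2 3262 (.n 1 3276 (.n 0 3504 (.f 1) (.n 0
  3525 (.n 1 3257 (.f 1) (.n 3 1392 (.f 1) (.f 0))) (.f 0))) (.n 0 3482 (.n 3 1429 (.n 1 3317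
  (.f 1) (.f 0)) (.f 0)) (.f 0))) (.f 0))) (.f 0))) (.f 0))))) (.n 1 3221 (.n 0 3510 (.f 1) (.n
  0 3539 (.n 1 3207 (.f 1) (.n 2 3193 (.f 1) (.n 3 1591 (.f 1) (.f 0)))) (.f 0))) (.n 2 3221 (.n
  0 3409 (.f 1) (.n 0 3524 (.n 3 1557 (.n 0 3450 (.f 1) (.n 1 3292 (.n 2 3182 (.f 1) (.n 0 3489
  (.f 1) (.n 1 3254 (.f 1) (.n 2 3193 (.n 3 1473 (.f 1) (.f 0)) (.f 0))))) (.f 0))) (.n 1 3286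
  (.n 0 3453 (.f 1) (.n 1 3257 (.n 2 3173 (.f 1) (.n 0 3481 (.f 1) (.n 2 3199 (.n 1 3232 (.f 1)
  (.f 0)) (.f 0)))) (.f 0))) (.f 0))) (.f 0))) (.n 0 3496 (.n 2 3294 (.n 0 3338 (.f 1) (.n 2
  3273 (.n 3 1557 (.n 0 3401 (.f 1) (.n 1 3278 (.n 0 3453 (.f 1) (.n 2 3233 (.n 1 3272 (.f 1)
  (.f 0)) (.f 0))) (.f 0))) (.n 0 3440 (.n 1 3260 (.f 1) (.n 0 3381 (.n 1 3310 (.f 1) (.f 0))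
  (.f 0))) (.f 0))) (.f 0))) (.f 0)) (.f 0))))) (.f 0)) (.n 0 3550 (.n 1 3491 (.n 3 1469 (.n 2
  3224 (.n 0 3408 (.f 1) (.n 1 3444 (.n 3 1380 (.n 2 3167 (.n 0 3466 (.f 1) (.n 1 3389 (.n 0
  3519 (.f 1) (.f 0)) (.f 0))) (.n 1 3388 (.n 0 3468 (.f 1) (.n 0 3526 (.n 3 1336 (.n 0 3486 (.f
  1) (.n 1 3346 (.f 1) (.n 2 3195 (.n 1 3374 (.f 1) (.n 3 1306 (.n 0 3523 (.f 1) (.f 0)) (.f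
  0))) (.n 0 3516 (.n 3 1314 (.n 1 3365 (.f 1) (.n 2 3207 (.n 0 3509 (.f 1) (.n 1 3367 (.f 1)
  (.f 0))) (.f 0))) (.n 1 3360 (.n 0 3513 (.f 1) (.f 0)) (.f 0))) (.f 0))))) (.n 2 3209 (.n 1
  3365 (.n 0 3504 (.f 1) (.n 3 1347 (.n 2 3199 (.f 1) (.f 0)) (.f 0))) (.f 0)) (.f 0))) (.f 0)))
  (.n 0 3513 (.n 3 1336 (.n 0 3437 (.f 1) (.n 2 3195 (.n 0 3488 (.n 1 3413 (.f 1) (.n 3 1307 (.n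
  0 3456 (.f 1) (.f 0)) (.f 0))) (.f 0)) (.n 0 3478 (.n 1 3423 (.n 0 3451 (.f 1) (.n 3 1312 (.n
  2 3209 (.n 1 3419 (.f 1) (.f 0)) (.f 0)) (.f 0))) (.f 0)) (.f 0)))) (.n 0 3450 (.n 0 3428 (.f
  1) (.n 1 3408 (.n 2 3223 (.f 1) (.f 0)) (.f 0))) (.f 0))) (.f 0)))) (.n 1 3384 (.n 0 3475 (.n
  2 3181 (.f 1) (.n 0 3436 (.f 1) (.n 3 1415 (.n 1 3367 (.f 1) (.f 0)) (.f 0)))) (.f 0)) (.f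
  0))) (.f 0))) (.n 1 3407 (.n 3 1380 (.n 2 3280 (.n 0 3401 (.f 1) (.n 0 3503 (.n 3 1336 (.n 1
  3369 (.n 0 3452 (.f 1) (.n 2 3250 (.n 0 3480 (.f 1) (.n 3 1306 (.n 1 3357 (.f 1) (.f 0)) (.f
  0))) (.f 0))) (.n 0 3448 (.n 2 3254 (.n 0 3439 (.f 1) (.n 3 1299 (.f 1) (.f 0))) (.f 0)) (.f
  0))) (.n 0 3441 (.n 1 3365 (.n 2 3277 (.f 1) (.f 0)) (.f 0)) (.f 0))) (.f 0))) (.n 0 3408 (.n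
  0 3374 (.f 1) (.n 3 1322 (.n 1 3361 (.f 1) (.f 0)) (.f 0))) (.f 0))) (.n 0 3396 (.n 2 3273 (.n
  0 3386 (.f 1) (.n 3 1391 (.f 1) (.f 0))) (.f 0)) (.f 0))) (.f 0))) (.n 1 3410 (.n 2 3225 (.n 0
  3398 (.n 0 3368 (.f 1) (.n 3 1525 (.n 2 3223 (.f 1) (.f 0)) (.f 0))) (.f 0)) (.f 0)) (.f 0)))
  (.f 2)) (.f 0))) (.n 0 3597 (.n 1 3413 (.n 3 1823 (.n 1 3262 (.n 0 3347 (.f 1) (.n 3 1734 (.n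
  1 3150 (.f 1) (.n 2 3186 (.n 0 3465 (.f 1) (.n 0 3525 (.n 1 3197 (.f 1) (.n 1 3220 (.n 2 3163
  (.f 1) (.n 0 3504 (.f 1) (.n 1 3201 (.n 3 1728 (.f 1) (.f 0)) (.f 0)))) (.f 0))) (.f 0))) (.n
  0 3520 (.n 0 3394 (.f 1) (.n 2 3228 (.n 0 3426 (.f 1) (.n 3 1690 (.n 1 3206 (.f 1) (.n 1 3234
  (.n 0 3474 (.f 1) (.n 2 3203 (.n 0 3497 (.f 1) (.n 1 3211 (.n 0 3519 (.f 1) (.f 0)) (.f 0)))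
  (.f 0))) (.n 0 3455 (.n 2 3221 (.f 1) (.f 0)) (.f 0)))) (.n 1 3224 (.n 0 3466 (.f 1) (.n 2
  3207 (.n 0 3481 (.f 1) (.n 3 1712 (.n 1 3200 (.f 1) (.n 0 3492 (.f 1) (.n 1 3214 (.n 2 3199
  (.n 0 3509 (.f 1) (.n 1 3203 (.n 2 3198 (.f 1) (.f 0)) (.f 0))) (.f 0)) (.f 0)))) (.n 2 3201
  (.n 1 3214 (.n 0 3496 (.f 1) (.n 1 3194 (.f 1) (.n 1 3207 (.n 0 3503 (.f 1) (.n 3 1724 (.n 0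
  3513 (.n 2 3195 (.f 1) (.n 3 1714 (.n 1 3206 (.f 1) (.f 0)) (.f 0))) (.f 0)) (.f 0))) (.f
  0)))) (.f 0)) (.f 0)))) (.f 0))) (.n 0 3474 (.n 2 3212 (.n 0 3441 (.f 1) (.n 1 3242 (.n 0 3460
  (.f 1) (.n 2 3193 (.f 1) (.f 0))) (.f 0))) (.f 0)) (.f 0))))) (.f 0))) (.f 0)))) (.n 0 3530
  (.n 1 3163 (.f 1) (.n 2 3186 (.n 0 3419 (.f 1) (.n 1 3225 (.n 0 3454 (.f 1) (.n 3 1771 (.n 0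
  3481 (.f 1) (.n 1 3191 (.f 0) (.f 0))) (.f 0))) (.f 0))) (.n 2 3234 (.n 0 3438 (.n 1 3214 (.f
  1) (.n 0 3374 (.f 1) (.n 3 1778 (.n 0 3398 (.f 1) (.n 2 3216 (.n 1 3238 (.f 1) (.n 3 1746 (.n
  0 3431 (.f 1) (.f 0)) (.f 0))) (.f 0))) (.n 2 3202 (.n 1 3229 (.n 0 3436 (.f 1) (.f 0)) (.f
  0)) (.f 0))))) (.n 2 3204 (.n 1 3221 (.n 3 1783 (.n 0 3462 (.f 1) (.n 1 3207 (.n 2 3197 (.n 3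
  1760 (.n 0 3493 (.f 1) (.n 0 3500 (.n 1 3190 (.f 1) (.f 0)) (.f 0))) (.f 0)) (.f 0)) (.f 0)))
  (.f 0)) (.f 0)) (.f 0))) (.f 0)))) (.f 0)))) (.n 2 3224 (.n 1 3345 (.n 0 3452 (.n 0 3323 (.f
  1) (.n 3 1734 (.n 2 3167 (.n 0 3402 (.f 1) (.f 0)) (.n 3 1690 (.n 0 3372 (.f 1) (.n 1 3299 (.n
  0 3417 (.f 1) (.n 1 3265 (.n 2 3221 (.f 1) (.f 0)) (.f 0))) (.f 0))) (.n 1 3303 (.n 0 3390 (.f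
  1) (.n 0 3422 (.n 1 3285 (.n 2 3209 (.f 1) (.f 0)) (.f 0)) (.f 0))) (.n 0 3368 (.n 2 3204 (.f
  1) (.n 0 3333 (.f 1) (.f 0))) (.f 0))))) (.n 0 3388 (.n 1 3318 (.n 2 3162 (.f 1) (.n 3 1778
  (.n 0 3353 (.f 1) (.n 1 3290 (.n 2 3216 (.f 1) (.f 0)) (.f 0))) (.n 0 3343 (.n 2 3209 (.f 1)
  (.f 0)) (.f 0)))) (.f 0)) (.f 0)))) (.f 0)) (.f 0)) (.n 0 3379 (.n 1 3315 (.n 2 3283 (.n 0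
  3294 (.f 1) (.n 3 1769 (.n 3 1707 (.n 0 3335 (.f 1) (.n 2 3238 (.f 1) (.f 0))) (.n 0 3354 (.n
  0 3309 (.f 1) (.n 2 3261 (.n 1 3285 (.f 1) (.n 3 1725 (.n 0 3348 (.f 1) (.f 0)) (.f 0))) (.f
  0))) (.f 0))) (.f 0))) (.f 0)) (.f 0)) (.f 0)))) (.n 2 3246 (.n 1 3292 (.n 0 3507 (.n 1 3201
  (.n 0 3391 (.n 1 3186 (.f 1) (.n 0 3363 (.f 1) (.n 3 1857 (.f 1) (.f 0)))) (.f 0)) (.n 0 3401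
  (.n 3 1911 (.n 2 3178 (.n 0 3348 (.f 1) (.n 1 3210 (.f 1) (.f 0))) (.n 1 3246 (.n 0 3328 (.f
  1) (.n 2 3211 (.n 0 3363 (.f 1) (.n 3 1840 (.f 1) (.f 0))) (.f 0))) (.n 0 3328 (.n 0 3287 (.f
  1) (.n 2 3210 (.n 3 1895 (.f 1) (.f 0)) (.f 0))) (.f 0)))) (.n 0 3337 (.n 1 3264 (.n 2 3164
  (.f 1) (.n 2 3220 (.n 0 3284 (.f 1) (.n 1 3233 (.n 2 3197 (.f 1) (.n 0 3301 (.f 1) (.f 0)))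
  (.f 0))) (.f 0))) (.f 0)) (.f 0))) (.f 0))) (.f 0)) (.f 0)) (.f 0))) (.f 2)) (.f 0))) (.f
  0)))) (.f 0)) (.f 0)))) (.f 2)))))

theorem check4 : check p4 t4 b4 = true := by
  decide +kernel

end P226.Chk
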