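import Vale.Agent.P226.Chk

/-! # P226, Step 7 : certificate for class 5 -/

set_option maxRecDepth 100000

namespace P226.Chk

/-- parameters for class 5. -/
def p5 : Par := ⟨2128, [(0, 7071), (-40184494, 20551), (-28430771, 17213), (-17484521, 13899), (-8018334, 10638)], 4, 5⟩

/-- initial box for class 5. -/
def b5 : Bx := ⟨[(0, 3990), (0, 3990), (0, 3990), (0, 3990), (0, 3990)], 0, 0⟩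

/-- certificate tree for class 5. -/
def t5 : T :=
  .n 0 2639 (.f 1) (.n 1 2209 (.f 1) (.n 4 2638 (.n 2 1105 (.f 1) (.n 3 1995 (.n 0 3033 (.f 1)
  (.n 2 2547 (.n 3 997 (.n 0 3695 (.f 1) (.n 1 3359 (.f 1) (.n 4 666 (.n 4 225 (.f 4) (.n 2 1570
  (.f 1) (.n 4 464 (.f 4) (.n 1 3756 (.n 2 2081 (.f 1) (.n 4 603 (.f 4) (.f 0))) (.f 0))))) (.f
  0)))) (.n 1 3099 (.n 2 1837 (.f 1) (.n 0 3429 (.f 1) (.n 4 859 (.n 1 2934 (.f 1) (.n 0 3868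
  (.f 1) (.n 3 1749 (.f 1) (.n 4 211 (.f 4) (.f 0))))) (.f 0)))) (.n 4 1165 (.n 0 3461 (.f 1)
  (.n 2 1826 (.n 0 3724 (.f 1) (.n 4 375 (.n 1 3605 (.f 1) (.n 3 1175 (.n 0 3932 (.f 1) (.f 0))
  (.f 0))) (.f 0))) (.n 4 842 (.n 4 323 (.f 4) (.n 1 3605 (.n 4 490 (.f 4) (.n 0 3688 (.n 2 2180
  (.f 0) (.n 3 1088 (.f 1) (.f 0))) (.f 0))) (.f 0))) (.f 0)))) (.f 0)))) (.n 2 3589 (.n 3 997
  (.n 3 506 (.f 3) (.n 4 344 (.f 4) (.n 0 3355 (.f 1) (.n 2 3252 (.n 1 2990 (.f 1) (.n 3 792 (.f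
  3) (.n 4 624 (.f 4) (.n 1 3558 (.n 0 3721 (.n 1 3159 (.f 1) (.n 2 2899 (.n 1 3397 (.f 1) (.n 4
  635 (.f 4) (.f 0))) (.n 4 779 (.n 3 952 (.f 3) (.n 0 3388 (.f 1) (.f 0))) (.f 0)))) (.f 0))
  (.f 0))))) (.f 3))))) (.n 1 3268 (.n 4 997 (.n 4 344 (.f 4) (.n 4 514 (.f 4) (.n 1 2729 (.f 1)
  (.n 3 1496 (.n 0 3341 (.f 1) (.n 0 3780 (.n 1 3018 (.f 1) (.n 4 818 (.n 4 639 (.f 4) (.n 2
  2835 (.f 0) (.f 0))) (.f 0))) (.f 0))) (.n 0 3636 (.n 1 2963 (.f 1) (.n 4 752 (.n 4 626 (.f 4)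
  (.n 2 2746 (.f 0) (.f 0))) (.f 0))) (.f 0)))))) (.n 2 2868 (.n 4 1134 (.n 0 3194 (.f 1) (.f
  0)) (.f 0)) (.f 0))) (.n 4 889 (.n 4 471 (.f 4) (.n 1 3556 (.n 4 701 (.f 4) (.n 2 2810 (.f 0)
  (.f 0))) (.f 0))) (.f 0)))) (.f 2)))) (.n 3 3068 (.n 2 3345 (.n 1 3099 (.n 4 1319 (.n 1 2454
  (.f 1) (.n 2 2547 (.n 0 3387 (.f 1) (.n 4 831 (.n 4 343 (.f 4) (.n 2 2190 (.f 1) (.n 4 500 (.f
  4) (.n 0 3655 (.n 1 2959 (.f 1) (.n 2 2464 (.f 1) (.n 4 570 (.f 4) (.f 0)))) (.f 0))))) (.f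
  0))) (.n 4 344 (.f 4) (.n 3 2531 (.n 0 3033 (.f 1) (.n 4 831 (.n 4 516 (.f 4) (.n 1 2823 (.n 0
  3569 (.f 1) (.f 0)) (.n 0 3695 (.n 2 2823 (.n 0 3328 (.f 1) (.n 4 707 (.n 4 589 (.f 4) (.n 0
  3520 (.n 3 2308 (.f 1) (.n 0 3342 (.f 1) (.f 0))) (.f 0))) (.f 0))) (.n 4 628 (.f 4) (.n 3
  2263 (.n 0 3409 (.n 1 3031 (.f 1) (.n 4 656 (.f 4) (.f 0))) (.f 0)) (.n 0 3389 (.n 2 2933 (.n
  4 693 (.n 0 3273 (.f 1) (.n 1 2939 (.f 1) (.f 0))) (.f 0)) (.f 0)) (.f 0))))) (.f 0)))) (.n 0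
  3459 (.n 1 2980 (.f 0) (.n 2 3094 (.f 0) (.f 0))) (.f 0)))) (.n 0 3314 (.n 0 2918 (.f 1) (.n 1
  2771 (.f 1) (.n 4 614 (.f 4) (.n 4 1047 (.n 2 2823 (.n 4 739 (.n 2 2708 (.f 1) (.n 0 3115 (.f
  1) (.n 1 2942 (.n 3 2766 (.f 1) (.n 4 723 (.f 4) (.f 0))) (.f 0)))) (.f 0)) (.n 4 913 (.n 3
  2799 (.n 4 767 (.n 2 3001 (.n 0 3027 (.f 1) (.n 1 2961 (.n 0 3136 (.f 1) (.n 4 696 (.n 3 2667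
  (.n 1 2935 (.f 1) (.n 4 629 (.f 4) (.f 0))) (.f 4)) (.f 0))) (.n 4 679 (.n 4 670 (.f 4) (.n 2
  2842 (.f 0) (.f 0))) (.f 0)))) (.f 0)) (.f 0)) (.n 3 2980 (.n 4 697 (.f 4) (.n 2 2984 (.n 4
  852 (.n 1 2961 (.n 1 2871 (.f 0) (.n 4 808 (.n 0 3116 (.n 2 2886 (.f 1) (.n 1 2912 (.f 1) (.n
  4 767 (.n 0 2984 (.f 1) (.n 3 2851 (.f 0) (.n 4 725 (.f 4) (.n 3 2883 (.f 0) (.f 0))))) (.f
  0)))) (.n 2 2903 (.f 0) (.n 4 711 (.f 4) (.f 0)))) (.f 0))) (.n 4 773 (.n 2 2897 (.f 0) (.n 3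
  2888 (.f 0) (.n 0 3001 (.n 4 709 (.f 4) (.f 0)) (.f 0)))) (.f 0))) (.f 0)) (.f 0))) (.f 2)))
  (.f 0))) (.f 0))))) (.n 4 674 (.f 4) (.n 1 2907 (.f 0) (.n 4 871 (.n 2 2912 (.f 0) (.n 0 3417
  (.n 3 2935 (.f 0) (.f 0)) (.f 0))) (.f 0))))))))) (.n 0 3636 (.n 2 2300 (.f 0) (.n 1 2520 (.f
  0) (.n 3 2531 (.n 3 2217 (.f 0) (.n 4 2184 (.f 0) (.n 1 3045 (.f 0) (.f 0)))) (.n 3 2885 (.n 4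
  2109 (.f 0) (.n 1 2994 (.f 0) (.f 0))) (.f 2))))) (.f 0))) (.n 1 3702 (.n 4 1319 (.n 4 344 (.f
  4) (.n 2 2670 (.n 4 1049 (.n 4 528 (.f 4) (.n 1 3442 (.n 0 3578 (.n 4 776 (.n 2 2295 (.f 1)
  (.n 4 657 (.n 4 605 (.f 4) (.n 3 2119 (.f 0) (.f 0))) (.f 0))) (.f 0)) (.f 0)) (.f 0))) (.f
  0)) (.n 1 3488 (.n 4 674 (.f 4) (.n 0 3531 (.n 4 891 (.n 3 2531 (.n 2 3037 (.n 4 784 (.n 3
  2275 (.n 2 2991 (.f 0) (.f 0)) (.f 0)) (.f 0)) (.f 0)) (.n 1 3272 (.n 3 2828 (.n 2 2799 (.f 0)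
  (.f 0)) (.f 2)) (.f 2))) (.f 0)) (.f 0))) (.f 2)))) (.n 3 2613 (.n 1 3470 (.n 0 3605 (.n 4
  2214 (.f 0) (.f 0)) (.f 0)) (.f 2)) (.f 2))) (.f 2))) (.f 2)) (.f 2)))) (.f 2)))

theorem check5 : check p5 t5 b5 = true := by
  decide +kernel

end P226.Chk
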