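import Vale.Agent.P226.Chk

/-! # P226, Step 7 : certificate for class 6 -/

set_option maxRecDepth 100000

namespace P226.Chk

/-- parameters for class 6. -/
def p6 : Par := ⟨2146, [(0, 7071), (-23581250, 15666), (-11475000, 11749), (-5468750, 9399)], 5, 6⟩

/-- initial box for class 6. -/
def b6 : Bx := ⟨[(0, 3990), (0, 3990), (0, 3990), (0, 3990), (0, 3990), (0, 3990)], 0, 0⟩

/-- certificate tree for class 6. -/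
def t6 : T :=
  .n 0 2394 (.f 1) (.n 1 1964 (.f 1) (.n 5 2393 (.n 4 2700 (.n 2 1995 (.n 2 982 (.f 1) (.n 0
  3141 (.f 1) (.n 5 797 (.n 1 2679 (.f 1) (.n 4 1134 (.n 0 3598 (.f 1) (.n 1 3161 (.f 1) (.n 5
  502 (.n 5 130 (.f 5) (.n 4 747 (.n 2 1246 (.f 1) (.n 5 246 (.f 5) (.n 3 1107 (.n 1 3721 (.f 1)
  (.n 0 3857 (.f 1) (.n 4 561 (.n 4 358 (.f 4) (.n 3 807 (.n 2 1649 (.f 1) (.n 4 470 (.f 4) (.n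
  5 379 (.f 5) (.f 0)))) (.f 0))) (.f 0)))) (.f 0)))) (.f 0))) (.f 0)))) (.f 0))) (.f 0)))) (.n
  3 1995 (.n 0 2811 (.f 1) (.n 1 2992 (.n 5 797 (.n 3 797 (.f 1) (.n 1 2370 (.f 1) (.n 3 1396
  (.n 0 3644 (.f 1) (.n 1 2770 (.f 1) (.n 2 2516 (.f 1) (.n 5 428 (.n 5 269 (.f 5) (.n 5 401 (.f
  5) (.n 4 446 (.f 4) (.f 0)))) (.f 0))))) (.n 5 539 (.n 5 181 (.f 5) (.n 4 1101 (.n 0 3517 (.f
  1) (.n 1 2680 (.f 1) (.n 4 662 (.n 2 2493 (.f 1) (.n 5 307 (.f 5) (.f 0))) (.f 0)))) (.f 0)))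
  (.f 0))))) (.f 0)) (.n 5 889 (.n 5 232 (.f 5) (.n 2 2992 (.n 4 1045 (.n 5 696 (.n 5 360 (.f 5)
  (.n 0 3252 (.f 1) (.n 4 823 (.n 3 1177 (.n 0 3483 (.f 1) (.n 1 3491 (.n 2 2270 (.f 1) (.n 5
  584 (.n 3 635 (.f 3) (.n 4 509 (.f 4) (.n 3 984 (.n 4 716 (.n 2 2631 (.n 0 3857 (.f 1) (.n 1
  3337 (.f 1) (.n 3 696 (.f 3) (.f 0)))) (.n 5 457 (.f 5) (.n 3 731 (.f 3) (.f 0)))) (.f 0)) (.f
  0)))) (.f 0))) (.n 4 530 (.f 4) (.n 4 716 (.n 3 957 (.n 5 584 (.n 2 2692 (.n 3 713 (.n 2 2187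
  (.f 0) (.f 3)) (.f 0)) (.f 4)) (.f 0)) (.f 0)) (.f 0))))) (.n 5 462 (.n 2 2562 (.f 0) (.n 1
  3022 (.f 0) (.f 0))) (.f 0))) (.f 0)))) (.f 0)) (.f 0)) (.n 4 937 (.n 4 622 (.f 4) (.n 2 3413
  (.n 5 494 (.f 5) (.n 3 833 (.n 1 3159 (.n 0 3221 (.f 1) (.f 0)) (.f 0)) (.f 0))) (.f 2))) (.f
  0)))) (.f 0)))) (.n 3 3129 (.n 2 3345 (.n 1 2992 (.n 4 1350 (.n 1 2316 (.f 1) (.n 0 2835 (.f
  1) (.n 5 788 (.n 5 206 (.f 5) (.n 2 2493 (.n 0 3456 (.f 1) (.n 5 402 (.n 5 359 (.f 5) (.n 4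
  435 (.f 4) (.f 0))) (.f 0))) (.n 5 635 (.n 5 343 (.f 5) (.n 4 1040 (.n 3 2493 (.n 4 686 (.n 5
  502 (.n 0 3296 (.f 1) (.n 4 437 (.f 4) (.f 0))) (.f 0)) (.f 0)) (.n 4 729 (.n 4 527 (.f 4) (.n
  0 3154 (.n 5 383 (.f 5) (.f 0)) (.f 0))) (.f 0))) (.f 0))) (.f 0)))) (.f 0)))) (.n 5 1196 (.n
  1 2493 (.n 5 579 (.n 0 3253 (.f 1) (.n 5 53 (.f 5) (.f 0))) (.f 0)) (.n 2 2493 (.n 5 505 (.n 5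
  193 (.f 5) (.n 0 2930 (.f 0) (.f 0))) (.f 0)) (.n 3 2493 (.n 5 542 (.n 5 232 (.f 5) (.n 0 2907
  (.f 0) (.f 0))) (.f 0)) (.n 5 772 (.n 5 249 (.f 5) (.n 0 3276 (.n 4 2533 (.f 0) (.f 0)) (.f
  0))) (.f 0))))) (.n 1 2623 (.f 0) (.n 2 2830 (.f 0) (.f 0))))) (.n 5 1435 (.n 5 926 (.n 5 242
  (.f 5) (.n 1 3690 (.n 4 1471 (.n 5 747 (.n 2 2670 (.n 4 941 (.n 5 537 (.n 5 363 (.f 5) (.n 4
  744 (.n 2 2181 (.f 0) (.n 4 494 (.f 4) (.n 1 3228 (.n 2 2315 (.f 0) (.n 5 413 (.f 5) (.n 3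
  2212 (.f 0) (.n 1 3158 (.n 0 3313 (.n 2 2645 (.f 1) (.n 3 2620 (.f 1) (.n 0 3273 (.f 1) (.f
  0)))) (.f 0)) (.f 0))))) (.f 0)))) (.f 0))) (.f 0)) (.f 0)) (.n 5 462 (.f 5) (.n 4 1013 (.n 1
  3405 (.n 3 2562 (.n 5 571 (.n 4 690 (.n 4 582 (.f 4) (.n 0 3190 (.f 0) (.f 0))) (.f 0)) (.f
  0)) (.n 5 597 (.n 0 3513 (.n 4 750 (.n 4 581 (.f 4) (.n 1 3137 (.n 0 3024 (.f 0) (.f 0)) (.f
  0))) (.f 0)) (.f 2)) (.f 0))) (.f 2)) (.f 0)))) (.f 0)) (.n 1 3411 (.n 2 2514 (.f 0) (.n 0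
  3559 (.n 3 2709 (.n 5 546 (.n 5 439 (.f 5) (.n 4 1678 (.f 0) (.f 0))) (.f 0)) (.f 2)) (.f 2)))
  (.f 2))) (.f 2))) (.f 0)) (.f 0))) (.f 2)) (.f 2)))) (.f 2)) (.f 2)))

theorem check6 : check p6 t6 b6 = true := by
  decide +kernel

end P226.Chk
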