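import Vale.Agent.P226.Chk

/-! # P226, Step 7 : certificate for class 7 -/

set_option maxRecDepth 100000

namespace P226.Chk

/-- parameters for class 7. -/
def p7 : Par := ⟨2164, [(0, 7071), (-23977662, 15666), (-10395599, 11190), (-4449810, 8703), (-1748008, 7121)], 6, 7⟩

/-- initial box for class 7. -/
def b7 : Bx := ⟨[(0, 3990), (0, 3990), (0, 3990), (0, 3990), (0, 3990), (0, 3990), (0, 3990)], 0, 0⟩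

/-- certificate tree for class 7. -/
def t7 : T :=
  .n 0 2209 (.f 1) (.n 6 2025 (.n 1 1780 (.f 1) (.n 5 2393 (.n 4 2761 (.n 2 1995 (.n 6 889 (.n 0
  3085 (.f 1) (.n 5 951 (.n 2 890 (.f 1) (.n 1 2494 (.f 1) (.n 6 533 (.n 0 3362 (.f 1) (.n 3 997
  (.n 1 3552 (.f 1) (.n 0 3783 (.f 1) (.n 5 555 (.n 6 393 (.n 2 1230 (.f 1) (.n 6 132 (.f 6) (.n
  4 624 (.n 1 3747 (.f 1) (.n 0 3871 (.f 1) (.n 4 320 (.f 4) (.n 5 264 (.f 5) (.n 5 438 (.n 2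
  1493 (.f 1) (.n 6 260 (.f 6) (.n 3 590 (.n 4 448 (.n 2 1701 (.f 1) (.f 4)) (.f 0)) (.f 0))))
  (.f 0)))))) (.f 0)))) (.f 0)) (.f 0)))) (.n 5 614 (.n 6 376 (.n 1 3242 (.n 2 1718 (.f 1) (.n 3
  1556 (.f 1) (.n 4 828 (.f 1) (.f 0)))) (.n 4 889 (.n 0 3641 (.f 1) (.n 5 367 (.n 5 134 (.f 5)
  (.n 6 234 (.n 6 101 (.f 6) (.n 4 494 (.n 3 1564 (.n 1 3609 (.f 1) (.n 2 1395 (.n 0 3965 (.f 1)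
  (.n 1 3943 (.f 1) (.n 2 1327 (.f 1) (.f 6)))) (.f 6))) (.f 6)) (.f 0))) (.f 0))) (.f 0))) (.f
  0))) (.f 0)) (.f 0)))) (.f 0)))) (.f 0))) (.f 0)) (.n 3 1995 (.n 1 2992 (.n 6 736 (.n 5 1165
  (.n 0 2934 (.f 1) (.n 3 674 (.f 1) (.n 6 485 (.n 5 788 (.n 1 2347 (.f 1) (.n 6 133 (.f 6) (.n
  4 1106 (.n 0 3437 (.f 1) (.n 1 2624 (.f 1) (.n 5 585 (.n 5 285 (.f 5) (.n 4 827 (.n 2 2378 (.f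
  1) (.n 6 264 (.f 6) (.n 6 386 (.n 5 455 (.n 4 651 (.n 4 419 (.f 4) (.n 3 988 (.f 1) (.f 0)))
  (.f 0)) (.f 0)) (.f 0)))) (.f 0))) (.f 0)))) (.f 0)))) (.f 0)) (.f 0)))) (.f 0)) (.f 0)) (.n 6
  736 (.n 5 1134 (.n 2 2992 (.n 5 749 (.n 5 235 (.f 5) (.n 4 1182 (.n 6 514 (.n 6 173 (.f 6) (.n
  6 267 (.f 6) (.n 4 829 (.n 5 604 (.n 0 3282 (.f 1) (.n 4 413 (.f 4) (.n 3 1204 (.n 0 3467 (.f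
  1) (.n 1 3491 (.n 2 2493 (.n 0 3820 (.f 1) (.n 1 3302 (.f 1) (.n 4 572 (.n 2 2308 (.f 1) (.n 4
  522 (.f 4) (.n 3 616 (.f 1) (.f 0)))) (.f 0)))) (.n 5 401 (.f 5) (.n 4 611 (.n 4 503 (.f 4)
  (.n 3 728 (.n 3 637 (.f 3) (.n 6 326 (.n 1 3003 (.f 1) (.f 6)) (.f 0))) (.f 0))) (.f 0)))) (.n
  5 393 (.f 5) (.n 4 598 (.n 2 2478 (.n 3 594 (.n 3 571 (.f 3) (.n 2 2459 (.f 0) (.f 3))) (.f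
  0)) (.f 4)) (.f 0))))) (.n 6 285 (.n 1 3083 (.n 2 2086 (.f 1) (.f 0)) (.f 0)) (.f 0))))) (.f
  0)) (.f 0)))) (.f 0)) (.f 0))) (.f 0)) (.n 5 723 (.n 5 322 (.f 5) (.n 4 1016 (.n 2 3513 (.n 4
  560 (.f 4) (.n 6 445 (.n 6 248 (.f 6) (.n 3 1045 (.n 6 369 (.f 6) (.n 1 3159 (.n 4 644 (.n 0
  3705 (.f 1) (.n 3 604 (.f 3) (.f 0))) (.f 0)) (.f 0))) (.f 0))) (.f 0))) (.f 2)) (.f 0))) (.f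
  0))) (.f 0)) (.f 0))) (.n 3 3129 (.n 2 3375 (.n 1 2992 (.n 6 1028 (.n 4 1380 (.n 0 2769 (.f 1)
  (.n 6 569 (.n 1 2285 (.f 1) (.n 5 923 (.n 6 156 (.f 6) (.n 2 2493 (.n 0 3351 (.f 1) (.n 5 433
  (.n 5 325 (.f 5) (.n 4 551 (.n 2 2315 (.f 0) (.n 0 3704 (.f 1) (.n 6 274 (.f 6) (.n 3 2362 (.f
  0) (.f 5))))) (.f 0))) (.f 0))) (.n 5 717 (.n 5 319 (.f 5) (.n 3 2493 (.n 4 1052 (.n 6 444 (.n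
  6 257 (.f 6) (.n 5 545 (.n 0 3163 (.f 1) (.n 4 566 (.n 5 433 (.n 6 373 (.n 4 403 (.f 4) (.n 3
  2247 (.f 0) (.n 5 370 (.f 5) (.n 1 2814 (.f 0) (.n 4 488 (.f 4) (.n 0 3200 (.f 1) (.f 0)))))))
  (.f 0)) (.f 0)) (.f 0))) (.f 0))) (.f 0)) (.f 0)) (.n 6 301 (.f 6) (.n 4 897 (.n 5 570 (.n 6
  474 (.n 4 470 (.f 4) (.n 0 3379 (.n 1 2768 (.f 1) (.n 2 2653 (.f 1) (.n 0 2928 (.f 1) (.n 4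
  745 (.n 5 397 (.f 5) (.n 4 639 (.n 5 512 (.n 6 421 (.n 3 2742 (.n 0 3115 (.n 1 2978 (.f 1) (.n
  2 2960 (.f 1) (.n 3 2711 (.f 1) (.n 0 3087 (.f 1) (.n 4 482 (.f 1) (.f 0)))))) (.f 0)) (.n 4
  574 (.f 4) (.n 0 3032 (.f 0) (.f 0)))) (.f 0)) (.f 0)) (.f 0))) (.f 0))))) (.n 1 2884 (.f 0)
  (.n 4 571 (.n 3 2573 (.n 5 344 (.f 6) (.f 0)) (.f 4)) (.f 0))))) (.f 0)) (.f 0)) (.f 0)))))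
  (.f 0)))) (.f 0))) (.f 0))) (.n 5 1196 (.n 1 2493 (.n 6 474 (.n 0 3044 (.f 1) (.n 5 348 (.n 1
  2331 (.f 0) (.n 5 219 (.f 5) (.n 2 2427 (.f 0) (.n 4 2270 (.f 0) (.f 5))))) (.f 0))) (.f 0))
  (.n 6 663 (.n 2 2493 (.n 6 376 (.n 6 143 (.f 6) (.n 5 652 (.n 2 2200 (.f 0) (.n 6 235 (.f 6)
  (.n 0 2884 (.f 0) (.f 0)))) (.f 0))) (.f 0)) (.n 6 167 (.f 6) (.n 3 2493 (.n 6 418 (.n 5 736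
  (.n 6 257 (.f 6) (.n 0 2953 (.f 0) (.f 0))) (.f 0)) (.f 0)) (.n 4 2070 (.n 6 350 (.n 5 561 (.n
  6 279 (.f 6) (.n 0 2677 (.f 1) (.f 0))) (.f 0)) (.f 0)) (.n 3 2784 (.n 0 3460 (.n 6 422 (.n 6
  280 (.f 6) (.n 5 589 (.n 0 2924 (.f 0) (.n 4 2499 (.f 0) (.n 5 308 (.f 6) (.f 0)))) (.f 0)))
  (.f 0)) (.f 2)) (.f 2)))))) (.f 0))) (.n 1 2408 (.f 0) (.n 2 2439 (.f 0) (.n 4 2144 (.f 0) (.n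
  6 300 (.n 0 2915 (.f 0) (.f 0)) (.f 0))))))) (.f 0)) (.n 6 560 (.n 6 180 (.f 6) (.n 5 1745 (.n
  5 1118 (.n 1 3713 (.n 4 1470 (.n 5 757 (.n 5 331 (.f 5) (.n 2 2685 (.n 2 2217 (.f 0) (.n 4
  1049 (.n 5 625 (.n 6 292 (.f 6) (.n 6 457 (.n 4 816 (.n 5 545 (.n 2 2339 (.f 0) (.n 4 479 (.f
  4) (.n 3 2355 (.f 0) (.n 1 3135 (.n 4 624 (.n 6 373 (.n 5 458 (.n 5 389 (.f 5) (.n 0 3144 (.f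
  1) (.f 0))) (.f 0)) (.f 0)) (.f 0)) (.f 0))))) (.f 0)) (.f 0)) (.f 0))) (.f 0)) (.f 0))) (.n 6
  342 (.f 6) (.n 1 3424 (.n 4 1087 (.n 5 641 (.n 5 428 (.f 5) (.n 2 3167 (.n 4 741 (.n 5 570 (.n
  6 489 (.n 4 534 (.f 4) (.n 1 3178 (.n 3 2491 (.f 0) (.n 2 2965 (.f 0) (.n 0 3282 (.n 2 3067
  (.n 4 616 (.n 1 3066 (.n 3 2874 (.f 0) (.n 0 3000 (.f 0) (.f 2))) (.f 0)) (.f 0)) (.f 0)) (.f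
  2)))) (.f 0))) (.f 0)) (.f 0)) (.f 0)) (.f 0))) (.f 0)) (.f 0)) (.f 2))))) (.f 0)) (.n 1 3413
  (.n 3 2762 (.n 2 2440 (.f 0) (.n 0 3621 (.n 6 319 (.f 6) (.n 3 2448 (.f 0) (.n 4 2343 (.f 0)
  (.f 2)))) (.f 2))) (.f 2)) (.f 2))) (.f 2)) (.f 0)) (.f 2))) (.f 0))) (.f 2)) (.f 2)))) (.f
  2)) (.f 2))) (.f 2))

theorem check7 : check p7 t7 b7 = true := by
  decide +kernel

end P226.Chk
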