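import Vale.Agent.P226.Chk

/-! # P226, Step 7 : certificate for class 8 -/

set_option maxRecDepth 100000

namespace P226.Chk

/-- parameters for class 8. -/
def p8 : Par := ⟨2164, [(0, 7071), (-23977662, 15666), (-10395599, 11190), (-4449810, 8703), (-1748008, 7121)], 7, 8⟩

/-- initial box for class 8. -/
def b8 : Bx := ⟨[(0, 3990), (0, 3990), (0, 3990), (0, 3990), (0, 3990), (0, 3990), (0, 3990), (0, 3990)], 0, 0⟩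

/-- certificate tree for class 8. -/
def t8 : T :=
  .n 7 1779 (.n 0 2148 (.f 1) (.n 6 2025 (.n 1 1657 (.f 1) (.n 5 2393 (.n 4 2761 (.n 2 1995 (.n
  7 684 (.n 6 920 (.n 0 3026 (.f 1) (.n 5 982 (.n 2 828 (.f 1) (.n 1 2374 (.f 1) (.n 6 594 (.n 0
  3322 (.f 1) (.n 7 428 (.n 3 997 (.n 1 3517 (.f 1) (.n 0 3764 (.f 1) (.n 5 573 (.n 6 405 (.n 2
  1150 (.f 1) (.n 6 123 (.f 6) (.n 4 660 (.n 1 3712 (.f 1) (.n 0 3855 (.f 1) (.n 7 286 (.n 7 100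
  (.f 7) (.n 5 413 (.n 2 1449 (.f 1) (.n 5 284 (.f 5) (.n 4 454 (.n 7 192 (.f 7) (.n 3 437 (.n 2
  1524 (.f 1) (.f 3)) (.f 0))) (.f 0)))) (.f 0))) (.f 0)))) (.f 0)))) (.f 0)) (.f 0)))) (.n 7
  298 (.n 6 419 (.n 5 694 (.n 1 3182 (.n 2 1733 (.f 1) (.n 3 1587 (.f 1) (.n 4 766 (.f 1) (.f
  0)))) (.n 4 920 (.n 5 373 (.n 0 3640 (.f 1) (.n 7 178 (.n 7 76 (.f 7) (.n 6 209 (.n 3 1488 (.n
  2 1488 (.n 1 3791 (.f 1) (.n 6 165 (.f 6) (.n 4 281 (.n 3 1083 (.f 1) (.f 4)) (.f 0)))) (.f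
  6)) (.f 6)) (.f 0))) (.f 0))) (.f 0)) (.f 0))) (.f 0)) (.f 0)) (.f 0))) (.f 0))) (.f 0)))) (.f
  0))) (.f 0)) (.f 0)) (.n 3 1995 (.n 7 930 (.n 1 2992 (.n 6 736 (.n 5 1196 (.n 0 2884 (.f 1)
  (.n 7 418 (.n 5 790 (.n 3 644 (.f 1) (.n 6 508 (.n 1 2331 (.f 1) (.n 6 132 (.f 6) (.n 4 1163
  (.n 0 3377 (.f 1) (.n 1 2594 (.f 1) (.n 5 597 (.n 5 267 (.f 5) (.n 4 845 (.n 2 2331 (.f 1) (.n
  7 130 (.f 7) (.n 7 286 (.n 6 345 (.n 6 243 (.f 6) (.n 3 1079 (.n 0 3933 (.f 1) (.n 1 2949 (.f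
  1) (.n 2 2910 (.f 1) (.n 6 339 (.f 6) (.n 5 342 (.f 5) (.f 0)))))) (.f 0))) (.f 0)) (.f 0))))
  (.f 0))) (.f 0)))) (.f 0)))) (.f 0))) (.f 0)) (.f 0))) (.f 0)) (.f 0)) (.n 6 736 (.n 5 1134
  (.n 7 531 (.n 7 138 (.f 7) (.n 2 2992 (.n 4 937 (.n 6 468 (.n 5 592 (.n 5 312 (.f 5) (.n 6 254
  (.f 6) (.n 4 677 (.n 0 3282 (.f 1) (.n 3 1062 (.n 5 505 (.n 0 3499 (.f 1) (.n 7 370 (.n 7 205
  (.f 7) (.n 4 564 (.n 4 384 (.f 4) (.n 3 780 (.n 1 3491 (.n 2 2470 (.f 1) (.n 3 627 (.f 3) (.n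
  6 289 (.f 6) (.f 0)))) (.n 2 2408 (.n 4 392 (.f 4) (.f 0)) (.f 4))) (.f 0))) (.f 0))) (.f 0)))
  (.f 0)) (.f 0))) (.f 0)))) (.f 0)) (.f 0)) (.f 0)) (.n 4 908 (.n 4 517 (.f 4) (.n 6 390 (.n 6
  348 (.f 6) (.n 2 3053 (.n 3 607 (.f 3) (.f 0)) (.f 0))) (.f 0))) (.f 0)))) (.f 0)) (.f 0)) (.f
  0))) (.f 0)) (.n 3 3129 (.n 2 3375 (.n 7 930 (.n 1 2992 (.n 6 1121 (.n 7 557 (.n 4 1380 (.n 0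
  2742 (.f 1) (.n 6 569 (.n 7 397 (.n 7 115 (.f 7) (.n 5 776 (.n 1 2370 (.f 1) (.n 2 2493 (.n 0
  3375 (.f 1) (.n 6 289 (.n 6 248 (.f 6) (.n 4 378 (.f 4) (.f 0))) (.f 0))) (.n 7 196 (.f 7) (.n
  6 420 (.n 5 552 (.n 5 299 (.f 5) (.n 4 880 (.n 3 2493 (.n 4 647 (.n 0 3259 (.f 1) (.n 5 333
  (.n 4 367 (.f 4) (.f 0)) (.f 0))) (.f 0)) (.n 6 286 (.f 6) (.n 4 638 (.n 4 434 (.f 4) (.n 0
  3039 (.n 1 2988 (.f 0) (.n 5 302 (.f 6) (.f 0))) (.f 0))) (.f 0)))) (.f 0))) (.f 0)) (.f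
  0))))) (.f 0))) (.f 0)) (.f 0))) (.n 5 1196 (.n 1 2493 (.n 6 517 (.n 0 2997 (.f 1) (.n 7 111
  (.f 7) (.f 0))) (.f 0)) (.n 6 672 (.n 7 402 (.n 7 111 (.f 7) (.n 2 2493 (.n 6 304 (.n 5 527
  (.n 0 3206 (.n 2 2423 (.f 0) (.n 7 152 (.f 7) (.f 0))) (.f 0)) (.f 0)) (.f 0)) (.n 7 195 (.f
  7) (.n 6 480 (.n 5 856 (.n 3 2308 (.f 0) (.n 4 2070 (.n 0 2608 (.f 1) (.f 0)) (.n 0 3206 (.n 7
  236 (.n 5 326 (.n 2 2569 (.f 0) (.f 5)) (.f 0)) (.f 0)) (.f 0)))) (.f 0)) (.f 0))))) (.f 0))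
  (.f 0))) (.n 1 2378 (.f 0) (.n 7 274 (.n 6 612 (.n 2 2423 (.f 0) (.n 4 2123 (.f 0) (.n 0 2928
  (.f 0) (.f 0)))) (.f 0)) (.f 0))))) (.f 0)) (.f 0)) (.n 6 560 (.n 7 379 (.n 7 136 (.f 7) (.n 5
  1281 (.n 5 893 (.n 7 206 (.f 7) (.n 5 649 (.n 1 3636 (.n 6 439 (.n 4 1483 (.n 2 2685 (.n 4 903
  (.n 2 2232 (.f 0) (.n 5 457 (.n 5 346 (.f 5) (.n 4 580 (.n 2 2489 (.f 0) (.n 1 3199 (.n 3 2451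
  (.f 0) (.n 0 3106 (.f 1) (.f 0))) (.f 0))) (.f 0))) (.f 0))) (.f 0)) (.n 6 324 (.f 6) (.n 4
  715 (.n 4 510 (.f 4) (.n 1 3189 (.n 0 3129 (.n 5 359 (.f 5) (.f 0)) (.f 0)) (.f 0))) (.f 0))))
  (.n 4 2081 (.f 0) (.n 1 3179 (.n 0 3344 (.n 3 2459 (.f 0) (.f 2)) (.f 2)) (.f 2)))) (.f 0))
  (.f 2)) (.f 0))) (.f 0)) (.f 0))) (.f 0)) (.f 0))) (.f 0)) (.f 2)) (.f 2)))) (.f 2)) (.f 2)))
  (.f 2))) (.f 2)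

theorem check8 : check p8 t8 b8 = true := by
  decide +kernel

end P226.Chk
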