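import Vale.Agent.P226.NumGeo
import Vale.Agent.P226.Tree4
import Vale.Agent.P226.Tree5
import Vale.Agent.P226.Tree6
import Vale.Agent.P226.Tree7
import Vale.Agent.P226.Tree8

/-!
# P226, Step 7 : the lines for `k = 4, …, 8`
-/

open Real

namespace P226

/-- `√(π/2)`. -/
noncomputable def rr : ℝ := √(π / 2)

lemma rr_pos : 0 < rr := Real.sqrt_pos.2 (by positivity)

lemma rr_sq : rr ^ 2 = π / 2 := Real.sq_sqrt (by positivity)

lemma rr_lo : 1.25331 ≤ rr := by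
  refine Real.le_sqrt_of_sq_le ?_
  have := Real.pi_gt_d6
  norm_num at this ⊢
  linarith

lemma rr_hi : rr ≤ 1.253315 := by
  refine Real.sqrt_le_iff.2 ⟨by norm_num, ?_⟩
  have := Real.pi_lt_d6
  norm_num at this ⊢
  linarith

lemma sqrt_two_pi : √(2 * π) = 2 * rr := by
  have h : 2 * π = (2 * rr) ^ 2 := by rw [mul_pow, rr_sq]; ring
  rw [h, Real.sqrt_sq (by have := rr_pos; positivity)]

lemma sqrt_two_div_pi : √(2 / π) = 1 / rr := by
  have h : 2 / π = (1 / rr) ^ 2 := by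
    rw [div_pow, rr_sq]
    field_simp
  rw [h, Real.sqrt_sq (by have := rr_pos; positivity)]

/-- the line from `lc`. -/
lemma line_lc {σ p : ℝ} (hσ : 0 ≤ σ) (hlc : σ < √2 * p) :
    ((0 : ℤ) : ℝ) + ((7071 : ℤ) : ℝ) * (10000 * σ) ≤ 100000000 * p := by
  have h2 : √2 ≤ 1.41422 := Real.sqrt_le_iff.2 ⟨by norm_num, by norm_num⟩
  have h0 : 0 < √2 := Real.sqrt_pos.2 (by norm_num)
  have hp : 0 < p := by
    by_contra hcon
    push Not at hcon
    have : √2 * p ≤ 0 := mul_nonpos_of_nonneg_of_nonpos h0.le hcon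
    linarith
  have h3 : √2 * p ≤ 1.41422 * p := mul_le_mul_of_nonneg_right h2 hp.le
  push_cast
  linarith

/-- odd dimensions. -/
lemma line_odd {σ p r J m P c : ℝ} {a b : ℤ} (hσ : 0 ≤ σ) (hr : 1.25331 ≤ r) (hc : 0 < c)
    (hm : 0 < m) (h : σ ≤ J / (2 * r) + c * (m * (1 / r)) * (p - P))
    (ha : (a : ℝ) ≤ 100000000 * (P - J / (2 * c * m)))
    (hb : (b : ℝ) * (c * m) ≤ 10000 * 1.25331) :
    (a : ℝ) + (b : ℝ) * (10000 * σ) ≤ 100000000 * p := by
  have hr0 : 0 < r := by linarith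
  have hcm : 0 < c * m := by positivity
  have h1 : σ * (r / (c * m)) ≤ J / (2 * c * m) + (p - P) := by
    have := mul_le_mul_of_nonneg_right h (by positivity : 0 ≤ r / (c * m))
    have e : (J / (2 * r) + c * (m * (1 / r)) * (p - P)) * (r / (c * m)) =
        J / (2 * c * m) + (p - P) := by
      field_simp
    rwa [e] at this
  have h2 : (b : ℝ) ≤ 10000 * (r / (c * m)) := by
    have h3 : (b : ℝ) * (c * m) ≤ 10000 * r := by linarith
    have h4 : (b : ℝ) ≤ 10000 * r / (c * m) := by rwa [le_div_iff₀ hcm]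
    calc (b : ℝ) ≤ 10000 * r / (c * m) := h4
      _ = 10000 * (r / (c * m)) := by ring
  have h5 : (b : ℝ) * (10000 * σ) ≤ 10000 * (r / (c * m)) * (10000 * σ) :=
    mul_le_mul_of_nonneg_right h2 (by positivity)
  linarith

lemma capJ_three (c : ℝ) : capJ 3 c = (1 - c ^ 2) / (2 * rr) := by
  unfold capJ
  rw [sqrt_two_pi]
  norm_num

lemma capJ_five (c : ℝ) : capJ 5 c = (1 - c ^ 2) ^ 2 / (2 * rr) := by
  unfold capJ
  rw [sqrt_two_pi]
  congr 1
  have : (((5 : ℕ) : ℝ) - 1) / 2 = ((2 : ℕ) : ℝ) := by norm_num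
  rw [this, Real.rpow_natCast]

lemma capJ_seven (c : ℝ) : capJ 7 c = (1 - c ^ 2) ^ 3 / (2 * rr) := by
  unfold capJ
  rw [sqrt_two_pi]
  congr 1
  have : (((7 : ℕ) : ℝ) - 1) / 2 = ((3 : ℕ) : ℝ) := by norm_num
  rw [this, Real.rpow_natCast]

lemma capJ_four (c : ℝ) (hc0 : 0 ≤ c) (hc : c < 1) : capJ 4 c = √(1 - c ^ 2) ^ 3 / (2 * rr) := by
  unfold capJ
  rw [sqrt_two_pi]
  congr 1
  have h0 : 0 ≤ 1 - c ^ 2 := by nlinarith
  have h1 : (((4 : ℕ) : ℝ) - 1) / 2 = (1 / 2 : ℝ) * ((3 : ℕ) : ℝ) := by norm_num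
  rw [h1, Real.rpow_mul h0, Real.rpow_natCast, ← Real.sqrt_eq_rpow]

lemma capM_three : capM 3 = 2 * (1 / rr) := by
  change 2 * √(2 / π) = _
  rw [sqrt_two_div_pi]

lemma capM_four : capM 4 = 3 / 2 * rr := rfl

lemma capM_five : capM 5 = 8 / 3 * (1 / rr) := by
  change 8 / 3 * √(2 / π) = _
  rw [sqrt_two_div_pi]

lemma capM_seven : capM 7 = 16 / 5 * (1 / rr) := by
  change 16 / 5 * √(2 / π) = _
  rw [sqrt_two_div_pi]

lemma capP_three (c : ℝ) : capP 3 c = (1 - c) / 2 := rfl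
lemma capP_four (c : ℝ) : capP 4 c = (arccos c - c * √(1 - c ^ 2)) / π := rfl
lemma capP_five (c : ℝ) : capP 5 c = 1 / 2 - 3 / 4 * c + 1 / 4 * c ^ 3 := rfl
lemma capP_seven (c : ℝ) :
    capP 7 c = 1 / 2 - 15 / 16 * (c - 2 / 3 * c ^ 3 + 1 / 5 * c ^ 5) := rfl

theorem lines4 {σ p : ℝ} (hσ : 0 ≤ σ) (hlc : σ < √2 * p)
    (h : ∀ c : ℝ, 0 ≤ c → c < 1 → σ ≤ capJ 3 c + c * capM 3 * (p - capP 3 c)) :
    ∀ l ∈ Chk.p4.ls, (l.1 : ℝ) + l.2 * (10000 * σ) ≤ 100000000 * p := by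
  have key : ∀ (c : ℝ) (a b : ℤ), 0 < c → c < 1 →
      (a : ℝ) ≤ 100000000 * ((1 - c) / 2 - (1 - c ^ 2) / (2 * c * 2)) →
      (b : ℝ) * (c * 2) ≤ 10000 * 1.25331 →
      (a : ℝ) + b * (10000 * σ) ≤ 100000000 * p := by
    intro c a b hc hc1 ha hb
    have h1 := h c hc.le hc1
    rw [capJ_three, capM_three, capP_three] at h1
    exact line_odd hσ rr_lo hc (by norm_num) h1 ha hb
  simp only [Chk.p4, List.forall_mem_cons, List.not_mem_nil, false_implies, implies_true, and_true]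
  refine ⟨line_lc hσ hlc, ?_, ?_, ?_, ?_, ?_, ?_, ?_⟩
  · exact key 0.1 _ _ (by norm_num) (by norm_num) (by norm_num) (by norm_num)
  · exact key 0.2 _ _ (by norm_num) (by norm_num) (by norm_num) (by norm_num)
  · exact key 0.3 _ _ (by norm_num) (by norm_num) (by norm_num) (by norm_num)
  · exact key 0.4 _ _ (by norm_num) (by norm_num) (by norm_num) (by norm_num)
  · exact key 0.5 _ _ (by norm_num) (by norm_num) (by norm_num) (by norm_num)
  · exact key 0.6 _ _ (by norm_num) (by norm_num) (by norm_num) (by norm_num)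
  · exact key 0.7 _ _ (by norm_num) (by norm_num) (by norm_num) (by norm_num)

theorem lines6 {σ p : ℝ} (hσ : 0 ≤ σ) (hlc : σ < √2 * p)
    (h : ∀ c : ℝ, 0 ≤ c → c < 1 → σ ≤ capJ 5 c + c * capM 5 * (p - capP 5 c)) :
    ∀ l ∈ Chk.p6.ls, (l.1 : ℝ) + l.2 * (10000 * σ) ≤ 100000000 * p := by
  have key : ∀ (c : ℝ) (a b : ℤ), 0 < c → c < 1 →
      (a : ℝ) ≤ 100000000 * ((1 / 2 - 3 / 4 * c + 1 / 4 * c ^ 3) -
        (1 - c ^ 2) ^ 2 / (2 * c * (8 / 3))) →
      (b : ℝ) * (c * (8 / 3)) ≤ 10000 * 1.25331 →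
      (a : ℝ) + b * (10000 * σ) ≤ 100000000 * p := by
    intro c a b hc hc1 ha hb
    have h1 := h c hc.le hc1
    rw [capJ_five, capM_five, capP_five] at h1
    exact line_odd hσ rr_lo hc (by norm_num) h1 ha hb
  simp only [Chk.p6, List.forall_mem_cons, List.not_mem_nil, false_implies, implies_true, and_true]
  refine ⟨line_lc hσ hlc, ?_, ?_, ?_⟩
  · exact key 0.3 _ _ (by norm_num) (by norm_num) (by norm_num) (by norm_num)
  · exact key 0.4 _ _ (by norm_num) (by norm_num) (by norm_num) (by norm_num)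
  · exact key 0.5 _ _ (by norm_num) (by norm_num) (by norm_num) (by norm_num)

theorem lines7 {σ p : ℝ} (hσ : 0 ≤ σ) (hlc : σ < √2 * p)
    (h : ∀ c : ℝ, 0 ≤ c → c < 1 → σ ≤ capJ 7 c + c * capM 7 * (p - capP 7 c)) :
    ∀ l ∈ Chk.p7.ls, (l.1 : ℝ) + l.2 * (10000 * σ) ≤ 100000000 * p := by
  have key : ∀ (c : ℝ) (a b : ℤ), 0 < c → c < 1 →
      (a : ℝ) ≤ 100000000 * ((1 / 2 - 15 / 16 * (c - 2 / 3 * c ^ 3 + 1 / 5 * c ^ 5)) -
        (1 - c ^ 2) ^ 3 / (2 * c * (16 / 5))) →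
      (b : ℝ) * (c * (16 / 5)) ≤ 10000 * 1.25331 →
      (a : ℝ) + b * (10000 * σ) ≤ 100000000 * p := by
    intro c a b hc hc1 ha hb
    have h1 := h c hc.le hc1
    rw [capJ_seven, capM_seven, capP_seven] at h1
    exact line_odd hσ rr_lo hc (by norm_num) h1 ha hb
  simp only [Chk.p7, List.forall_mem_cons, List.not_mem_nil, false_implies, implies_true, and_true]
  refine ⟨line_lc hσ hlc, ?_, ?_, ?_, ?_⟩
  · exact key 0.25 _ _ (by norm_num) (by norm_num) (by norm_num) (by norm_num)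
  · exact key 0.35 _ _ (by norm_num) (by norm_num) (by norm_num) (by norm_num)
  · exact key 0.45 _ _ (by norm_num) (by norm_num) (by norm_num) (by norm_num)
  · exact key 0.55 _ _ (by norm_num) (by norm_num) (by norm_num) (by norm_num)

theorem lines8 {σ p : ℝ} (hσ : 0 ≤ σ) (hlc : σ < √2 * p)
    (h : ∀ c : ℝ, 0 ≤ c → c < 1 → σ ≤ capJ 7 c + c * capM 7 * (p - capP 7 c)) :
    ∀ l ∈ Chk.p8.ls, (l.1 : ℝ) + l.2 * (10000 * σ) ≤ 100000000 * p := by
  have e : Chk.p8.ls = Chk.p7.ls := rfl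
  rw [e]
  exact lines7 hσ hlc h

/-- dimension four, at `c = cos θ`, `θ = q π`. -/
lemma line_four {σ p q c0 c1 s1 : ℝ} {a b : ℤ} (hσ : 0 ≤ σ) (hq0 : 0 < q) (hq1 : q < 1 / 2)
    (hc0 : c0 ≤ cos (q * π)) (hc0' : 0 < c0) (hc1 : cos (q * π) ≤ c1)
    (hs1 : sin (q * π) ≤ s1)
    (h : ∀ c : ℝ, 0 ≤ c → c < 1 → σ ≤ capJ 4 c + c * capM 4 * (p - capP 4 c))
    (ha : (c1 * s1 + 2 * s1 ^ 3 / (3 * c0)) ≤ (q - (a : ℝ) / 100000000) * 3.141592)
    (hqa : 0 ≤ q - (a : ℝ) / 100000000)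
    (hb0 : 0 ≤ b) (hb : (b : ℝ) * (3 / 2 * 1.253315 * c1) ≤ 10000) :
    (a : ℝ) + (b : ℝ) * (10000 * σ) ≤ 100000000 * p := by
  have hπ := Real.pi_pos
  have hπ6 : 3.141592 < π := Real.pi_gt_d6
  have hr0 := rr_pos
  have hr1 := rr_hi
  have hr2 := rr_sq
  set c := cos (q * π) with hc
  set s := sin (q * π) with hs
  have hcpos : 0 < c := lt_of_lt_of_le hc0' hc0
  have hθ0 : 0 < q * π := by positivity
  have hθ1 : q * π ≤ π := by nlinarith
  have hspos : 0 < s := Real.sin_pos_of_pos_of_lt_pi hθ0 (by nlinarith)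
  have hs2 : 1 - c ^ 2 = s ^ 2 := by
    have := Real.sin_sq_add_cos_sq (q * π)
    rw [← hc, ← hs] at this
    linarith
  have hclt : c < 1 := by
    by_contra hcon
    push Not at hcon
    have : 0 < s ^ 2 := by positivity
    nlinarith
  have h1 := h c hcpos.le hclt
  rw [capJ_four c hcpos.le hclt, capM_four, capP_four, hs2, Real.sqrt_sq hspos.le,
    hc, Real.arccos_cos hθ0.le hθ1, ← hc] at h1
  -- the main inequality
  have h2 : σ / (3 / 2 * rr * c) ≤ p - q + (c * s + 2 * s ^ 3 / (3 * c)) / π := by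
    have h3 := div_le_div_of_nonneg_right h1 (by positivity : 0 ≤ 3 / 2 * rr * c)
    have e : (s ^ 3 / (2 * rr) + c * (3 / 2 * rr) * (p - (q * π - c * s) / π)) /
        (3 / 2 * rr * c) = p - q + (c * s + 2 * s ^ 3 / (3 * c)) / π := by
      have hrr : π = 2 * rr ^ 2 := by linarith
      rw [hrr]
      field_simp
      ring
    rwa [e] at h3
  have h4 : c * s + 2 * s ^ 3 / (3 * c) ≤ c1 * s1 + 2 * s1 ^ 3 / (3 * c0) := by
    have : 0 < s1 := lt_of_lt_of_le hspos hs1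
    have : 0 < c1 := lt_of_lt_of_le hcpos hc1
    gcongr
  have h5 : (c * s + 2 * s ^ 3 / (3 * c)) / π ≤ q - (a : ℝ) / 100000000 := by
    rw [div_le_iff₀ hπ]
    calc c * s + 2 * s ^ 3 / (3 * c) ≤ (q - (a : ℝ) / 100000000) * 3.141592 := h4.trans ha
      _ ≤ (q - (a : ℝ) / 100000000) * π := by gcongr
  have h6 : (b : ℝ) ≤ 10000 * (1 / (3 / 2 * rr * c)) := by
    rw [mul_one_div, le_div_iff₀ (by positivity)]
    have : (0 : ℝ) ≤ b := by exact_mod_cast hb0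
    calc (b : ℝ) * (3 / 2 * rr * c) ≤ b * (3 / 2 * 1.253315 * c1) := by gcongr
      _ ≤ 10000 := hb
  have h7 : (b : ℝ) * (10000 * σ) ≤ 10000 * (1 / (3 / 2 * rr * c)) * (10000 * σ) :=
    mul_le_mul_of_nonneg_right h6 (by positivity)
  have h8 : 10000 * (1 / (3 / 2 * rr * c)) * (10000 * σ) =
      100000000 * (σ / (3 / 2 * rr * c)) := by ring
  rw [h8] at h7
  linarith

lemma sqrt2_bounds : 1.4142135 ≤ √2 ∧ √2 ≤ 1.4142136 :=
  ⟨Real.le_sqrt_of_sq_le (by norm_num), Real.sqrt_le_iff.2 ⟨by norm_num, by norm_num⟩⟩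

lemma sqrt3_bounds : 1.7320508 ≤ √3 ∧ √3 ≤ 1.7320509 :=
  ⟨Real.le_sqrt_of_sq_le (by norm_num), Real.sqrt_le_iff.2 ⟨by norm_num, by norm_num⟩⟩

lemma sqrt5_bounds : 2.2360679 ≤ √5 ∧ √5 ≤ 2.2360680 :=
  ⟨Real.le_sqrt_of_sq_le (by norm_num), Real.sqrt_le_iff.2 ⟨by norm_num, by norm_num⟩⟩

theorem lines5 {σ p : ℝ} (hσ : 0 ≤ σ) (hlc : σ < √2 * p)
    (h : ∀ c : ℝ, 0 ≤ c → c < 1 → σ ≤ capJ 4 c + c * capM 4 * (p - capP 4 c)) :
    ∀ l ∈ Chk.p5.ls, (l.1 : ℝ) + l.2 * (10000 * σ) ≤ 100000000 * p := by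
  obtain ⟨l2, u2⟩ := sqrt2_bounds
  obtain ⟨l3, u3⟩ := sqrt3_bounds
  obtain ⟨l5, u5⟩ := sqrt5_bounds
  simp only [Chk.p5, List.forall_mem_cons, List.not_mem_nil, false_implies, implies_true, and_true]
  refine ⟨line_lc hσ hlc, ?_, ?_, ?_, ?_⟩
  · -- 5π/12
    have hc : cos (5 / 12 * π) = √2 * (√3 - 1) / 4 := by
      have e : 5 / 12 * π = π / 4 + π / 6 := by ring
      rw [e, Real.cos_add, Real.cos_pi_div_four, Real.cos_pi_div_six, Real.sin_pi_div_four,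
        Real.sin_pi_div_six]
      ring
    have hs : sin (5 / 12 * π) = √2 * (√3 + 1) / 4 := by
      have e : 5 / 12 * π = π / 4 + π / 6 := by ring
      rw [e, Real.sin_add, Real.cos_pi_div_four, Real.cos_pi_div_six, Real.sin_pi_div_four,
        Real.sin_pi_div_six]
      ring
    refine line_four (q := 5 / 12) (c0 := 0.258819) (c1 := 0.2588191) (s1 := 0.9659259)
      hσ (by norm_num) (by norm_num) ?_ (by norm_num) ?_ ?_ h (by norm_num) (by norm_num)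
      (by norm_num) (by norm_num)
    · rw [hc]; nlinarith
    · rw [hc]; nlinarith
    · rw [hs]; nlinarith
  · -- 2π/5
    have hc : cos (2 / 5 * π) = (√5 - 1) / 4 := by
      have e : 2 / 5 * π = 2 * (π / 5) := by ring
      rw [e, Real.cos_two_mul, Real.cos_pi_div_five]
      have : √5 ^ 2 = 5 := Real.sq_sqrt (by norm_num)
      linear_combination this / 8
    have hs : sin (2 / 5 * π) ≤ 0.9510566 := by
      have h1 := Real.sin_sq_add_cos_sq (2 / 5 * π)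
      rw [hc] at h1
      refine le_of_sq_le_sq ?_ (by norm_num)
      nlinarith
    refine line_four (q := 2 / 5) (c0 := 0.3090169) (c1 := 0.309017) (s1 := 0.9510566)
      hσ (by norm_num) (by norm_num) ?_ (by norm_num) ?_ hs h (by norm_num) (by norm_num)
      (by norm_num) (by norm_num)
    · rw [hc]; linarith
    · rw [hc]; linarith
  · -- 3π/8
    have hc : cos (3 / 8 * π) = √(2 - √2) / 2 := by
      have e : 3 / 8 * π = π / 2 - π / 8 := by ring
      rw [e, Real.cos_pi_div_two_sub, Real.sin_pi_div_eight]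
    have hs : sin (3 / 8 * π) = √(2 + √2) / 2 := by
      have e : 3 / 8 * π = π / 2 - π / 8 := by ring
      rw [e, Real.sin_pi_div_two_sub, Real.cos_pi_div_eight]
    have h1 : 0.7653668 ≤ √(2 - √2) := Real.le_sqrt_of_sq_le (by norm_num; linarith)
    have h2 : √(2 - √2) ≤ 0.765367 := Real.sqrt_le_iff.2 ⟨by norm_num, by norm_num; linarith⟩
    have h3 : √(2 + √2) ≤ 1.8477592 := Real.sqrt_le_iff.2 ⟨by norm_num, by norm_num; linarith⟩
    refine line_four (q := 3 / 8) (c0 := 0.3826834) (c1 := 0.3826835) (s1 := 0.9238796)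
      hσ (by norm_num) (by norm_num) ?_ (by norm_num) ?_ ?_ h (by norm_num) (by norm_num)
      (by norm_num) (by norm_num)
    · rw [hc]; linarith
    · rw [hc]; linarith
    · rw [hs]; linarith
  · -- π/3
    have hc : cos (1 / 3 * π) = 1 / 2 := by
      have e : 1 / 3 * π = π / 3 := by ring
      rw [e, Real.cos_pi_div_three]
    have hs : sin (1 / 3 * π) = √3 / 2 := by
      have e : 1 / 3 * π = π / 3 := by ring
      rw [e, Real.sin_pi_div_three]
    refine line_four (q := 1 / 3) (c0 := 0.5) (c1 := 0.5) (s1 := 0.8660255)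
      hσ (by norm_num) (by norm_num) ?_ (by norm_num) ?_ ?_ h (by norm_num) (by norm_num)
      (by norm_num) (by norm_num)
    · rw [hc]; norm_num
    · rw [hc]; norm_num
    · rw [hs]; linarith

end P226
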