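import Vale.Agent.P226.Chk

/-! # P226, Step 7 : certificate for class 10 -/

set_option maxRecDepth 100000

namespace P226.Chk

/-- parameters for class 10. -/
def p10 : Par := ⟨2210, [(0, 7071), (-88922415, 33333), (-39561312, 20000), (-28114123, 16666), (-20413340, 14285), (-15027905, 12500)], 1, 1⟩

/-- initial box for class 10. -/
def b10 : Bx := ⟨[(0, 3990), (0, 3990), (0, 3990), (0, 3990), (0, 3990), (0, 3990), (0, 3990), (0, 3990), (0, 3990), (0, 3990)], 0, 14143⟩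

/-- certificate tree for class 10. -/
def t10 : T :=
  .n 9 1473 (.n 8 1595 (.n 7 1779 (.n 6 2025 (.n 5 2393 (.n 0 1289 (.f 1) (.n 4 2823 (.n 1 859
  (.f 1) (.n 3 3191 (.x 9571 (.n 2 1995 (.n 9 656 (.n 8 809 (.n 7 971 (.x 5299 (.n 6 1227 (.n 0
  2534 (.f 1) (.n 5 1442 (.n 1 1628 (.f 1) (.n 8 484 (.n 7 582 (.n 6 736 (.x 3341 (.n 0 3048 (.f
  1) (.n 5 998 (.n 2 552 (.f 1) (.n 9 368 (.x 2568 (.n 1 2172 (.f 1) (.n 0 3207 (.f 1) (.n 8 402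
  (.n 7 501 (.n 6 645 (.n 3 997 (.n 1 3318 (.f 1) (.n 0 3669 (.f 1) (.n 5 613 (.n 9 234 (.x 1659
  (.n 7 339 (.n 1 3534 (.f 1) (.n 6 410 (.n 0 3782 (.f 1) (.n 8 218 (.n 2 973 (.f 1) (.n 5 377
  (.n 7 213 (.n 4 628 (.n 1 3702 (.f 1) (.x 970 (.n 2 1396 (.f 1) (.n 7 111 (.f 7) (.n 6 192 (.n
  4 277 (.n 2 1515 (.f 1) (.f 4)) (.f 0)) (.f 0)))) (.f 0))) (.f 0)) (.f 0)) (.f 0))) (.f 0)))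
  (.f 0))) (.f 0)) (.f 0)) (.f 0)) (.f 0)))) (.x 1343 (.n 9 214 (.n 8 259 (.n 7 331 (.n 6 466
  (.n 5 790 (.n 1 2563 (.f 1) (.n 5 631 (.n 0 3363 (.f 1) (.x 1033 (.n 6 365 (.n 7 264 (.n 9 171
  (.n 8 207 (.n 8 41 (.f 8) (.n 4 1123 (.n 1 3133 (.f 1) (.n 5 403 (.n 0 3603 (.f 1) (.x 539 (.n
  6 225 (.n 4 690 (.n 8 148 (.n 9 45 (.f 9) (.n 7 161 (.n 0 3864 (.n 2 1595 (.f 1) (.n 7 133 (.f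
  7) (.n 5 153 (.f 6) (.f 0)))) (.f 0)) (.f 0))) (.f 0)) (.f 0)) (.f 0)) (.f 0))) (.f 0))) (.f
  0))) (.f 0)) (.f 0)) (.f 0)) (.f 0)) (.f 0))) (.f 0))) (.f 0)) (.f 0)) (.f 0)) (.f 0)) (.f 0))
  (.f 0))) (.f 0)) (.f 0)) (.f 0)))) (.f 0)) (.f 0))) (.f 0))) (.f 0)) (.f 0)) (.f 0)) (.f 0)))
  (.f 0))) (.f 0)) (.f 0)) (.f 0)) (.f 0)) (.f 0)) (.n 9 725 (.x 4122 (.n 8 1103 (.n 2 3651 (.n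
  8 916 (.n 3 1595 (.n 7 760 (.n 9 490 (.n 0 2700 (.f 1) (.n 6 956 (.n 8 531 (.x 3169 (.n 0 2858
  (.f 1) (.n 7 666 (.n 1 2992 (.n 9 384 (.n 3 342 (.f 1) (.x 2340 (.n 1 2185 (.f 1) (.n 6 757
  (.n 5 1300 (.n 1 2320 (.f 1) (.n 8 440 (.n 7 553 (.n 9 53 (.f 9) (.n 5 993 (.n 0 3109 (.f 1)
  (.x 1728 (.n 6 615 (.n 1 2453 (.f 1) (.n 7 468 (.n 9 335 (.n 5 863 (.n 0 3250 (.f 1) (.n 8 380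
  (.n 5 151 (.f 5) (.x 1407 (.n 3 505 (.f 1) (.n 1 2522 (.f 1) (.n 9 296 (.n 6 125 (.f 6) (.x
  1146 (.n 7 110 (.f 7) (.n 4 1328 (.n 0 3414 (.f 1) (.n 5 709 (.n 1 2636 (.f 1) (.n 2 2224 (.f
  1) (.n 6 502 (.n 7 390 (.n 4 1074 (.n 0 3564 (.f 1) (.n 8 294 (.x 846 (.n 8 118 (.f 8) (.n 2
  2425 (.f 1) (.n 5 545 (.n 1 2744 (.f 1) (.n 4 803 (.n 0 3684 (.f 1) (.n 6 368 (.n 2 2598 (.f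
  1) (.n 6 206 (.f 6) (.x 403 (.n 0 3853 (.n 3 1242 (.f 1) (.n 5 221 (.f 5) (.f 0))) (.f 0)) (.f
  0)))) (.f 0))) (.f 0))) (.f 0)))) (.f 0)) (.f 0))) (.f 0)) (.f 0)) (.f 0)))) (.f 0))) (.f 0)))
  (.f 0))) (.f 0)))) (.f 0))) (.f 0))) (.f 0)) (.f 0)) (.f 0))) (.f 0)) (.f 0))) (.f 0))) (.f
  0)) (.f 0))) (.f 0)) (.f 0))) (.f 0))) (.f 0)) (.n 9 362 (.n 5 1202 (.n 6 727 (.x 2535 (.n 9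
  71 (.f 9) (.n 7 500 (.n 5 923 (.x 1989 (.n 8 420 (.n 3 328 (.f 3) (.n 6 636 (.n 5 188 (.f 5)
  (.x 1498 (.n 6 156 (.f 6) (.n 1 3836 (.n 7 129 (.f 7) (.n 5 821 (.n 2 2823 (.n 4 1161 (.n 0
  3297 (.f 1) (.x 1013 (.n 5 641 (.n 6 502 (.n 7 417 (.n 9 304 (.n 8 352 (.n 4 981 (.n 8 121 (.f
  8) (.n 9 102 (.f 9) (.n 0 3386 (.f 1) (.n 4 858 (.x 865 (.n 4 274 (.f 4) (.n 5 585 (.n 3 961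
  (.n 0 3524 (.f 1) (.n 6 440 (.x 718 (.n 7 372 (.n 4 786 (.n 1 3414 (.n 2 2357 (.f 1) (.n 0
  3673 (.f 1) (.n 5 468 (.n 8 284 (.n 4 636 (.n 0 3899 (.n 1 3219 (.f 1) (.n 2 2589 (.f 1) (.n 5
  321 (.f 5) (.x 319 (.n 9 208 (.n 9 156 (.f 9) (.n 4 443 (.f 4) (.f 0))) (.f 0)) (.f 0))))) (.f
  0)) (.f 0)) (.f 0)) (.f 0)))) (.n 8 288 (.n 5 477 (.n 0 3868 (.n 4 652 (.x 541 (.n 5 263 (.f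
  5) (.n 1 3739 (.n 6 221 (.f 6) (.n 4 553 (.x 407 (.n 7 186 (.f 7) (.n 2 2293 (.f 0) (.n 4 397
  (.f 4) (.n 3 648 (.n 3 541 (.f 3) (.n 2 2732 (.f 0) (.f 3))) (.f 0))))) (.f 0)) (.f 0))) (.f
  0))) (.f 0)) (.f 0)) (.f 0)) (.f 0)) (.f 0))) (.f 0)) (.f 0)) (.f 0)) (.f 0))) (.x 372 (.n 6
  341 (.n 8 245 (.n 0 3775 (.n 5 438 (.n 2 2274 (.f 0) (.n 6 221 (.f 6) (.n 4 606 (.n 1 3497 (.n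
  2 2576 (.f 0) (.x 160 (.n 9 172 (.n 9 145 (.f 9) (.n 4 360 (.f 4) (.f 0))) (.f 0)) (.f 0)))
  (.f 0)) (.f 0)))) (.f 0)) (.f 0)) (.f 0)) (.f 0)) (.f 0))) (.f 0))) (.f 0)) (.f 0))))) (.f 0))
  (.f 0)) (.f 0)) (.f 0)) (.f 0)) (.f 0)) (.f 0))) (.f 0)) (.n 4 1172 (.n 8 156 (.f 8) (.x 1036
  (.n 6 510 (.n 5 656 (.n 6 237 (.f 6) (.n 4 883 (.n 9 137 (.f 9) (.x 780 (.n 7 415 (.n 0 3213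
  (.f 1) (.n 5 533 (.n 8 347 (.n 4 723 (.n 4 378 (.f 4) (.x 504 (.n 9 290 (.n 5 314 (.f 5) (.n 3
  1088 (.n 1 3563 (.n 4 605 (.x 348 (.n 0 3750 (.n 6 429 (.n 3 902 (.n 3 547 (.f 3) (.n 8 258
  (.n 7 311 (.x 211 (.n 7 221 (.f 7) (.n 5 438 (.n 2 3266 (.n 0 3551 (.n 0 3409 (.f 1) (.n 3 675
  (.n 1 3321 (.f 1) (.f 3)) (.f 0))) (.f 0)) (.f 5)) (.f 0))) (.f 0)) (.f 0)) (.f 0))) (.f 0))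
  (.f 0)) (.f 0)) (.f 0)) (.f 0)) (.f 0)) (.f 0))) (.f 0)) (.f 0))) (.f 0)) (.f 0)) (.f 0))) (.f
  0)) (.f 0))) (.f 0))) (.f 0)) (.f 0)) (.f 0))) (.f 0))) (.f 0))) (.f 0))) (.f 0))) (.f 0)))
  (.f 0)) (.f 0)) (.f 0)) (.f 0))) (.f 0)) (.f 0)) (.f 0)) (.f 0))) (.f 0))) (.f 0)) (.f 0)) (.f
  0))) (.f 0)) (.f 0)) (.n 1 2992 (.n 7 1176 (.n 9 501 (.x 2916 (.n 8 661 (.n 4 1411 (.n 7 813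
  (.n 0 2578 (.f 1) (.n 8 518 (.n 6 1106 (.n 9 416 (.n 7 693 (.x 2512 (.n 3 2293 (.n 6 748 (.n 7
  512 (.n 9 319 (.n 8 393 (.x 1931 (.n 0 2860 (.f 1) (.n 1 2162 (.f 1) (.n 9 49 (.f 9) (.x 1544
  (.n 5 1159 (.n 6 634 (.n 2 2493 (.n 5 731 (.n 0 3380 (.f 1) (.n 7 273 (.n 6 364 (.x 902 (.n 9
  196 (.n 1 2409 (.f 1) (.n 5 484 (.n 8 207 (.n 0 3557 (.f 1) (.n 4 991 (.n 0 3701 (.f 1) (.n 6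
  252 (.n 6 133 (.f 6) (.x 333 (.n 0 3834 (.n 1 2848 (.f 1) (.n 3 2110 (.f 1) (.n 6 223 (.f 6)
  (.n 4 258 (.f 1) (.f 0))))) (.f 0)) (.f 0))) (.f 0))) (.f 0))) (.f 0)) (.f 0))) (.f 0)) (.f
  0)) (.f 0)) (.f 0))) (.f 0)) (.n 7 376 (.n 5 833 (.n 9 260 (.n 8 305 (.n 6 508 (.n 8 104 (.f
  8) (.x 950 (.n 9 97 (.f 9) (.n 5 636 (.n 5 205 (.f 5) (.x 694 (.n 0 3076 (.f 1) (.n 6 383 (.n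
  4 1086 (.n 6 176 (.f 6) (.n 5 502 (.x 502 (.n 7 309 (.n 7 150 (.f 7) (.n 4 821 (.n 0 3343 (.f
  1) (.n 0 3770 (.n 1 2726 (.f 1) (.n 5 391 (.x 324 (.n 4 603 (.n 8 236 (.n 6 314 (.n 4 339 (.f
  4) (.n 7 249 (.n 9 184 (.x 199 (.n 5 279 (.f 5) (.n 3 1895 (.f 0) (.n 0 3598 (.n 1 2897 (.f 1)
  (.n 2 2799 (.f 1) (.n 6 265 (.f 6) (.x 21 (.n 4 367 (.f 4) (.f 0)) (.f 0))))) (.f 0)))) (.f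
  0)) (.f 0)) (.f 0))) (.f 0)) (.f 0)) (.f 0)) (.f 0)) (.f 0))) (.f 0))) (.f 0))) (.f 0)) (.f
  0)) (.f 0))) (.f 0)) (.f 0))) (.f 0))) (.f 0))) (.f 0))) (.f 0)) (.f 0)) (.f 0)) (.f 0)) (.f
  0))) (.f 0)) (.f 0)) (.f 0))))) (.f 0)) (.f 0)) (.f 0)) (.f 0)) (.f 0)) (.n 6 884 (.n 8 87 (.f
  8) (.x 1699 (.n 7 552 (.n 8 440 (.n 9 75 (.f 9) (.n 6 711 (.n 9 358 (.n 4 249 (.f 4) (.x 1436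
  (.n 0 3284 (.n 1 2539 (.f 1) (.n 5 1044 (.n 0 2783 (.f 1) (.n 7 458 (.n 8 374 (.n 6 610 (.n 1
  2615 (.f 1) (.n 2 2410 (.f 1) (.x 1170 (.n 9 310 (.n 6 175 (.f 6) (.n 5 870 (.x 972 (.n 7 151
  (.f 7) (.n 9 107 (.f 9) (.n 6 529 (.n 5 757 (.n 1 2671 (.f 1) (.x 837 (.n 2 2499 (.f 1) (.n 7
  413 (.n 3 2642 (.n 5 586 (.n 6 433 (.n 0 2920 (.f 1) (.n 8 295 (.x 579 (.n 7 348 (.n 1 2740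
  (.f 1) (.n 5 252 (.f 5) (.n 4 1017 (.n 1 2828 (.f 1) (.n 2 2657 (.f 1) (.n 8 155 (.f 8) (.x
  427 (.n 5 503 (.n 4 834 (.n 0 3059 (.f 1) (.n 2 2744 (.f 1) (.n 1 2870 (.f 1) (.n 6 242 (.f 6)
  (.n 6 375 (.n 4 681 (.n 3 2416 (.f 1) (.n 4 369 (.f 4) (.x 232 (.n 9 218 (.n 9 142 (.f 9) (.n
  5 424 (.n 5 312 (.f 5) (.n 8 228 (.n 4 548 (.n 2 2863 (.f 1) (.n 0 3166 (.f 1) (.n 1 2928 (.f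
  1) (.x 128 (.n 7 270 (.n 7 219 (.f 7) (.n 3 2540 (.f 0) (.n 4 454 (.n 4 451 (.f 4) (.n 6 244
  (.f 6) (.f 0))) (.f 0)))) (.f 0)) (.f 0))))) (.f 0)) (.f 0))) (.f 0))) (.f 0)) (.f 0)))) (.f
  0)) (.f 0)))))) (.f 0)) (.f 0)) (.f 0))))) (.f 0)))) (.f 0)) (.f 0)) (.f 0))) (.f 0)) (.f 0))
  (.n 8 320 (.n 8 155 (.f 8) (.n 5 604 (.n 6 444 (.n 5 272 (.f 5) (.x 540 (.n 4 1130 (.n 1 2745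
  (.f 1) (.n 6 236 (.f 6) (.n 0 2889 (.f 1) (.n 4 918 (.n 7 357 (.n 7 200 (.f 7) (.n 5 514 (.x
  407 (.n 9 141 (.f 9) (.n 4 768 (.n 1 2799 (.f 1) (.n 6 400 (.n 4 370 (.f 4) (.n 9 257 (.x 275
  (.n 2 2708 (.f 1) (.n 8 290 (.n 5 315 (.f 5) (.n 4 694 (.x 234 (.n 8 175 (.f 8) (.n 5 474 (.n
  7 330 (.n 0 2937 (.f 1) (.n 4 644 (.n 4 407 (.f 4) (.x 173 (.n 8 266 (.n 9 233 (.n 6 261 (.f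
  6) (.n 6 375 (.n 4 609 (.n 1 2828 (.f 1) (.x 149 (.n 2 2744 (.f 1) (.n 5 454 (.n 7 314 (.n 7
  215 (.f 7) (.n 3 2817 (.n 0 2999 (.f 1) (.n 4 574 (.n 4 434 (.f 4) (.x 102 (.n 6 347 (.n 9 212
  (.n 7 295 (.n 5 342 (.f 5) (.n 8 237 (.n 4 539 (.x 78 (.n 3 2678 (.f 0) (.n 4 457 (.f 4) (.n 5
  411 (.n 9 188 (.n 7 269 (.n 9 156 (.f 9) (.x 42 (.n 6 309 (.n 6 282 (.f 6) (.n 4 488 (.n 0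
  3073 (.n 1 2979 (.f 1) (.n 2 2966 (.f 1) (.f 4))) (.f 4)) (.f 0))) (.f 0)) (.f 0))) (.f 0))
  (.f 0)) (.f 0)))) (.f 0)) (.f 0)) (.f 0))) (.f 0)) (.f 0)) (.f 0)) (.f 0))) (.f 0))) (.n 5 361
  (.f 5) (.n 4 529 (.n 4 472 (.f 4) (.x 42 (.n 6 308 (.n 6 290 (.f 6) (.n 9 157 (.f 9) (.f 0)))
  (.f 0)) (.f 0))) (.f 0))))) (.f 0)) (.f 0))) (.f 0))) (.f 0)) (.f 0))) (.f 0)) (.f 0)) (.f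
  0))) (.f 0))) (.f 0)) (.f 0))) (.f 0)) (.f 0))) (.f 0))) (.f 0)) (.f 0))) (.f 0))) (.f 0)))
  (.f 0)) (.f 0))) (.f 0)) (.f 0))))) (.f 0)) (.f 0))) (.f 0)) (.f 0))) (.f 0))) (.f 0))) (.f
  0))) (.f 0)) (.f 0)))) (.f 0)) (.f 0))) (.f 0)) (.f 0)))) (.f 0)) (.f 0)) (.f 0))) (.f 0)))
  (.n 5 1003 (.n 7 451 (.n 7 163 (.f 7) (.x 971 (.n 6 563 (.n 1 2458 (.f 0) (.n 5 795 (.n 8 358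
  (.n 8 144 (.f 8) (.n 9 305 (.n 9 123 (.f 9) (.x 791 (.n 6 494 (.n 7 402 (.n 5 698 (.n 5 252
  (.f 5) (.n 1 2564 (.f 0) (.n 2 2421 (.f 0) (.x 632 (.n 0 3859 (.n 6 218 (.f 6) (.n 5 609 (.n 4
  1214 (.n 8 331 (.n 3 2642 (.n 4 754 (.n 6 383 (.x 384 (.n 5 477 (.n 7 325 (.n 9 258 (.n 8 287
  (.n 4 347 (.f 4) (.x 294 (.n 0 3730 (.n 2 2534 (.f 0) (.n 9 232 (.n 7 193 (.f 7) (.n 4 665 (.x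
  232 (.n 1 2644 (.f 0) (.n 5 432 (.n 5 289 (.f 5) (.n 8 253 (.n 4 591 (.x 188 (.n 8 163 (.f 8)
  (.n 0 3623 (.n 7 296 (.n 3 2367 (.f 0) (.n 1 2717 (.f 1) (.n 6 348 (.n 6 248 (.f 6) (.n 4 523
  (.n 4 397 (.f 4) (.x 96 (.n 3 2493 (.f 0) (.n 9 193 (.n 9 154 (.f 9) (.n 5 367 (.n 5 344 (.f
  5) (.n 0 3343 (.n 3 2616 (.f 0) (.f 5)) (.f 0))) (.f 0))) (.f 0))) (.f 0))) (.f 0))) (.f 0))))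
  (.f 0)) (.f 0))) (.f 0)) (.f 0)) (.f 0))) (.f 0))) (.f 0)) (.f 0))) (.f 0))) (.f 0)) (.f 0)))
  (.f 0)) (.f 0)) (.f 0)) (.f 0)) (.f 0)) (.f 0)) (.f 0)) (.n 4 843 (.n 6 405 (.x 437 (.n 6 275
  (.f 6) (.n 5 474 (.n 5 333 (.f 5) (.x 231 (.n 9 222 (.n 4 631 (.n 9 163 (.f 9) (.n 8 253 (.n 0
  3620 (.n 4 453 (.f 4) (.x 69 (.n 7 236 (.f 7) (.f 0)) (.f 0))) (.f 0)) (.f 0))) (.f 0)) (.f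
  0)) (.f 0))) (.f 0))) (.f 0)) (.f 0)) (.f 0))) (.f 0)) (.f 0)) (.f 0))) (.f 0)) (.f 0))))) (.f
  0)) (.f 0)) (.f 0)) (.f 0))) (.f 0))) (.f 0)) (.f 0))) (.f 0)) (.f 0))) (.f 0)) (.f 0))) (.f
  0))) (.f 0)) (.f 0))) (.f 0)) (.f 0)) (.f 0))) (.f 0))) (.f 0)) (.f 0)) (.f 0)) (.f 0)) (.f
  0))) (.f 0)) (.n 0 2394 (.f 0) (.n 7 886 (.x 2242 (.n 1 2162 (.f 0) (.n 8 558 (.n 9 424 (.n 3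
  2293 (.n 6 684 (.n 8 300 (.x 1206 (.n 7 410 (.n 9 231 (.n 9 52 (.f 9) (.x 872 (.n 1 2358 (.f
  0) (.n 6 499 (.n 7 332 (.n 7 107 (.f 7) (.x 630 (.n 1 2508 (.f 0) (.n 5 846 (.n 8 235 (.n 8
  104 (.f 8) (.n 6 378 (.n 2 2285 (.f 0) (.n 7 245 (.x 396 (.n 5 573 (.n 9 176 (.n 9 101 (.f 9)
  (.n 6 290 (.n 6 178 (.f 6) (.n 3 2018 (.f 0) (.n 0 3282 (.x 84 (.n 5 271 (.n 4 2075 (.f 0) (.n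
  2 2785 (.f 0) (.f 0))) (.f 0)) (.f 0)) (.f 0)))) (.f 0))) (.f 0)) (.f 0)) (.f 0)) (.f 0))) (.f
  0))) (.f 0)) (.f 0))) (.f 0))) (.f 0)) (.f 0))) (.f 0))) (.f 0)) (.f 0)) (.f 0)) (.f 0)) (.f
  0)) (.n 7 681 (.n 6 1650 (.x 1862 (.n 9 67 (.f 9) (.n 8 452 (.x 1488 (.n 9 364 (.n 5 1230 (.n
  6 1050 (.n 4 2117 (.n 7 420 (.n 6 641 (.n 9 267 (.x 983 (.n 8 322 (.n 1 2432 (.f 0) (.n 7 134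
  (.f 7) (.x 710 (.n 1 2555 (.f 0) (.n 6 509 (.n 8 123 (.f 8) (.n 2 2475 (.f 0) (.n 5 858 (.n 7
  327 (.n 8 273 (.x 545 (.n 0 3702 (.n 6 411 (.n 9 223 (.n 9 107 (.f 9) (.n 5 712 (.n 6 186 (.f
  6) (.x 359 (.n 1 2681 (.f 0) (.n 2 2665 (.f 0) (.n 5 485 (.n 6 327 (.n 3 2544 (.f 0) (.x 185
  (.n 7 234 (.n 7 190 (.f 7) (.n 5 325 (.n 5 295 (.f 5) (.n 0 2758 (.f 1) (.f 0))) (.f 0))) (.f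
  0)) (.f 0))) (.f 0)) (.f 0)))) (.f 0))) (.f 0))) (.f 0)) (.f 0)) (.f 2)) (.f 0)) (.f 0)) (.f
  0)) (.f 0)))) (.f 0))) (.f 0)))) (.f 0)) (.f 0)) (.f 0)) (.f 0)) (.f 0)) (.n 3 2862 (.n 0 3695
  (.n 7 605 (.n 1 2642 (.n 6 445 (.n 9 203 (.n 8 241 (.x 686 (.n 7 304 (.n 7 140 (.f 7) (.n 1
  2467 (.f 0) (.n 5 659 (.x 411 (.n 2 2424 (.f 0) (.n 8 125 (.f 8) (.n 6 333 (.n 9 104 (.f 9)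
  (.n 7 251 (.n 1 2522 (.f 0) (.n 5 475 (.n 3 2410 (.f 0) (.n 5 247 (.f 5) (.n 2 2547 (.f 0) (.x
  172 (.n 4 2350 (.f 0) (.n 0 3182 (.n 3 2596 (.f 0) (.n 8 156 (.f 8) (.f 0))) (.f 2))) (.f
  0))))) (.f 0))) (.f 0))) (.f 0)))) (.f 0)) (.f 0)))) (.f 0)) (.f 0)) (.f 0)) (.f 0)) (.f 0))
  (.n 6 808 (.n 8 380 (.n 7 505 (.x 1212 (.n 9 310 (.n 7 140 (.f 7) (.x 959 (.n 0 3484 (.n 8 120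
  (.f 8) (.n 2 2432 (.f 0) (.n 6 663 (.n 9 105 (.f 9) (.n 4 2703 (.n 7 404 (.x 729 (.n 6 558 (.n
  8 328 (.n 9 279 (.n 2 2923 (.n 3 2577 (.n 5 642 (.n 6 364 (.x 414 (.n 8 240 (.n 7 284 (.n 6
  198 (.f 6) (.x 289 (.n 5 546 (.n 9 212 (.n 2 2525 (.f 0) (.n 0 3302 (.n 3 2384 (.f 0) (.n 5
  465 (.n 6 326 (.n 5 258 (.f 5) (.x 172 (.n 4 2265 (.f 0) (.n 9 181 (.n 3 2434 (.f 0) (.n 7 177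
  (.f 7) (.n 0 3123 (.n 4 2427 (.f 0) (.n 3 2506 (.f 0) (.n 5 363 (.x 90 (.n 7 236 (.n 1 2851
  (.n 2 2685 (.f 0) (.n 0 2890 (.n 6 241 (.n 6 233 (.f 6) (.n 8 127 (.f 9) (.f 0))) (.f 0)) (.f
  2))) (.f 2)) (.f 0)) (.f 0)) (.f 0)))) (.f 2)))) (.f 0))) (.f 0))) (.f 0)) (.f 0))) (.f 2)))
  (.f 0)) (.f 0)) (.f 0))) (.f 0)) (.f 0)) (.f 0)) (.f 0)) (.f 0)) (.n 0 3211 (.n 5 910 (.n 6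
  455 (.x 560 (.n 6 218 (.f 6) (.x 409 (.n 3 2791 (.n 2 2837 (.n 5 750 (.n 7 343 (.n 8 282 (.n 7
  183 (.f 7) (.n 1 2910 (.n 8 152 (.f 8) (.n 5 635 (.n 0 3092 (.n 6 391 (.x 308 (.n 9 239 (.n 2
  2625 (.f 0) (.n 9 129 (.f 9) (.n 7 306 (.n 4 2243 (.f 0) (.n 1 2844 (.n 0 2994 (.n 5 532 (.n 2
  2792 (.n 5 279 (.f 5) (.x 204 (.n 4 2384 (.f 0) (.n 3 2701 (.n 6 322 (.n 8 232 (.n 5 435 (.n 4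
  2505 (.f 0) (.n 2 2701 (.x 68 (.n 3 2655 (.f 0) (.n 1 2684 (.f 0) (.f 2))) (.f 0)) (.f 2)))
  (.f 0)) (.f 0)) (.f 0)) (.f 2))) (.f 0))) (.f 2)) (.f 0)) (.f 2)) (.f 2))) (.f 0)))) (.f 0))
  (.f 0)) (.f 0)) (.f 2)) (.f 0))) (.f 2))) (.f 0)) (.f 0)) (.f 0)) (.f 2)) (.f 2)) (.f 0))) (.f
  0)) (.f 0)) (.f 0)) (.f 2))) (.f 2)) (.f 0)) (.f 0)) (.f 0)) (.f 0)) (.f 0)) (.f 2))) (.f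
  0)))) (.f 2)) (.f 0))) (.f 0)) (.f 0)) (.f 0)) (.f 0)) (.f 0))) (.f 0)) (.f 2)) (.f 2))) (.f
  0)) (.n 1 2604 (.f 0) (.x 709 (.n 0 3413 (.n 6 846 (.n 9 222 (.n 7 396 (.n 2 2598 (.f 0) (.n 4
  2128 (.f 0) (.n 2 2743 (.n 8 173 (.n 8 134 (.f 8) (.x 108 (.n 6 243 (.n 3 2673 (.f 0) (.f 2))
  (.f 0)) (.f 0))) (.f 0)) (.f 2)))) (.f 0)) (.f 0)) (.f 0)) (.f 2)) (.f 0)))) (.f 0)) (.f 0))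
  (.f 0))) (.f 0)) (.f 2)) (.f 0))) (.f 0)) (.f 0))) (.f 0)) (.f 0)))) (.f 0)) (.f 0)) (.f 0))
  (.f 0)) (.n 7 903 (.n 9 440 (.x 2599 (.n 8 582 (.n 6 1432 (.n 1 3790 (.n 5 1950 (.n 9 73 (.f
  9) (.x 2119 (.n 7 768 (.n 2 3409 (.n 4 2484 (.n 6 1138 (.n 7 655 (.n 8 519 (.n 3 2393 (.n 6
  580 (.n 5 1199 (.n 9 304 (.x 1335 (.n 8 354 (.n 7 432 (.n 6 165 (.f 6) (.n 5 928 (.x 1047 (.n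
  7 144 (.f 7) (.n 5 799 (.n 8 119 (.f 8) (.n 6 522 (.n 9 102 (.f 9) (.x 902 (.n 2 2702 (.n 5
  516 (.n 7 321 (.n 6 386 (.x 610 (.n 9 249 (.n 8 280 (.n 1 3630 (.n 0 3782 (.n 5 228 (.f 5) (.n
  4 794 (.n 0 3258 (.f 1) (.x 309 (.n 2 2277 (.f 0) (.n 5 405 (.n 4 611 (.n 4 347 (.f 4) (.n 9
  185 (.n 8 213 (.n 7 250 (.n 7 184 (.f 7) (.n 3 2049 (.f 0) (.x 142 (.n 2 2488 (.f 0) (.n 5 325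
  (.f 5) (.n 4 416 (.f 4) (.f 0)))) (.f 0)))) (.f 0)) (.f 0)) (.f 0))) (.f 0)) (.f 0))) (.f 0)))
  (.f 0))) (.f 0)) (.f 0)) (.f 0)) (.f 0)) (.f 0)) (.f 0)) (.f 0)) (.f 0)) (.n 5 618 (.n 1 3568
  (.n 7 343 (.n 6 418 (.n 6 237 (.f 6) (.x 485 (.n 7 205 (.f 7) (.n 4 800 (.n 5 480 (.n 5 303
  (.f 5) (.x 294 (.n 0 3621 (.n 4 597 (.n 9 222 (.n 9 148 (.f 9) (.n 3 2012 (.f 0) (.n 5 395 (.x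
  154 (.n 8 253 (.n 4 433 (.f 4) (.n 2 2854 (.f 0) (.f 0))) (.f 0)) (.f 0)) (.f 0)))) (.f 0))
  (.f 0)) (.f 0)) (.f 0))) (.f 0)) (.f 0))) (.f 0))) (.f 0)) (.f 0)) (.f 2)) (.f 0))) (.f 0)))
  (.f 0))) (.f 0))) (.f 0)) (.f 0))) (.f 0)) (.f 0)) (.f 0)) (.f 0)) (.f 0)) (.f 0)) (.n 6 678
  (.n 5 1372 (.n 1 3556 (.n 9 326 (.n 7 475 (.x 1465 (.n 8 382 (.n 7 159 (.f 7) (.x 1115 (.n 8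
  143 (.f 8) (.n 5 980 (.n 6 566 (.n 9 120 (.f 9) (.n 2 3220 (.n 5 777 (.n 0 3805 (.n 7 417 (.x
  942 (.n 5 258 (.f 5) (.x 746 (.n 1 3443 (.n 3 3055 (.n 6 509 (.n 6 217 (.f 6) (.n 5 689 (.n 4
  2141 (.n 8 352 (.n 4 1199 (.n 2 2806 (.x 608 (.n 9 300 (.n 5 635 (.n 4 728 (.n 4 336 (.f 4)
  (.x 533 (.n 1 3217 (.n 2 2599 (.x 220 (.n 5 423 (.n 7 289 (.n 9 215 (.n 0 3504 (.n 4 498 (.n 0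
  3322 (.f 1) (.n 2 2544 (.f 0) (.n 6 279 (.x 72 (.n 6 259 (.f 6) (.n 8 169 (.f 8) (.f 0))) (.f
  0)) (.f 0)))) (.f 0)) (.f 0)) (.f 0)) (.f 0)) (.f 0)) (.f 0)) (.n 0 3660 (.n 6 455 (.n 7 373
  (.n 7 199 (.f 7) (.x 434 (.n 5 565 (.n 8 321 (.n 8 167 (.f 8) (.n 5 296 (.f 5) (.n 9 273 (.x
  367 (.n 9 142 (.f 9) (.n 6 418 (.n 6 247 (.f 6) (.n 5 514 (.x 316 (.n 4 384 (.f 4) (.n 7 351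
  (.x 277 (.n 8 302 (.n 3 2599 (.x 123 (.n 4 539 (.n 5 412 (.n 9 212 (.n 6 340 (.n 8 247 (.n 7
  289 (.n 0 3423 (.n 0 3192 (.f 1) (.n 2 2700 (.f 0) (.n 3 2509 (.f 0) (.x 56 (.n 4 455 (.n 1
  3001 (.n 4 452 (.f 4) (.f 0)) (.f 4)) (.f 0)) (.f 0))))) (.f 0)) (.f 0)) (.f 0)) (.f 0)) (.f
  0)) (.f 0)) (.f 0)) (.f 0)) (.n 0 3515 (.n 2 2640 (.f 0) (.x 221 (.n 9 248 (.n 5 475 (.n 6 394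
  (.n 7 330 (.n 0 3064 (.f 1) (.n 5 326 (.f 5) (.n 4 648 (.n 8 274 (.n 7 217 (.f 7) (.x 176 (.n
  2 2670 (.f 0) (.n 4 420 (.f 4) (.n 9 226 (.x 143 (.n 6 370 (.n 6 268 (.f 6) (.n 4 586 (.n 2
  2703 (.f 0) (.n 5 447 (.n 7 310 (.x 120 (.n 8 257 (.n 8 182 (.f 8) (.n 3 2649 (.f 0) (.n 0
  3417 (.n 4 530 (.x 83 (.n 4 451 (.f 4) (.n 5 396 (.n 9 193 (.n 6 331 (.n 5 355 (.f 5) (.n 7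
  254 (.x 34 (.n 3 2735 (.f 0) (.n 8 207 (.n 4 506 (.f 4) (.f 0)) (.f 0))) (.f 0)) (.f 0))) (.f
  0)) (.f 0)) (.f 0))) (.f 0)) (.f 0)) (.f 2)))) (.f 0)) (.f 0)) (.f 0)) (.f 0))) (.f 0))) (.f
  0)) (.f 0)) (.f 0)))) (.f 0))) (.f 0)) (.f 0)))) (.f 0)) (.f 0)) (.f 0)) (.f 0)) (.f 0))) (.f
  2))) (.f 0)) (.f 0)) (.f 0))) (.f 0)) (.f 0))) (.f 0))) (.f 0)) (.f 0)))) (.f 0)) (.f 0)) (.f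
  0))) (.f 0)) (.f 0)) (.f 2))) (.n 0 3578 (.n 2 2525 (.f 0) (.n 6 430 (.n 1 3384 (.n 7 357 (.n
  7 213 (.f 7) (.x 360 (.n 5 516 (.n 5 321 (.f 5) (.n 2 2606 (.f 0) (.n 0 3458 (.n 9 248 (.n 8
  293 (.n 8 186 (.f 8) (.x 240 (.n 1 3332 (.n 9 157 (.f 9) (.n 4 601 (.n 4 445 (.f 4) (.n 3 2659
  (.f 0) (.n 0 3246 (.n 3 2690 (.x 5 (.n 6 223 (.f 7) (.f 0)) (.f 0)) (.f 2)) (.f 2)))) (.f 0)))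
  (.f 2)) (.f 0))) (.f 0)) (.f 0)) (.f 2)))) (.f 0)) (.f 0))) (.f 0)) (.f 2)) (.f 0))) (.f 2)))
  (.f 0))) (.n 2 2649 (.f 0) (.x 219 (.n 6 361 (.n 8 249 (.n 1 3276 (.n 0 3504 (.n 5 414 (.n 3
  2627 (.f 0) (.n 7 251 (.n 7 215 (.f 7) (.n 4 840 (.x 60 (.n 9 163 (.n 9 153 (.f 9) (.n 6 236
  (.f 6) (.f 0))) (.f 0)) (.f 0)) (.f 0))) (.f 0))) (.f 0)) (.f 0)) (.f 2)) (.f 0)) (.f 0)) (.f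
  0)))) (.f 0)) (.f 0)) (.f 0)) (.n 0 3604 (.n 1 3338 (.x 597 (.n 7 210 (.f 7) (.n 5 595 (.n 6
  455 (.n 6 254 (.f 6) (.n 4 1025 (.n 4 380 (.f 4) (.x 404 (.n 9 281 (.n 2 3143 (.n 5 319 (.f 5)
  (.n 4 865 (.x 323 (.n 9 151 (.f 9) (.n 5 527 (.n 7 369 (.n 8 308 (.n 1 3268 (.n 8 181 (.f 8)
  (.n 4 734 (.x 253 (.n 6 417 (.n 0 3490 (.n 3 2535 (.f 0) (.n 5 468 (.n 4 638 (.n 9 249 (.x 192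
  (.n 7 334 (.n 4 427 (.f 4) (.n 8 270 (.n 6 376 (.x 153 (.n 1 3221 (.n 2 3090 (.n 7 311 (.n 9
  231 (.n 5 343 (.f 5) (.n 4 592 (.x 122 (.n 3 2639 (.f 0) (.n 0 3360 (.n 3 2971 (.n 7 288 (.n 8
  250 (.n 9 217 (.n 6 276 (.f 6) (.n 4 535 (.x 81 (.n 5 435 (.n 4 457 (.f 4) (.n 8 227 (.n 6 343
  (.n 9 197 (.x 58 (.n 5 414 (.n 7 226 (.f 7) (.n 6 325 (.n 5 395 (.n 3 2868 (.n 3 2726 (.f 0)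
  (.n 5 368 (.f 5) (.n 1 3039 (.n 4 463 (.f 4) (.f 0)) (.f 0)))) (.f 5)) (.f 0)) (.f 0))) (.f
  0)) (.f 0)) (.f 0)) (.f 0)) (.f 0))) (.f 0)) (.f 0)) (.f 0))) (.f 0)) (.f 0)) (.f 0)) (.f 2))
  (.f 2))) (.f 0)) (.f 0))) (.f 0)) (.f 0)) (.f 2)) (.f 2)) (.f 0)) (.f 0)) (.f 0))) (.f 0)) (.f
  0)) (.f 0)) (.f 0)) (.f 0))) (.f 2)) (.f 0)) (.f 0)) (.f 0))) (.f 2)) (.f 0)) (.f 0)) (.f 0)))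
  (.f 0)) (.f 0))) (.f 2)) (.f 0)) (.f 0))) (.f 0))) (.f 0)) (.f 0))) (.f 0)) (.f 2)) (.f 2)))
  (.x 148 (.n 9 191 (.n 6 320 (.n 5 426 (.n 0 3342 (.n 8 180 (.n 3 2576 (.f 0) (.f 0)) (.f 0))
  (.f 0)) (.f 0)) (.f 0)) (.f 0)) (.f 0))) (.f 0)) (.f 2)) (.f 0))) (.f 0)) (.f 2)) (.f 2)) (.f
  0))) (.f 0)) (.f 0)) (.f 2)) (.f 0)) (.f 2))) (.f 0)) (.f 0))) (.f 0))) (.f 0)) (.f 0)) (.f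
  0)) (.f 0)) (.f 2)) (.f 2)) (.f 0))) (.f 0)) (.f 0)) (.f 0)) (.f 2)) (.f 2)) (.f 0)) (.f 0)))
  (.f 2)) (.f 2)) (.f 2)) (.f 0)) (.f 0)) (.f 0)) (.f 0)))) (.f 0)) (.f 2)) (.f 0)) (.f 0)) (.f
  0))) (.f 0)) (.f 2))) (.f 2))) (.f 2)) (.f 2)) (.f 2)) (.f 2)) (.f 2)

theorem check10 : check p10 t10 b10 = true := by
  decide +kernel

end P226.Chk
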