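import Vale.Agent.P226.Chk

/-! # P226, Step 7 : certificate for class 9 -/

set_option maxRecDepth 100000

namespace P226.Chk

/-- parameters for class 9. -/
def p9 : Par := ⟨2210, [(0, 7071), (-88922415, 33333), (-39561312, 20000), (-28114123, 16666), (-20413340, 14285), (-15027905, 12500)], 8, 9⟩

/-- initial box for class 9. -/
def b9 : Bx := ⟨[(0, 3990), (0, 3990), (0, 3990), (0, 3990), (0, 3990), (0, 3990), (0, 3990), (0, 3990), (0, 3990)], 0, 0⟩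

/-- certificate tree for class 9. -/
def t9 : T :=
  .n 8 1595 (.n 7 1779 (.n 0 2026 (.f 1) (.n 6 2025 (.n 5 2393 (.n 1 1535 (.f 1) (.n 4 2823 (.n
  3 3191 (.n 2 736 (.f 1) (.n 2 2363 (.n 8 514 (.n 7 657 (.n 6 981 (.n 0 2418 (.f 1) (.n 6 784
  (.n 1 1912 (.f 1) (.n 7 545 (.n 8 442 (.n 3 1181 (.n 0 3530 (.f 1) (.n 1 2998 (.f 1) (.n 5 689
  (.n 7 363 (.n 6 476 (.n 1 3241 (.f 1) (.n 8 276 (.n 0 3635 (.f 1) (.n 7 57 (.f 7) (.n 4 834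
  (.n 5 538 (.n 2 1111 (.f 1) (.n 5 182 (.f 5) (.n 8 67 (.f 8) (.n 6 356 (.n 4 643 (.n 6 150 (.f
  6) (.n 5 434 (.n 1 3459 (.f 1) (.n 1 3780 (.n 2 1803 (.f 1) (.n 5 312 (.f 5) (.n 3 606 (.n 0
  3777 (.f 1) (.f 0)) (.f 0)))) (.f 0))) (.f 0))) (.f 0)) (.f 0))))) (.f 0)) (.f 0)))) (.f 0)))
  (.f 0)) (.f 0)) (.f 0)))) (.n 8 360 (.n 7 469 (.n 6 675 (.n 8 38 (.f 8) (.n 1 2951 (.n 5 824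
  (.n 2 1781 (.f 1) (.n 0 2973 (.f 1) (.n 6 444 (.n 8 270 (.n 7 331 (.n 3 1490 (.f 1) (.n 1 2167
  (.f 1) (.n 7 123 (.f 7) (.n 5 569 (.n 8 101 (.f 8) (.n 6 379 (.n 2 1870 (.f 1) (.n 5 193 (.f
  5) (.n 0 3786 (.n 4 960 (.f 1) (.n 3 2295 (.f 0) (.n 4 2330 (.f 0) (.n 0 3779 (.f 0) (.f
  0))))) (.f 0)))) (.f 0))) (.f 0))))) (.f 0)) (.f 0)) (.f 0)))) (.f 0)) (.n 5 717 (.n 6 439 (.n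
  8 265 (.n 7 327 (.n 7 117 (.f 7) (.n 1 3718 (.n 5 541 (.n 8 97 (.f 8) (.n 6 359 (.n 7 294 (.n
  0 3830 (.n 2 1490 (.f 1) (.n 6 182 (.f 6) (.n 4 818 (.n 0 3417 (.f 1) (.n 2 1986 (.f 0) (.n 5
  341 (.n 5 291 (.f 5) (.n 3 2180 (.f 0) (.n 5 334 (.f 5) (.n 4 341 (.f 4) (.f 0))))) (.f 0))))
  (.f 0)))) (.f 0)) (.f 0)) (.f 0))) (.f 0)) (.f 0))) (.f 0)) (.f 0)) (.f 0)) (.f 0)))) (.f 0))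
  (.f 0)) (.f 0))) (.f 0)) (.f 0))) (.f 0))) (.f 0)) (.f 0)) (.f 0)) (.n 8 710 (.n 2 3664 (.n 7
  1423 (.n 6 1775 (.n 8 87 (.f 8) (.n 7 1176 (.n 3 1639 (.n 6 779 (.n 0 2938 (.f 1) (.n 8 470
  (.n 5 1089 (.n 7 565 (.n 3 349 (.f 3) (.n 5 255 (.f 5) (.n 6 203 (.f 6) (.n 7 166 (.f 7) (.n 5
  934 (.n 6 690 (.n 0 3083 (.f 1) (.n 8 139 (.f 8) (.n 5 840 (.n 2 3503 (.n 4 1298 (.n 6 608 (.n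
  1 2613 (.f 1) (.n 7 490 (.n 1 3777 (.n 4 1073 (.n 5 714 (.n 8 413 (.n 0 3194 (.f 1) (.n 6 545
  (.n 4 342 (.f 4) (.n 3 994 (.n 1 2881 (.f 1) (.n 3 467 (.f 3) (.n 6 265 (.f 6) (.n 5 644 (.n 5
  327 (.f 5) (.n 4 853 (.n 0 3843 (.n 0 3313 (.f 1) (.n 7 435 (.n 7 215 (.f 7) (.n 4 763 (.n 1
  3032 (.f 1) (.n 8 190 (.f 8) (.n 5 567 (.n 6 484 (.n 8 366 (.n 1 3622 (.n 4 425 (.f 4) (.n 4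
  684 (.n 7 397 (.n 0 3752 (.n 2 2520 (.f 0) (.n 3 571 (.f 3) (.n 8 317 (.n 6 440 (.n 2 3306 (.n
  7 335 (.n 5 487 (.n 3 866 (.n 5 373 (.f 5) (.n 0 3589 (.n 2 2858 (.f 1) (.n 4 552 (.n 1 3091
  (.f 1) (.f 4)) (.f 0))) (.f 0))) (.f 0)) (.f 0)) (.f 0)) (.f 0)) (.f 0)) (.f 0)))) (.f 0)) (.f
  0)) (.f 0))) (.f 0)) (.f 0)) (.f 0)) (.f 0)))) (.f 0))) (.f 0))) (.f 0)) (.f 0))) (.f 0)))))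
  (.n 8 307 (.n 7 365 (.n 6 434 (.n 5 572 (.n 0 3775 (.n 1 2899 (.f 1) (.n 6 268 (.f 6) (.n 4
  814 (.n 1 3505 (.n 5 464 (.n 5 331 (.f 5) (.n 4 610 (.n 2 3151 (.n 8 217 (.n 8 182 (.f 8) (.n
  3 1191 (.n 4 424 (.f 4) (.f 0)) (.f 0))) (.f 0)) (.f 5)) (.f 0))) (.f 0)) (.f 0)) (.f 0))))
  (.f 0)) (.f 0)) (.f 0)) (.f 0)) (.f 0)))) (.f 0))) (.f 0)) (.f 0)) (.f 0)) (.f 0)) (.f 0)))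
  (.f 0)) (.f 0)) (.f 2)) (.f 0)))) (.f 0)) (.f 0)))))) (.f 0)) (.f 0)) (.f 0))) (.f 0)) (.n 2
  3403 (.n 7 991 (.n 1 3714 (.n 8 643 (.n 4 1455 (.n 7 754 (.n 6 1160 (.n 0 2688 (.f 1) (.n 4
  297 (.f 4) (.n 8 574 (.n 5 255 (.f 5) (.n 7 168 (.f 7) (.n 6 1037 (.n 8 139 (.f 8) (.n 3 2415
  (.n 6 609 (.n 5 909 (.n 8 402 (.n 7 476 (.n 0 2948 (.f 1) (.n 0 3877 (.n 1 3038 (.n 5 657 (.n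
  6 469 (.n 7 387 (.n 8 333 (.n 1 2450 (.f 0) (.n 6 218 (.f 6) (.n 4 1152 (.n 5 597 (.n 0 3762
  (.n 1 2612 (.f 1) (.n 4 967 (.n 0 3110 (.f 1) (.n 6 409 (.n 5 517 (.n 7 346 (.n 4 863 (.n 1
  2683 (.f 1) (.n 7 200 (.f 7) (.n 8 300 (.n 5 299 (.f 5) (.n 4 733 (.n 4 374 (.f 4) (.n 2 2507
  (.f 0) (.n 0 3591 (.n 1 2819 (.f 1) (.n 6 272 (.f 6) (.n 3 2033 (.f 0) (.n 4 584 (.n 5 433 (.n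
  0 3256 (.f 1) (.n 8 228 (.n 8 184 (.f 8) (.n 3 2287 (.f 0) (.n 6 322 (.n 4 454 (.n 4 450 (.f
  4) (.n 5 303 (.f 5) (.f 0))) (.f 0)) (.f 0)))) (.f 0))) (.f 0)) (.f 0))))) (.f 0)))) (.f 0)))
  (.f 0)))) (.f 0)) (.f 0)) (.f 0)) (.f 0))) (.f 0))) (.f 0)) (.f 0)) (.f 0)))) (.f 0)) (.f 0))
  (.f 0)) (.f 0)) (.n 5 647 (.n 6 466 (.n 6 282 (.f 6) (.n 4 973 (.n 7 385 (.n 7 230 (.f 7) (.n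
  5 526 (.n 1 3505 (.n 4 748 (.n 4 428 (.f 4) (.n 0 3541 (.n 3 2009 (.f 0) (.n 6 379 (.n 8 274
  (.n 8 192 (.f 8) (.n 4 585 (.n 7 309 (.n 5 420 (.n 2 2827 (.n 2 2761 (.f 0) (.n 6 285 (.f 6)
  (.f 0))) (.f 5)) (.f 0)) (.f 0)) (.f 0))) (.f 0)) (.f 0))) (.f 0))) (.f 0)) (.f 0)) (.f 0)))
  (.f 0)) (.f 0))) (.f 0)) (.f 0))) (.f 0))) (.f 0)) (.f 0)) (.f 0)) (.f 0)) (.n 6 742 (.n 7 565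
  (.n 8 467 (.n 2 3197 (.n 5 1196 (.n 1 3454 (.n 3 3059 (.n 6 258 (.f 6) (.n 5 943 (.n 6 660 (.n
  7 516 (.n 7 212 (.f 7) (.n 8 431 (.n 8 174 (.f 8) (.n 5 863 (.n 0 2828 (.f 1) (.n 0 3864 (.n 6
  591 (.n 7 483 (.n 1 2526 (.f 0) (.n 5 322 (.f 5) (.n 5 804 (.n 1 2990 (.n 5 718 (.n 8 391 (.n
  6 542 (.n 7 453 (.n 4 888 (.n 4 394 (.f 4) (.n 1 2597 (.f 0) (.n 2 2488 (.f 0) (.n 0 3752 (.n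
  5 656 (.n 6 507 (.n 8 367 (.n 7 427 (.n 3 2702 (.n 5 578 (.n 6 459 (.n 8 334 (.n 0 2997 (.f 1)
  (.n 7 393 (.n 7 231 (.f 7) (.n 6 279 (.f 6) (.n 2 2552 (.f 0) (.n 0 3630 (.n 4 743 (.n 5 514
  (.n 1 2663 (.f 1) (.n 6 426 (.n 7 368 (.n 8 315 (.n 8 191 (.f 8) (.n 2 2601 (.f 0) (.n 4 689
  (.n 5 490 (.n 5 344 (.f 5) (.n 0 3079 (.f 1) (.n 0 3549 (.n 4 627 (.n 4 437 (.f 4) (.n 3 2497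
  (.f 0) (.n 8 284 (.n 7 334 (.n 6 393 (.n 4 475 (.f 4) (.n 3 2546 (.f 0) (.n 5 382 (.f 5) (.n 0
  3368 (.n 1 2844 (.f 1) (.n 4 542 (.n 3 2632 (.f 0) (.n 4 517 (.f 4) (.n 6 295 (.f 6) (.f 0))))
  (.f 0))) (.f 0))))) (.f 0)) (.f 0)) (.f 0)))) (.f 0)) (.f 0)))) (.f 0)) (.f 0)))) (.f 0)) (.f
  0)) (.f 0))) (.f 0)) (.f 0)) (.f 0))))) (.f 0))) (.f 0)) (.f 0)) (.f 0)) (.n 5 588 (.n 5 374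
  (.f 5) (.n 8 328 (.n 8 207 (.f 8) (.n 6 455 (.n 6 306 (.f 6) (.n 4 724 (.n 5 535 (.n 4 469 (.f
  4) (.n 7 357 (.n 0 3467 (.n 8 284 (.n 7 251 (.f 7) (.n 4 610 (.n 6 401 (.n 5 486 (.n 7 336 (.n
  0 2949 (.f 1) (.n 4 517 (.f 4) (.n 5 419 (.n 0 3092 (.n 1 2905 (.f 1) (.n 3 2790 (.n 2 2936
  (.f 1) (.n 5 403 (.f 5) (.n 6 317 (.f 6) (.f 0)))) (.f 5))) (.f 5)) (.f 0)))) (.f 0)) (.f 0))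
  (.f 0)) (.f 0))) (.f 0)) (.f 0)) (.f 0))) (.f 0)) (.f 0))) (.f 0))) (.f 0))) (.f 0))) (.f 0))
  (.f 0)) (.f 0)) (.f 0)) (.f 0))))) (.n 2 2714 (.f 0) (.n 0 3210 (.n 5 370 (.n 4 978 (.n 8 216
  (.n 7 257 (.n 3 2556 (.f 0) (.f 5)) (.f 0)) (.f 0)) (.f 0)) (.f 0)) (.f 0)))) (.f 0)) (.f 0))
  (.f 0)) (.f 0)) (.n 5 685 (.n 6 524 (.n 8 383 (.n 0 3702 (.n 4 1210 (.n 7 428 (.n 1 3396 (.n 4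
  423 (.f 4) (.n 2 2547 (.f 0) (.n 1 3340 (.n 6 294 (.f 6) (.n 4 1064 (.n 5 620 (.n 0 3603 (.n 8
  347 (.n 6 488 (.n 8 200 (.f 8) (.n 4 935 (.n 7 241 (.f 7) (.n 5 564 (.n 5 363 (.f 5) (.n 4 816
  (.n 2 2657 (.f 0) (.n 7 400 (.n 2 3117 (.n 6 458 (.n 1 3291 (.n 3 2504 (.f 0) (.n 4 737 (.n 0
  3499 (.n 5 520 (.n 8 317 (.n 4 474 (.f 4) (.n 7 356 (.n 6 422 (.n 3 2597 (.f 0) (.n 4 672 (.n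
  3 2973 (.n 8 296 (.n 1 3239 (.n 5 382 (.f 5) (.n 7 337 (.n 4 647 (.n 2 2713 (.f 0) (.n 0 3421
  (.n 4 499 (.f 4) (.n 8 274 (.n 6 396 (.n 6 312 (.f 6) (.n 5 488 (.n 3 2682 (.f 0) (.n 4 601
  (.n 8 216 (.f 8) (.n 7 304 (.n 5 453 (.n 5 406 (.f 5) (.n 4 550 (.n 3 2748 (.n 1 3041 (.n 0
  2999 (.f 1) (.f 0)) (.f 0)) (.f 4)) (.f 0))) (.f 0)) (.f 0))) (.f 0))) (.f 0))) (.f 0)) (.f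
  0))) (.f 2))) (.f 0)) (.f 0))) (.f 2)) (.f 0)) (.f 2)) (.f 0))) (.f 0)) (.f 0))) (.f 0)) (.f
  0)) (.f 2)) (.f 0))) (.f 2)) (.f 0)) (.f 2)) (.f 0))) (.f 0))) (.f 0))) (.f 0))) (.f 0)) (.f
  0)) (.f 2)) (.f 0)) (.f 0))) (.f 2)))) (.f 2)) (.f 0)) (.f 0)) (.f 2)) (.f 0)) (.f 0)) (.f
  0))) (.f 0)))) (.f 0)) (.f 0)) (.f 0))) (.f 0))) (.f 0))) (.f 0)) (.f 0)) (.f 0))) (.f 2)) (.f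
  2)) (.f 0)) (.f 2)) (.f 0)) (.f 0)) (.f 0)))) (.f 0)))) (.f 0)))) (.f 0)) (.f 0)) (.n 2 3195
  (.n 1 3463 (.n 7 837 (.n 3 2952 (.n 8 506 (.n 7 681 (.n 7 169 (.f 7) (.n 0 2613 (.f 0) (.n 6
  1428 (.n 8 140 (.f 8) (.n 6 1166 (.n 1 2515 (.f 0) (.n 5 2067 (.n 6 958 (.n 7 625 (.n 0 3841
  (.n 3 1941 (.f 0) (.n 1 3332 (.n 8 446 (.n 6 841 (.n 7 568 (.n 2 3104 (.n 3 2446 (.n 5 606 (.n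
  7 297 (.n 6 366 (.n 6 226 (.f 6) (.n 3 2197 (.f 0) (.n 0 3519 (.n 8 256 (.n 1 2708 (.f 0) (.n
  4 1927 (.f 0) (.n 5 471 (.n 5 309 (.f 5) (.n 1 2971 (.n 3 2399 (.f 0) (.n 4 2366 (.f 0) (.n 0
  2844 (.f 0) (.f 0)))) (.f 0))) (.f 0)))) (.f 0)) (.f 0)))) (.f 0)) (.f 0)) (.f 0)) (.n 6 721
  (.n 0 3632 (.n 1 3199 (.n 7 487 (.n 8 391 (.n 6 253 (.f 6) (.n 2 2982 (.n 5 1787 (.n 3 2882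
  (.n 2 2520 (.f 0) (.n 8 172 (.f 8) (.n 6 648 (.n 1 2613 (.f 0) (.n 0 3491 (.n 7 209 (.f 7) (.n
  5 1267 (.n 1 3126 (.n 4 2654 (.n 5 861 (.n 6 513 (.n 7 405 (.n 8 343 (.n 4 2054 (.n 5 397 (.n
  7 284 (.n 6 322 (.n 3 2667 (.f 0) (.n 0 2780 (.f 1) (.f 0))) (.f 0)) (.f 0)) (.f 0)) (.n 1
  2967 (.n 0 3227 (.n 2 2856 (.n 2 2607 (.f 0) (.n 5 678 (.n 6 449 (.n 7 362 (.n 8 313 (.n 3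
  2792 (.n 3 2508 (.f 0) (.n 5 320 (.f 5) (.n 4 2237 (.f 0) (.n 0 3028 (.n 1 2857 (.n 1 2702 (.f
  0) (.n 5 559 (.n 3 2594 (.f 0) (.n 0 2927 (.n 4 2366 (.f 0) (.n 2 2743 (.n 6 349 (.n 2 2673
  (.f 0) (.n 1 2775 (.n 0 2819 (.n 8 247 (.n 4 2520 (.n 5 339 (.f 5) (.f 0)) (.f 2)) (.f 0)) (.f
  2)) (.f 2))) (.f 0)) (.f 2))) (.f 2))) (.f 0))) (.f 2)) (.f 2))))) (.f 2)) (.f 0)) (.f 0)) (.f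
  0)) (.f 0))) (.f 2)) (.f 2)) (.f 2))) (.f 0)) (.f 0)) (.f 0)) (.f 0)) (.f 2)) (.f 2)) (.f 0)))
  (.f 2))) (.f 0)))) (.f 2)) (.f 2)) (.f 2))) (.f 0)) (.f 0)) (.f 2)) (.f 2)) (.f 0))) (.f 2))
  (.f 0)) (.f 0)) (.f 0)) (.f 2))) (.f 2)) (.f 0)) (.f 0)) (.f 2))) (.f 0))) (.f 0)))) (.f 0))
  (.f 0)) (.f 2)) (.f 0)) (.f 2)) (.f 2))) (.f 0)) (.f 2)) (.f 0)) (.f 2))) (.f 0))) (.f 2)) (.f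
  2)) (.f 2)) (.f 0)))) (.f 2)) (.f 2))) (.f 2)) (.f 2))) (.f 2)) (.f 2)

theorem check9 : check p9 t9 b9 = true := by
  decide +kernel

end P226.Chk
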