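import Vale.Agent.P226.NumGeo
import Vale.Agent.P226.Tree4
import Vale.Agent.P226.Tree5
import Vale.Agent.P226.Tree6
import Vale.Agent.P226.Tree7
import Vale.Agent.P226.Tree8
import Vale.Agent.P226.Tree9
import Vale.Agent.P226.Tree10

/-!
# P226, Step 7 : the lines `A + B x ≤ P` used by the certificates: statements.

lines4 .. lines8 : helper2 (file `LinesN.lean`), lines9, lines10 : helper1 (file `LinesI.lean`).

Each line (A, B) comes from one value of c (resp. t):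
 n = 3 (p4.ls): c = .1 .2 .3 .4 .5 .6 .7, A = -(1-c)²/(4c), B = √(π/2)/(2c)
 n = 4 (p5.ls): c = cos θ, θ = 5π/12, 2π/5, 3π/8, π/3,
   A = (θ - sin θ cos θ)/π - 2 sin³θ/(3π cos θ)  (with 2e-5 slack), B = 1/(1.5 √(π/2) cos θ)
 n = 5 (p6.ls): c = .3 .4 .5, A = 1/2 - 3c/4 + c³/4 - 3(1-c²)²/(16c), B = 3 √(π/2)/(8c)
 n = 7 (p7.ls, p8.ls): c = .25 .35 .45 .55, A = 1/2 - 15/16 (c - 2c³/3 + c⁵/5) - 5(1-c²)³/(32c),
   B = 5 √(π/2)/(16c)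
 I (p9.ls, p10.ls): t = .3 .5 .6 .7 .8, A = gtail t - gpdf t / t (2e-5 slack), B = 1/t
 first line (0, 7071) = lc.
-/

namespace P226

/-
theorem lines4 {σ p : ℝ} (hσ : 0 ≤ σ) (hlc : σ < √2 * p)
    (h : ∀ c : ℝ, 0 ≤ c → c < 1 → σ ≤ capJ 3 c + c * capM 3 * (p - capP 3 c)) :
    ∀ l ∈ Chk.p4.ls, (l.1 : ℝ) + l.2 * (10000 * σ) ≤ 100000000 * p

theorem lines5 ... capJ 4 c + c * capM 4 * (p - capP 4 c)) : ∀ l ∈ Chk.p5.ls, ...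
theorem lines6 ... capJ 5 c + c * capM 5 * (p - capP 5 c)) : ∀ l ∈ Chk.p6.ls, ...
theorem lines7 ... capJ 7 c + c * capM 7 * (p - capP 7 c)) : ∀ l ∈ Chk.p7.ls, ...
theorem lines8 ... capJ 7 c + c * capM 7 * (p - capP 7 c)) : ∀ l ∈ Chk.p8.ls, ...

theorem lines9 {σ p : ℝ} (hσ : 0 ≤ σ) (hlc : σ < √2 * p)
    (h : ∀ t : ℝ, σ ≤ gpdf t + t * (p - gtail t)) :
    ∀ l ∈ Chk.p9.ls, (l.1 : ℝ) + l.2 * (10000 * σ) ≤ 100000000 * p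
theorem lines10 ... ∀ l ∈ Chk.p10.ls, ...
-/

end P226
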