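import Vale.Agent.P226.NumFin
import Vale.Agent.P226.LinesSpec
import Vale.Agent.P226.LinesN
import Vale.Agent.P226.LinesI

/-!
# P226, Step 7 : the final numeric contradiction
-/

open Finset Real

namespace P226

open Chk

lemma NumGeo.le3990 {k : ℕ} {σ p : ℕ → ℝ} (h : NumGeo k σ p) {i : ℕ} (hi : i < k) :
    10000 * σ i ≤ 3990 := by
  have h1 := h.capI i hi 0
  have h2 : gpdf 0 ≤ 0.399 := by
    have e : gpdf 0 = 1 / √(2 * π) := by
      unfold gpdf; simp
    have hs : (2.5066 : ℝ) ≤ √(2 * π) := by
      apply Real.le_sqrt_of_sq_le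
      have := Real.pi_gt_d20
      norm_num
      linarith
    rw [e, div_le_iff₀ (by positivity)]
    linarith
  linarith

lemma NumGeo.pos' {k : ℕ} {σ p : ℕ → ℝ} (h : NumGeo k σ p) {i : ℕ} (hi : i < k) :
    0 ≤ 10000 * σ i := by
  have := h.pos i hi
  linarith

/-- the balanced region for `k = 4`. -/
lemma NumGeo.four_balanced {σ p : ℕ → ℝ} (h : NumGeo 4 σ p) (h3 : 1 / 5 ≤ σ 3) : False := by
  have key : ∀ i < 4, 2 * π / 3 * σ i ^ 2 + 1 / 16 ≤ p i := by
    intro i hi
    have hs : 1 / 5 ≤ σ i := h3.trans (h.anti i 3 (by omega) (by norm_num))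
    have hp := const_lc (h.pos i hi).le (h.lc i hi)
    have hp1 : 1414 / 10000 ≤ p i := by linarith
    have hs2 : (√(2 * π)) ^ 2 = 2 * π := Real.sq_sqrt (by positivity)
    have hspos : 0 < √(2 * π) := by positivity
    rcases le_or_gt (p i) (1 / 2) with hle | hgt
    · have h4 := h.capn 3 (Or.inl rfl) (by norm_num) i hi (1 - 2 * p i) (by linarith)
        (by linarith)
      have e1 : capP 3 (1 - 2 * p i) = p i := by
        simp only [capP]; ring
      have e2 : capJ 3 (1 - 2 * p i) = 4 * p i * (1 - p i) / √(2 * π) := by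
        unfold capJ
        have : (((3 : ℕ) : ℝ) - 1) / 2 = 1 := by norm_num
        rw [this, Real.rpow_one]
        ring
      rw [e1, e2, sub_self, mul_zero, add_zero, le_div_iff₀ hspos] at h4
      have h5 : (σ i * √(2 * π)) ^ 2 ≤ (4 * p i * (1 - p i)) ^ 2 := by
        have : 0 ≤ σ i * √(2 * π) := by positivity
        gcongr
      rw [mul_pow, hs2] at h5
      have h6 : 2 * π / 3 * σ i ^ 2 ≤ 16 / 3 * (p i) ^ 2 * (1 - p i) ^ 2 := by nlinarith
      have h7 : 0 ≤ (4 * p i - 1) ^ 2 * (24 * p i - 3 - 16 * p i ^ 2) :=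
        mul_nonneg (sq_nonneg _) (by nlinarith)
      nlinarith
    · have h4 := h.capI i hi 0
      have e1 : gpdf 0 = 1 / √(2 * π) := by
        unfold gpdf; simp
      rw [zero_mul, add_zero, e1, le_div_iff₀ hspos] at h4
      have h5 : (σ i * √(2 * π)) ^ 2 ≤ 1 ^ 2 := by
        have : 0 ≤ σ i * √(2 * π) := by positivity
        gcongr
      rw [mul_pow, hs2] at h5
      nlinarith
  have h1 : ∑ i ∈ range 4, (2 * π / 3 * σ i ^ 2 + 1 / 16) ≤ ∑ i ∈ range 4, p i :=
    Finset.sum_le_sum fun i hi => key i (Finset.mem_range.mp hi)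
  rw [h.psum, Finset.sum_add_distrib, ← Finset.mul_sum] at h1
  have h2 := h.ssum
  have h3' : 2 * π / 3 * (9 / (8 * π)) = 3 / 4 := by field_simp; norm_num
  have h4 : 2 * π / 3 * (9 / (8 * π)) < 2 * π / 3 * ∑ i ∈ range 4, σ i ^ 2 := by
    gcongr
  rw [h3'] at h4
  norm_num at h1
  linarith

/-- no numeric data. -/
theorem NumGeo.false {k : ℕ} {σ p : ℕ → ℝ} (h : NumGeo k σ p) : False := by
  have hk := h.hk
  have hle := fun i (hi : i < k) => h.le3990 hi
  have h0 := fun i (hi : i < k) => h.pos' hi
  rcases Nat.lt_or_ge k 10 with hlt | hge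
  · interval_cases k
    · -- k = 4
      rcases le_or_gt (1 / 5) (σ 3) with h3 | h3
      · exact h.four_balanced h3
      · have D := mkDat h (le_refl 4) (le_refl 4) p4 (by decide) (by decide) (by decide)
          (by simp only [p4]; norm_num) (by decide)
          (fun l hl i hi => lines4 (h.pos i hi).le (h.lc i hi)
            (h.capn 3 (by simp) (by norm_num) i hi) l hl)
        refine check_sound D t4 b4 check4 rfl ?_ (by decide) ?_ ?_
        · have := hle 0 (by norm_num); have := hle 1 (by norm_num); have := hle 2 (by norm_num)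
          have := h0 0 (by norm_num); have := h0 1 (by norm_num); have := h0 2 (by norm_num)
          have := h0 3 (by norm_num)
          simp only [b4, InB]
          norm_num
          refine ⟨⟨?_, ?_⟩, ⟨?_, ?_⟩, ⟨?_, ?_⟩, ⟨?_, ?_⟩⟩ <;> linarith
        · simp [b4]
        · simp [b4]
    · have D := mkDat h (by norm_num) (le_refl 5) p5 (by decide) (by decide) (by decide)
        (by simp only [p5]; norm_num) (by decide)
        (fun l hl i hi => lines5 (h.pos i hi).le (h.lc i hi)
          (h.capn 4 (by simp) (by norm_num) i hi) l hl)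
      refine check_sound D t5 b5 check5 rfl ?_ (by decide) ?_ ?_
      · have := hle 0 (by norm_num); have := hle 1 (by norm_num); have := hle 2 (by norm_num)
        have := hle 3 (by norm_num); have := hle 4 (by norm_num)
        have := h0 0 (by norm_num); have := h0 1 (by norm_num); have := h0 2 (by norm_num)
        have := h0 3 (by norm_num); have := h0 4 (by norm_num)
        simp only [b5, InB]
        norm_num
        refine ⟨⟨?_, ?_⟩, ⟨?_, ?_⟩, ⟨?_, ?_⟩, ⟨?_, ?_⟩, ⟨?_, ?_⟩⟩ <;> linarith
      · simp [b5]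
      · simp [b5]
    · have D := mkDat h (by norm_num) (le_refl 6) p6 (by decide) (by decide) (by decide)
        (by simp only [p6]; norm_num) (by decide)
        (fun l hl i hi => lines6 (h.pos i hi).le (h.lc i hi)
          (h.capn 5 (by simp) (by norm_num) i hi) l hl)
      refine check_sound D t6 b6 check6 rfl ?_ (by decide) ?_ ?_
      · have := hle 0 (by norm_num); have := hle 1 (by norm_num); have := hle 2 (by norm_num)
        have := hle 3 (by norm_num); have := hle 4 (by norm_num); have := hle 5 (by norm_num)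
        have := h0 0 (by norm_num); have := h0 1 (by norm_num); have := h0 2 (by norm_num)
        have := h0 3 (by norm_num); have := h0 4 (by norm_num); have := h0 5 (by norm_num)
        simp only [b6, InB]
        norm_num
        refine ⟨⟨?_, ?_⟩, ⟨?_, ?_⟩, ⟨?_, ?_⟩, ⟨?_, ?_⟩, ⟨?_, ?_⟩, ⟨?_, ?_⟩⟩ <;> linarith
      · simp [b6]
      · simp [b6]
    · have D := mkDat h (by norm_num) (le_refl 7) p7 (by decide) (by decide) (by decide)
        (by simp only [p7]; norm_num) (by decide)
        (fun l hl i hi => lines7 (h.pos i hi).le (h.lc i hi)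
          (h.capn 7 (by simp) (by norm_num) i hi) l hl)
      refine check_sound D t7 b7 check7 rfl ?_ (by decide) ?_ ?_
      · have := hle 0 (by norm_num); have := hle 1 (by norm_num); have := hle 2 (by norm_num)
        have := hle 3 (by norm_num); have := hle 4 (by norm_num); have := hle 5 (by norm_num)
        have := hle 6 (by norm_num)
        have := h0 0 (by norm_num); have := h0 1 (by norm_num); have := h0 2 (by norm_num)
        have := h0 3 (by norm_num); have := h0 4 (by norm_num); have := h0 5 (by norm_num)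
        have := h0 6 (by norm_num)
        simp only [b7, InB]
        norm_num
        refine ⟨⟨?_, ?_⟩, ⟨?_, ?_⟩, ⟨?_, ?_⟩, ⟨?_, ?_⟩, ⟨?_, ?_⟩, ⟨?_, ?_⟩, ⟨?_, ?_⟩⟩ <;> linarith
      · simp [b7]
      · simp [b7]
    · have D := mkDat h (by norm_num) (le_refl 8) p8 (by decide) (by decide) (by decide)
        (by simp only [p8]; norm_num) (by decide)
        (fun l hl i hi => lines8 (h.pos i hi).le (h.lc i hi)
          (h.capn 7 (by simp) (by norm_num) i hi) l hl)
      refine check_sound D t8 b8 check8 rfl ?_ (by decide) ?_ ?_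
      · have := hle 0 (by norm_num); have := hle 1 (by norm_num); have := hle 2 (by norm_num)
        have := hle 3 (by norm_num); have := hle 4 (by norm_num); have := hle 5 (by norm_num)
        have := hle 6 (by norm_num); have := hle 7 (by norm_num)
        have := h0 0 (by norm_num); have := h0 1 (by norm_num); have := h0 2 (by norm_num)
        have := h0 3 (by norm_num); have := h0 4 (by norm_num); have := h0 5 (by norm_num)
        have := h0 6 (by norm_num); have := h0 7 (by norm_num)
        simp only [b8, InB]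
        norm_num
        refine ⟨⟨?_, ?_⟩, ⟨?_, ?_⟩, ⟨?_, ?_⟩, ⟨?_, ?_⟩, ⟨?_, ?_⟩, ⟨?_, ?_⟩, ⟨?_, ?_⟩,
          ⟨?_, ?_⟩⟩ <;> linarith
      · simp [b8]
      · simp [b8]
    · have D := mkDat h (by norm_num) (le_refl 9) p9 (by decide) (by decide) (by decide)
        (by simp only [p9]; norm_num) (by decide)
        (fun l hl i hi => lines9 (h.pos i hi).le (h.lc i hi) (h.capI i hi) l hl)
      refine check_sound D t9 b9 check9 rfl ?_ (by decide) ?_ ?_
      · have := hle 0 (by norm_num); have := hle 1 (by norm_num); have := hle 2 (by norm_num)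
        have := hle 3 (by norm_num); have := hle 4 (by norm_num); have := hle 5 (by norm_num)
        have := hle 6 (by norm_num); have := hle 7 (by norm_num); have := hle 8 (by norm_num)
        have := h0 0 (by norm_num); have := h0 1 (by norm_num); have := h0 2 (by norm_num)
        have := h0 3 (by norm_num); have := h0 4 (by norm_num); have := h0 5 (by norm_num)
        have := h0 6 (by norm_num); have := h0 7 (by norm_num); have := h0 8 (by norm_num)
        simp only [b9, InB]
        norm_num
        refine ⟨⟨?_, ?_⟩, ⟨?_, ?_⟩, ⟨?_, ?_⟩, ⟨?_, ?_⟩, ⟨?_, ?_⟩, ⟨?_, ?_⟩, ⟨?_, ?_⟩,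
          ⟨?_, ?_⟩, ⟨?_, ?_⟩⟩ <;> linarith
      · simp [b9]
      · simp [b9]
  · have hkr : (10 : ℝ) ≤ k := by exact_mod_cast hge
    have D := mkDat h (n := 10) (by norm_num) hge p10 (by decide) (by decide) (by decide)
      (by simp only [p10]; push_cast; linarith) (by decide)
      (fun l hl i hi => lines10 (h.pos i hi).le (h.lc i hi) (h.capI i hi) l hl)
    refine check_sound D t10 b10 check10 rfl ?_ (by decide) ?_ ?_
    · have := hle 0 (by omega); have := hle 1 (by omega); have := hle 2 (by omega)
      have := hle 3 (by omega); have := hle 4 (by omega); have := hle 5 (by omega)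
      have := hle 6 (by omega); have := hle 7 (by omega); have := hle 8 (by omega)
      have := hle 9 (by omega)
      have := h0 0 (by omega); have := h0 1 (by omega); have := h0 2 (by omega)
      have := h0 3 (by omega); have := h0 4 (by omega); have := h0 5 (by omega)
      have := h0 6 (by omega); have := h0 7 (by omega); have := h0 8 (by omega)
      have := h0 9 (by omega)
      simp only [b10, InB]
      norm_num
      refine ⟨⟨?_, ?_⟩, ⟨?_, ?_⟩, ⟨?_, ?_⟩, ⟨?_, ?_⟩, ⟨?_, ?_⟩, ⟨?_, ?_⟩, ⟨?_, ?_⟩,
        ⟨?_, ?_⟩, ⟨?_, ?_⟩, ⟨?_, ?_⟩⟩ <;> linarith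
    · have := D.X0
      simpa [b10] using this
    · have h1 := D.tot
      have h2 : 0 ≤ ∑ i ∈ range 10, 100000000 * p i :=
        Finset.sum_nonneg fun i hi => D.Pn i (Finset.mem_range.mp hi)
      simp only [b10]
      push_cast
      linarith

end P226
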