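import Vale.Agent.P226.Defs

/-!
# P226, Step 7 : the numeric data delivered by a critical configuration

Indices are sorted: `σ 0 ≥ σ 1 ≥ … ≥ σ (k-1)`.
-/

open MeasureTheory ProbabilityTheory Real
open scoped RealInnerProductSpace

namespace P226

/-- everything the numeric step uses. -/
structure NumGeo (k : ℕ) (σ p : ℕ → ℝ) : Prop where
  hk : 4 ≤ k
  pos : ∀ i < k, 0 < σ i
  anti : ∀ i j, i ≤ j → j < k → σ j ≤ σ i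
  psum : ∑ i ∈ Finset.range k, p i = 1
  ssum : 9 / (8 * π) < ∑ i ∈ Finset.range k, σ i ^ 2
  lc : ∀ i < k, σ i < √2 * p i
  capI : ∀ i < k, ∀ t : ℝ, σ i ≤ gpdf t + t * (p i - gtail t)
  capn : ∀ n, (n = 3 ∨ n = 4 ∨ n = 5 ∨ n = 7) → k ≤ n + 1 → ∀ i < k, ∀ c : ℝ, 0 ≤ c → c < 1 →
    σ i ≤ capJ n c + c * capM n * (p i - capP n c)
  planar : ∀ b, 3 ≤ b → b < k → ∃ (y : ℕ → ℝ) (D : ℝ), 0 ≤ D ∧
    (∀ l < b, 0 ≤ y l ∧ y l ≤ σ l ^ 2) ∧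
    ∑ l ∈ Finset.range b, (σ l ^ 2 - y l) ≤ ∑ j ∈ Finset.Ico b k, σ j ^ 2 ∧
    y 2 * min (y 0) (y 1) - (y 2) ^ 2 / 4 ≤ D ^ 2 ∧
    (4 ≤ b → y 0 * min (y 1) (min (y 2) (y 3)) - (y 0) ^ 2 / 9 ≤ D ^ 2) ∧
    6 * π * b * D * ((k : ℝ) / (k - 1) * σ b ^ 2) ≤
      √(2 / π) * ((((b : ℝ) + 1) * σ b) ^ 3 +
        3 / 2 * (((b : ℝ) + 1) * σ b) * ∑ j ∈ Finset.Ico (b + 1) k, σ j ^ 2 +
        3 / 16 * (∑ j ∈ Finset.Ico (b + 1) k, σ j ^ 2) ^ 2 / (((b : ℝ) + 1) * σ b)) ∧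
    4 * π * D * σ b ≤
      (2 * (((b : ℝ) + 1) * σ b) ^ 2 + ∑ j ∈ Finset.Ico (b + 1) k, σ j ^ 2) / √(2 * π)

/-
GLUE (to be proved in Glue.lean, using Crit, cap_I, cap_n, lc, exists_proj, planar_P, planar_FO):

theorem Crit.numGeo {V : Type*} [NormedAddCommGroup V] [InnerProductSpace ℝ V]
    [FiniteDimensional ℝ V] [MeasurableSpace V] [BorelSpace V] {k : ℕ} {z : Fin k → V}
    (hz : Crit z) (hd : 7 ≤ Module.finrank ℝ V) : ∃ σ p : ℕ → ℝ, NumGeo k σ p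
-/

end P226
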