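import Vale.Agent.P226.Sound
import Vale.Agent.P226.NumGeo

/-!
# P226, Step 7 : from the geometric data to the checker's data
-/

open Finset Real

namespace P226

open Chk

/-! ### numerical constants -/

lemma const_M : (Mlo : ℝ) ≤ 100000000 * (9 / (8 * π)) := by
  have h := Real.pi_lt_d20
  rw [← mul_div_assoc, le_div_iff₀ (by positivity)]
  norm_num [Mlo]
  linarith

lemma const_lc {σ p : ℝ} (hσ : 0 ≤ σ) (h : σ < √2 * p) : 7071 / 10000 * σ ≤ p := by
  have h2 : (√2 : ℝ) ^ 2 = 2 := Real.sq_sqrt (by norm_num)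
  have h3 : (√2 : ℝ) ≤ 1.41422 := by
    rw [Real.sqrt_le_left (by norm_num)]; norm_num
  have h4 : 0 < √2 := by positivity
  have hp : 0 ≤ p := by
    by_contra hcon
    push Not at hcon
    nlinarith
  nlinarith

/-- `√(2/π)/(96π) · 1600000 ≤ 4233`. -/
lemma const_P : 1600000 * √(2 / π) ≤ 4233 * (96 * π) := by
  have h1 := Real.pi_gt_d20
  have h2 : √(2 / π) ≤ 0.7978846 := by
    rw [Real.sqrt_le_left (by norm_num), div_le_iff₀ (by positivity)]
    norm_num
    linarith
  nlinarith

/-- `1000000000 ≤ 31750000 · 4π√(2π)`. -/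
lemma const_F : (1000000000 : ℝ) ≤ 31750000 * (4 * π * √(2 * π)) := by
  have h1 := Real.pi_gt_d20
  have h2 : (2.5066 : ℝ) ≤ √(2 * π) := by
    apply Real.le_sqrt_of_sq_le
    norm_num
    linarith
  nlinarith

/-! ### building the data -/

lemma mkDat {k : ℕ} {σ p : ℕ → ℝ} (h : NumGeo k σ p) {n : ℕ} (hn4 : 4 ≤ n) (hnk : n ≤ k)
    (par : Par) (hβ : 0 < par.β) (hkn : 0 ≤ par.kn) (hkd : 0 ≤ par.kd)
    (hκ : ((k : ℝ) - 1) * par.kd ≤ par.kn * k) (hB : ∀ l ∈ par.ls, 0 ≤ l.2)
    (hl : ∀ l ∈ par.ls, ∀ i < k, (l.1 : ℝ) + l.2 * (10000 * σ i) ≤ 100000000 * p i) :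
    Dat par n (fun i => 10000 * σ i) (fun i => 100000000 * p i)
      (10000 * ∑ j ∈ Ico n k, σ j) (100000000 * ∑ j ∈ Ico n k, σ j ^ 2) := by
  have hpos := h.pos
  have hp : ∀ i < k, 7071 / 10000 * σ i ≤ p i := fun i hi => const_lc (hpos i hi).le (h.lc i hi)
  have hpn : ∀ i < k, 0 ≤ p i := fun i hi => by
    have := hp i hi
    have := hpos i hi
    linarith
  have hβ' : (0 : ℝ) < par.β := by exact_mod_cast hβ
  have hkn' : (0 : ℝ) ≤ par.kn := by exact_mod_cast hkn
  have hkd' : (0 : ℝ) ≤ par.kd := by exact_mod_cast hkd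
  have htail : ∀ j ∈ Ico n k, 0 < σ j ∧ σ j ≤ σ (n - 1) ∧ 7071 / 10000 * σ j ≤ p j := by
    intro j hj
    rw [Finset.mem_Ico] at hj
    exact ⟨hpos j hj.2, h.anti (n - 1) j (by omega) hj.2, hp j hj.2⟩
  have hsplit : ∀ f : ℕ → ℝ, ∑ i ∈ range k, f i = ∑ i ∈ range n, f i + ∑ j ∈ Ico n k, f j := by
    intro f
    rw [Finset.range_eq_Ico, Finset.range_eq_Ico, Finset.sum_Ico_consecutive f (Nat.zero_le n) hnk]
  have hkr : (4 : ℝ) ≤ k := by exact_mod_cast h.hk
  refine
    { n4 := hn4
      anti := fun i j hij hj => ?_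
      pos := fun i hi => ?_
      Pn := fun i hi => ?_
      lines := fun l hl' i hi => hl l hl' i (by omega)
      Bnn := hB
      βnn := hβ.le
      kn0 := hkn
      kd0 := hkd
      X0 := ?_
      q0 := ?_
      qX := ?_
      bud := ?_
      m2 := ?_
      tot := ?_
      pl := ?_ }
  · have := h.anti i j hij (by omega)
    linarith
  · have := hpos i (by omega)
    linarith
  · have := hpn i (by omega)
    linarith
  · exact mul_nonneg (by norm_num) (Finset.sum_nonneg fun j hj => (htail j hj).1.le)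
  · exact mul_nonneg (by norm_num) (Finset.sum_nonneg fun j hj => sq_nonneg _)
  · have : ∑ j ∈ Ico n k, σ j ^ 2 ≤ (∑ j ∈ Ico n k, σ j) * σ (n - 1) := by
      rw [Finset.sum_mul]
      refine Finset.sum_le_sum fun j hj => ?_
      obtain ⟨h1, h2, -⟩ := htail j hj
      nlinarith
    nlinarith
  · -- budget
    have e1 : ∑ j ∈ Ico n k, (7071000 - par.β * (10000 * σ (n - 1))) * (10000 * σ j) ≤
        ∑ j ∈ Ico n k, (1000 * (100000000 * p j) - par.β * (10000 * σ j) ^ 2) := by
      refine Finset.sum_le_sum fun j hj => ?_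
      obtain ⟨h1, h2, h3⟩ := htail j hj
      have h4 : (par.β : ℝ) * (10000 * σ j) ^ 2 ≤
          par.β * (10000 * σ (n - 1)) * (10000 * σ j) := by
        have : σ j * σ j ≤ σ (n - 1) * σ j := by nlinarith
        nlinarith
      nlinarith
    rw [← Finset.mul_sum, ← Finset.mul_sum] at e1
    have e2 := hsplit fun i => 1000 * (100000000 * p i) - par.β * (10000 * σ i) ^ 2
    have e3 : ∑ i ∈ range k, (1000 * (100000000 * p i) - par.β * (10000 * σ i) ^ 2) =
        100000000000 - par.β * (100000000 * ∑ i ∈ range k, σ i ^ 2) := by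
      rw [Finset.sum_sub_distrib, ← Finset.mul_sum, ← Finset.mul_sum, h.psum, ← Finset.mul_sum,
        Finset.mul_sum (range k) (fun i => σ i ^ 2)]
      simp_rw [mul_pow]
      norm_num
    have e4 := const_M
    have e5 := h.ssum
    nlinarith
  · have e1 := hsplit fun i => (10000 * σ i) ^ 2
    have e2 : ∑ i ∈ range k, (10000 * σ i) ^ 2 = 100000000 * ∑ i ∈ range k, σ i ^ 2 := by
      rw [Finset.mul_sum]
      exact Finset.sum_congr rfl fun i _ => by ring
    have e3 : ∑ i ∈ Ico n k, (10000 * σ i) ^ 2 = 100000000 * ∑ i ∈ Ico n k, σ i ^ 2 := by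
      rw [Finset.mul_sum]
      exact Finset.sum_congr rfl fun i _ => by ring
    have e4 := const_M
    have e5 := h.ssum
    linarith
  · have e1 := hsplit p
    rw [h.psum] at e1
    have e2 : ∑ j ∈ Ico n k, 7071 / 10000 * σ j ≤ ∑ j ∈ Ico n k, p j :=
      Finset.sum_le_sum fun j hj => (htail j hj).2.2
    rw [← Finset.mul_sum] at e2
    rw [← Finset.mul_sum]
    linarith
  · intro b hb hbn
    obtain ⟨y, D, hD, hy, hs, hB1, hB2, hP, hF⟩ := h.planar b hb (by omega)
    have hσb := hpos b (by omega)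
    have hIco : ∀ m ≤ n, ∀ f : ℕ → ℝ, ∑ j ∈ Ico m k, f j =
        ∑ j ∈ Ico m n, f j + ∑ j ∈ Ico n k, f j := fun m hm f =>
      (Finset.sum_Ico_consecutive f hm hnk).symm
    refine ⟨fun l => 100000000 * y l, 100000000 * D, by positivity, fun l hl => ?_, ?_, ?_, ?_,
      ?_, ?_⟩
    · obtain ⟨h1, h2⟩ := hy l hl
      constructor
      · positivity
      · simp only
        nlinarith
    · have e1 := hIco b (by omega) fun j => σ j ^ 2
      rw [e1] at hs
      have e2 : ∑ l ∈ range b, ((10000 * σ l) ^ 2 - 100000000 * y l) =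
          100000000 * ∑ l ∈ range b, (σ l ^ 2 - y l) := by
        rw [Finset.mul_sum]
        exact Finset.sum_congr rfl fun i _ => by ring
      have e3 : ∑ j ∈ Ico b n, (10000 * σ j) ^ 2 = 100000000 * ∑ j ∈ Ico b n, σ j ^ 2 := by
        rw [Finset.mul_sum]
        exact Finset.sum_congr rfl fun i _ => by ring
      simp only
      rw [e2, e3]
      linarith
    · rw [← mul_min_of_nonneg _ _ (by norm_num : (0 : ℝ) ≤ 100000000)]
      nlinarith
    · intro hb4
      have := hB2 hb4
      rw [← mul_min_of_nonneg _ _ (by norm_num : (0 : ℝ) ≤ 100000000),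
        ← mul_min_of_nonneg _ _ (by norm_num : (0 : ℝ) ≤ 100000000)]
      nlinarith
    · -- (P)
      set S' := ∑ j ∈ Ico (b + 1) k, σ j ^ 2 with hS'
      have e1 := hIco (b + 1) (by omega) fun j => σ j ^ 2
      have e3 : ∑ j ∈ Ico (b + 1) n, (10000 * σ j) ^ 2 + 100000000 * ∑ j ∈ Ico n k, σ j ^ 2 =
          100000000 * S' := by
        rw [hS', e1, mul_add, Finset.mul_sum (Ico (b + 1) n)]
        congr 1
        exact Finset.sum_congr rfl fun i _ => by ring
      rw [e3]
      have hS0 : 0 ≤ S' := Finset.sum_nonneg fun j _ => sq_nonneg _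
      have hb0 : (0 : ℝ) < (b : ℝ) := by
        have : (3 : ℝ) ≤ b := by exact_mod_cast hb
        linarith
      set R : ℝ := 16 * ((b : ℝ) + 1) ^ 4 * σ b ^ 4 + 24 * ((b : ℝ) + 1) ^ 2 * S' * σ b ^ 2 +
        3 * S' ^ 2 with hR
      have hR0 : 0 ≤ R := by positivity
      have hA : 0 < ((b : ℝ) + 1) * σ b := by positivity
      have f1 : ((((b : ℝ) + 1) * σ b) ^ 3 + 3 / 2 * (((b : ℝ) + 1) * σ b) * S' +
          3 / 16 * S' ^ 2 / (((b : ℝ) + 1) * σ b)) * (16 * (((b : ℝ) + 1) * σ b)) = R := by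
        rw [hR]
        field_simp
        ring
      have f2 := mul_le_mul_of_nonneg_right hP
        (by positivity : (0 : ℝ) ≤ 16 * (((b : ℝ) + 1) * σ b))
      rw [mul_assoc (√(2 / π)), f1] at f2
      have hk1 : (0 : ℝ) < (k : ℝ) - 1 := by linarith
      have hk0 : (0 : ℝ) < (k : ℝ) := by linarith
      set W : ℝ := b * ((b : ℝ) + 1) * D * σ b ^ 3 with hW
      have hW0 : 0 ≤ W := by positivity
      have f3 : 96 * π * W * k ≤ √(2 / π) * R * ((k : ℝ) - 1) := by
        have : 6 * π * b * D * ((k : ℝ) / (k - 1) * σ b ^ 2) * (16 * (((b : ℝ) + 1) * σ b)) =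
            96 * π * W * k / ((k : ℝ) - 1) := by
          rw [hW]
          field_simp
          ring
        rw [this, div_le_iff₀ hk1] at f2
        exact f2
      have f4 := const_P
      -- 1600000 kd W ≤ 4233 kn R
      have f5 : 1600000 * par.kd * W ≤ 4233 * par.kn * R := by
        have g1 : 96 * π * k * (1600000 * par.kd * W) ≤ 96 * π * k * (4233 * par.kn * R) := by
          calc 96 * π * k * (1600000 * par.kd * W)
              = 1600000 * par.kd * (96 * π * W * k) := by ring
            _ ≤ 1600000 * par.kd * (√(2 / π) * R * ((k : ℝ) - 1)) := by gcongr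
            _ = (1600000 * √(2 / π)) * (R * (((k : ℝ) - 1) * par.kd)) := by ring
            _ ≤ (4233 * (96 * π)) * (R * (par.kn * k)) := by
                have : 0 ≤ ((k : ℝ) - 1) * par.kd := by positivity
                gcongr
            _ = _ := by ring
        exact le_of_mul_le_mul_left g1 (by positivity)
      have f6 : 160 * ((b : ℝ) + 1) * b * par.kd * (100000000 * D) * (10000 * σ b) ^ 3 =
          10000000000000000 * (1600000 * par.kd * W) := by
        rw [hW]; ring
      have f7 : 4233 * (par.kn : ℝ) * (16 * ((b : ℝ) + 1) ^ 4 * (10000 * σ b) ^ 4 +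
          24 * ((b : ℝ) + 1) ^ 2 * (100000000 * S') * (10000 * σ b) ^ 2 +
          3 * (100000000 * S') ^ 2) = 10000000000000000 * (4233 * par.kn * R) := by
        rw [hR]; ring
      rw [f6, f7]
      linarith
    · -- (FO)
      have e1 := hIco (b + 1) (by omega) fun j => σ j
      have g0 : ∑ j ∈ Ico (b + 1) k, σ j ^ 2 ≤ (∑ j ∈ Ico (b + 1) k, σ j) * σ b := by
        rw [Finset.sum_mul]
        refine Finset.sum_le_sum fun j hj => ?_
        rw [Finset.mem_Ico] at hj
        have h1 := hpos j hj.2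
        have h2 := h.anti b j (by omega) hj.2
        nlinarith
      set H : ℝ := 2 * ((b : ℝ) + 1) ^ 2 * σ b + ∑ j ∈ Ico (b + 1) k, σ j with hH
      have hs2 : 0 < √(2 * π) := by positivity
      have g1 : 4 * π * √(2 * π) * D ≤ H := by
        rw [le_div_iff₀ hs2] at hF
        have : 4 * π * √(2 * π) * D * σ b ≤ H * σ b := by
          rw [hH]
          nlinarith
        exact le_of_mul_le_mul_right this hσb
      have g2 := const_F
      have g3 : 1000000000 * D ≤ 31750000 * H := by
        calc 1000000000 * D ≤ 31750000 * (4 * π * √(2 * π)) * D := by gcongr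
          _ = 31750000 * (4 * π * √(2 * π) * D) := by ring
          _ ≤ 31750000 * H := by gcongr
      have g4 : ∑ j ∈ Ico (b + 1) n, 10000 * σ j + 10000 * ∑ j ∈ Ico n k, σ j =
          10000 * ∑ j ∈ Ico (b + 1) k, σ j := by
        rw [e1, ← Finset.mul_sum]
        ring
      rw [add_assoc, g4]
      linarith

end P226
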