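import Vale.Agent.P226.LC

/-!
# P226, Step 1a : the functional `Φ` and optimal partitions
-/

open MeasureTheory ProbabilityTheory Real
open scoped RealInnerProductSpace

namespace P226

/-- measurable partitions. -/
structure Part {V : Type*} [MeasurableSpace V] {ι : Type*} (A : ι → Set V) : Prop where
  meas : ∀ i, MeasurableSet (A i)
  disj : Pairwise (Function.onFun Disjoint A)
  cover : ⋃ i, A i = Set.univ

section mx

variable {V : Type*} [NormedAddCommGroup V] [InnerProductSpace ℝ V] {ι : Type*} [Fintype ι]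

/-- `max_i ⟪x, w i⟫`. -/
noncomputable def mx (w : ι → V) (x : V) : ℝ := ⨆ i, ⟪x, w i⟫

lemma le_mx (w : ι → V) (x : V) (i : ι) : ⟪x, w i⟫ ≤ mx w x :=
  le_ciSup (f := fun i => ⟪x, w i⟫) (Set.finite_range _).bddAbove i

omit [Fintype ι] in
lemma mx_le [Nonempty ι] {w : ι → V} {x : V} {a : ℝ} (h : ∀ i, ⟪x, w i⟫ ≤ a) : mx w x ≤ a :=
  ciSup_le h

lemma mx_eq {w : ι → V} {x : V} {i : ι} (h : ∀ j, ⟪x, w j⟫ ≤ ⟪x, w i⟫) :
    mx w x = ⟪x, w i⟫ := by
  have : Nonempty ι := ⟨i⟩
  exact le_antisymm (mx_le h) (le_mx w x i)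

lemma mx_sub_le [Nonempty ι] (w w' : ι → V) (x x' : V) :
    mx w x - mx w' x' ≤ ‖x - x'‖ * ∑ i, ‖w i‖ + ‖x'‖ * ∑ i, ‖w i - w' i‖ := by
  rw [sub_le_iff_le_add]
  refine mx_le fun i => ?_
  have h1 : ⟪x, w i⟫ = ⟪x', w' i⟫ + ⟪x - x', w i⟫ + ⟪x', w i - w' i⟫ := by
    rw [inner_sub_left, inner_sub_right]; ring
  have h2 : ⟪x - x', w i⟫ ≤ ‖x - x'‖ * ∑ i, ‖w i‖ := by
    refine (real_inner_le_norm _ _).trans ?_
    gcongr
    exact Finset.single_le_sum (f := fun i => ‖w i‖) (fun j _ => norm_nonneg _)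
      (Finset.mem_univ i)
  have h3 : ⟪x', w i - w' i⟫ ≤ ‖x'‖ * ∑ i, ‖w i - w' i‖ := by
    refine (real_inner_le_norm _ _).trans ?_
    gcongr
    exact Finset.single_le_sum (f := fun i => ‖w i - w' i‖) (fun j _ => norm_nonneg _)
      (Finset.mem_univ i)
  have h4 := le_mx w' x' i
  linarith

lemma abs_mx_sub_le [Nonempty ι] (w w' : ι → V) (x : V) :
    |mx w x - mx w' x| ≤ ‖x‖ * ∑ i, ‖w i - w' i‖ := by
  rw [abs_le]
  have h1 := mx_sub_le w w' x x
  have h2 := mx_sub_le w' w x x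
  have h3 : ∑ i, ‖w' i - w i‖ = ∑ i, ‖w i - w' i‖ :=
    Finset.sum_congr rfl fun i _ => norm_sub_rev _ _
  rw [h3] at h2
  simp only [sub_self, norm_zero, zero_mul, zero_add] at h1 h2
  constructor <;> linarith

lemma continuous_mx [Nonempty ι] (w : ι → V) : Continuous (mx w) := by
  have : LipschitzWith (Real.toNNReal (∑ i, ‖w i‖)) (mx w) := by
    refine LipschitzWith.of_dist_le_mul fun x x' => ?_
    rw [Real.coe_toNNReal _ (Finset.sum_nonneg fun i _ => norm_nonneg _), Real.dist_eq,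
      dist_eq_norm, abs_le]
    have h1 := mx_sub_le w w x x'
    have h2 := mx_sub_le w w x' x
    simp only [sub_self, norm_zero, Finset.sum_const_zero, mul_zero, add_zero] at h1 h2
    rw [norm_sub_rev x' x] at h2
    constructor <;> linarith [mul_comm ‖x - x'‖ (∑ i, ‖w i‖)]
  exact this.continuous

lemma abs_mx_le [Nonempty ι] (w : ι → V) (x : V) : |mx w x| ≤ ‖x‖ * ∑ i, ‖w i‖ := by
  have h := abs_mx_sub_le w 0 x
  have h0 : mx (0 : ι → V) x = 0 := by
    refine le_antisymm (mx_le fun i => by simp) ?_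
    have := le_mx (0 : ι → V) x (Classical.arbitrary ι)
    simpa using this
  simpa [h0] using h

end mx

variable {V : Type*} [NormedAddCommGroup V] [InnerProductSpace ℝ V] [FiniteDimensional ℝ V]
  [MeasurableSpace V] [BorelSpace V] {ι : Type*} [Fintype ι]

lemma integrable_norm_std : Integrable (fun x : V => ‖x‖) (stdGaussian V) :=
  (IsGaussian.integrable_id (μ := stdGaussian V)).norm

lemma integrable_mx [Nonempty ι] (w : ι → V) : Integrable (mx w) (stdGaussian V) := by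
  refine (integrable_norm_std.mul_const (∑ i, ‖w i‖)).mono'
    (continuous_mx w).aestronglyMeasurable (Filter.Eventually.of_forall fun x => ?_)
  exact abs_mx_le w x

/-- the functional `2 E max ⟪x, w i⟫ - ∑ ‖w i‖²`. -/
noncomputable def Phi (w : ι → V) : ℝ :=
  2 * ∫ x, mx w x ∂(stdGaussian V) - ∑ i, ‖w i‖ ^ 2

lemma abs_E_sub_le [Nonempty ι] (w w' : ι → V) :
    |∫ x, mx w x ∂(stdGaussian V) - ∫ x, mx w' x ∂(stdGaussian V)| ≤
      (∫ x, ‖x‖ ∂(stdGaussian V)) * ∑ i, ‖w i - w' i‖ := by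
  rw [← integral_sub (integrable_mx w) (integrable_mx w'), ← integral_mul_const]
  refine (abs_integral_le_integral_abs).trans ?_
  refine integral_mono ((integrable_mx w).sub (integrable_mx w')).abs
    (integrable_norm_std.mul_const _) fun x => ?_
  exact abs_mx_sub_le w w' x

lemma continuous_Phi [Nonempty ι] : Continuous (Phi (V := V) (ι := ι)) := by
  unfold Phi
  refine Continuous.sub (continuous_const.mul ?_) (by fun_prop)
  rw [continuous_iff_continuousAt]
  intro w'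
  rw [ContinuousAt, tendsto_iff_norm_sub_tendsto_zero]
  have h1 : Filter.Tendsto (fun w : ι → V =>
      (∫ x, ‖x‖ ∂(stdGaussian V)) * ∑ i, ‖w i - w' i‖) (nhds w') (nhds 0) := by
    have : Continuous (fun w : ι → V => (∫ x, ‖x‖ ∂(stdGaussian V)) * ∑ i, ‖w i - w' i‖) := by
      fun_prop
    have h := this.tendsto w'
    simpa using h
  exact squeeze_zero (fun w => norm_nonneg _) (fun w => abs_E_sub_le w w') h1

omit [BorelSpace V] in
lemma Phi_zero [Nonempty ι] : Phi (0 : ι → V) = 0 := by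
  have h0 : mx (0 : ι → V) = fun _ => 0 := by
    ext x
    have := abs_mx_le (0 : ι → V) x
    simpa using this
  simp [Phi, h0]

lemma exists_max_Phi [Nonempty ι] : ∃ z : ι → V, ∀ w : ι → V, Phi w ≤ Phi z := by
  set C := ∫ x, ‖x‖ ∂(stdGaussian V) with hC
  have hC0 : 0 ≤ C := integral_nonneg fun x => norm_nonneg _
  set n : ℝ := (Fintype.card ι : ℝ) with hn
  have hn0 : 0 ≤ n := Nat.cast_nonneg _
  have hbd : ∀ w : ι → V, Phi w ≤ 2 * (C * (n * ‖w‖)) - ‖w‖ ^ 2 := by
    intro w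
    have h1 := abs_E_sub_le w 0
    have h0 : mx (0 : ι → V) = fun _ => 0 := by
      ext x
      have := abs_mx_le (0 : ι → V) x
      simpa using this
    rw [h0, integral_zero, sub_zero] at h1
    have h2 := (abs_le.mp h1).2
    have h3 : ∑ i, ‖w i - (0 : ι → V) i‖ ≤ n * ‖w‖ := by
      calc ∑ i, ‖w i - (0 : ι → V) i‖ ≤ ∑ _i : ι, ‖w‖ :=
            Finset.sum_le_sum fun i _ => by simpa using norm_le_pi_norm w i
        _ = n * ‖w‖ := by simp [hn]
    have h4 : ‖w‖ ^ 2 ≤ ∑ i, ‖w i‖ ^ 2 := by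
      have h5 : ‖w‖ ≤ √(∑ i, ‖w i‖ ^ 2) := by
        rw [pi_norm_le_iff_of_nonneg (Real.sqrt_nonneg _)]
        intro i
        apply Real.le_sqrt_of_sq_le
        exact Finset.single_le_sum (f := fun i => ‖w i‖ ^ 2) (fun j _ => by positivity)
          (Finset.mem_univ i)
      calc ‖w‖ ^ 2 ≤ (√(∑ i, ‖w i‖ ^ 2)) ^ 2 := by gcongr
        _ = _ := Real.sq_sqrt (Finset.sum_nonneg fun i _ => by positivity)
    have h5 : C * ∑ i, ‖w i - (0 : ι → V) i‖ ≤ C * (n * ‖w‖) :=
      mul_le_mul_of_nonneg_left h3 hC0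
    unfold Phi
    linarith
  obtain ⟨z, hz, hzmax⟩ := (isCompact_closedBall (0 : ι → V) (2 * C * n)).exists_isMaxOn
    ⟨0, by simp; positivity⟩ (continuous_Phi (V := V) (ι := ι)).continuousOn
  refine ⟨z, fun w => ?_⟩
  by_cases hw : w ∈ Metric.closedBall (0 : ι → V) (2 * C * n)
  · exact hzmax hw
  · have h1 : Phi (0 : ι → V) ≤ Phi z := hzmax (by simp; positivity)
    rw [Phi_zero] at h1
    rw [mem_closedBall_zero_iff, not_le] at hw
    have h2 := hbd w
    have h3 : 0 < ‖w‖ := lt_of_le_of_lt (by positivity) hw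
    nlinarith
/-! ### argmax cells -/

/-- argmax cells with tie-breaking by index. -/
def acell [LinearOrder ι] (w : ι → V) (i : ι) : Set V :=
  {x | (∀ j, ⟪x, w j⟫ ≤ ⟪x, w i⟫) ∧ ∀ j, j < i → ⟪x, w j⟫ < ⟪x, w i⟫}

lemma part_acell [LinearOrder ι] [Nonempty ι] (w : ι → V) : Part (acell w) where
  meas i := by
    have : acell w i = (⋂ j, {x | ⟪x, w j⟫ ≤ ⟪x, w i⟫}) ∩
        ⋂ j, {x | j < i → ⟪x, w j⟫ < ⟪x, w i⟫} := by
      ext x; simp [acell]
    rw [this]
    refine (MeasurableSet.iInter fun j => measurableSet_le (by fun_prop) (by fun_prop)).inter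
      (MeasurableSet.iInter fun j => ?_)
    by_cases hj : j < i
    · simp only [hj, forall_const]
      exact measurableSet_lt (by fun_prop) (by fun_prop)
    · simp [hj]
  disj i j hij := by
    rw [Function.onFun, Set.disjoint_left]
    intro x hi hj
    rcases lt_or_gt_of_ne hij with h | h
    · exact absurd (hj.2 i h) (not_lt.mpr (hi.1 j))
    · exact absurd (hi.2 j h) (not_lt.mpr (hj.1 i))
  cover := by
    refine Set.eq_univ_of_forall fun x => ?_
    rw [Set.mem_iUnion]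
    classical
    let S : Finset ι := Finset.univ.filter fun i => ∀ j, ⟪x, w j⟫ ≤ ⟪x, w i⟫
    have hS : S.Nonempty := by
      obtain ⟨i, hi⟩ := Finite.exists_max fun i => ⟪x, w i⟫
      exact ⟨i, by simp [S]; exact hi⟩
    refine ⟨S.min' hS, ?_⟩
    have h1 := S.min'_mem hS
    have h2 : ∀ j, ⟪x, w j⟫ ≤ ⟪x, w (S.min' hS)⟫ := (Finset.mem_filter.mp h1).2
    refine ⟨h2, fun j hj => lt_of_le_of_ne (h2 j) fun heq => ?_⟩
    have h3 : j ∈ S := by
      simp only [S, Finset.mem_filter, Finset.mem_univ, true_and]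
      intro l
      rw [heq]
      exact h2 l
    exact absurd (S.min'_le j h3) (not_le.mpr hj)

omit [BorelSpace V] in
lemma Part.sum_integral {A : ι → Set V} (hA : Part A) {f : V → ℝ}
    (hf : Integrable f (stdGaussian V)) :
    ∑ i, ∫ x in A i, f x ∂(stdGaussian V) = ∫ x, f x ∂(stdGaussian V) := by
  rw [← integral_iUnion_fintype hA.meas hA.disj fun i => hf.integrableOn, hA.cover,
    setIntegral_univ]

lemma Part.sum_mom {A : ι → Set V} (hA : Part A) : ∑ i, mom (A i) = 0 := by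
  unfold mom
  have hint : Integrable (fun x : V => x) (stdGaussian V) :=
    IsGaussian.integrable_id (μ := stdGaussian V)
  rw [← integral_iUnion_fintype hA.meas hA.disj fun i => hint.integrableOn, hA.cover,
    setIntegral_univ, integral_id_stdGaussian]

lemma Part.sum_measure {A : ι → Set V} (hA : Part A) :
    ∑ i, (stdGaussian V).real (A i) = 1 := by
  have h := hA.sum_integral (f := fun _ => (1 : ℝ)) (integrable_const _)
  simpa using h

/-- `Φ(w) = F(A_w) - ∑ ‖w i - b i‖²`. -/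
lemma Phi_eq [LinearOrder ι] [Nonempty ι] (w : ι → V) :
    Phi w = ∑ i, ‖mom (acell w i)‖ ^ 2 - ∑ i, ‖w i - mom (acell w i)‖ ^ 2 := by
  have h1 : ∫ x, mx w x ∂(stdGaussian V) = ∑ i, ⟪mom (acell w i), w i⟫ := by
    rw [← (part_acell w).sum_integral (integrable_mx w)]
    refine Finset.sum_congr rfl fun i _ => ?_
    rw [inner_mom]
    refine setIntegral_congr_fun ((part_acell w).meas i) fun x hx => ?_
    exact mx_eq hx.1
  rw [Phi, h1, Finset.mul_sum, ← Finset.sum_sub_distrib, ← Finset.sum_sub_distrib]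
  refine Finset.sum_congr rfl fun i _ => ?_
  rw [norm_sub_sq_real, real_inner_comm]
  ring

/-- `F(B) ≤ Φ(b)`. -/
lemma Part.le_Phi [Nonempty ι] {B : ι → Set V} (hB : Part B) :
    ∑ i, ‖mom (B i)‖ ^ 2 ≤ Phi fun i => mom (B i) := by
  set b : ι → V := fun i => mom (B i) with hb
  have h1 : ∑ i, ‖b i‖ ^ 2 ≤ ∫ x, mx b x ∂(stdGaussian V) := by
    rw [← hB.sum_integral (integrable_mx b)]
    refine Finset.sum_le_sum fun i _ => ?_
    rw [← real_inner_self_eq_norm_sq]
    have h2 : ⟪b i, b i⟫ = ∫ x in B i, ⟪x, b i⟫ ∂(stdGaussian V) := inner_mom (B i) (b i)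
    rw [h2]
    exact setIntegral_mono (integrable_inner _).integrableOn (integrable_mx b).integrableOn
      fun x => le_mx b x i
  unfold Phi
  linarith

/-- existence of an optimal partition. -/
theorem exists_opt (ι : Type*) [Fintype ι] [LinearOrder ι] [Nonempty ι] :
    ∃ z : ι → V, (∀ i, mom (acell z i) = z i) ∧ Phi z = ∑ i, ‖z i‖ ^ 2 ∧
      ∀ B : ι → Set V, Part B → ∑ i, ‖mom (B i)‖ ^ 2 ≤ ∑ i, ‖z i‖ ^ 2 := by
  obtain ⟨z, hz⟩ := exists_max_Phi (V := V) (ι := ι)
  have h1 := Phi_eq z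
  have h2 := (part_acell z).le_Phi
  have h3 := hz fun i => mom (acell z i)
  have h4 : ∑ i, ‖z i - mom (acell z i)‖ ^ 2 ≤ 0 := by linarith
  have h5 : ∀ i, mom (acell z i) = z i := by
    intro i
    have h6 := Finset.sum_eq_zero_iff_of_nonneg
      (fun i (_ : i ∈ Finset.univ) => sq_nonneg ‖z i - mom (acell z i)‖)
    have h7 := (h6.mp (le_antisymm h4 (Finset.sum_nonneg fun i _ => sq_nonneg _))) i
      (Finset.mem_univ i)
    have h8 : ‖z i - mom (acell z i)‖ = 0 := by simpa using h7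
    exact (sub_eq_zero.mp (norm_eq_zero.mp h8)).symm
  have h9 : Phi z = ∑ i, ‖z i‖ ^ 2 := by
    rw [h1]
    simp [h5]
  exact ⟨z, h5, h9, fun B hB => hB.le_Phi.trans (h9 ▸ hz _)⟩

end P226
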