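import Vale.Agent.P226.LC

/-!
# P226, Step 5 : auxiliary facts (one-dimensional conditioning, one-dimensional integrals)
-/

open MeasureTheory ProbabilityTheory Real
open scoped RealInnerProductSpace ENNReal

namespace P226

variable {V : Type*} [NormedAddCommGroup V] [InnerProductSpace ℝ V] [FiniteDimensional ℝ V]
  [MeasurableSpace V] [BorelSpace V] {k : ℕ}

/-! ### conditioning on everything but one direction -/

theorem map_dis (u : V) (hu : ‖u‖ = 1) :
    ((stdGaussian V).prod (gaussianReal 0 1)).map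
      (fun p : V × ℝ => p.1 - ⟪p.1, u⟫ • u + p.2 • u) = stdGaussian V := by
  apply Measure.ext_of_charFun
  ext t
  rw [charFun_apply, integral_map (by fun_prop) (by fun_prop), charFun_stdGaussian]
  set w : V := t - ⟪u, t⟫ • u with hw
  have h1 : (fun p : V × ℝ => Complex.exp (⟪p.1 - ⟪p.1, u⟫ • u + p.2 • u, t⟫ * Complex.I)) =
      fun p : V × ℝ => Complex.exp (⟪p.1, w⟫ * Complex.I) *
        Complex.exp (⟪p.2, ⟪u, t⟫⟫ * Complex.I) := by
    ext p
    rw [← Complex.exp_add]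
    congr 1
    rw [← add_mul, ← Complex.ofReal_add]
    congr 2
    rw [hw, inner_add_left, inner_sub_left, real_inner_smul_left, real_inner_smul_left,
      inner_sub_right, real_inner_smul_right]
    simp
    ring
  rw [h1, integral_prod_mul (f := fun x : V => Complex.exp (⟪x, w⟫ * Complex.I))
    (g := fun g : ℝ => Complex.exp (⟪g, ⟪u, t⟫⟫ * Complex.I)), ← charFun_apply, ← charFun_apply,
    charFun_stdGaussian, charFun_gaussianReal, ← Complex.exp_add]
  congr 1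
  have h2 : ‖w‖ ^ 2 = ‖t‖ ^ 2 - ⟪u, t⟫ ^ 2 := by
    rw [hw, norm_sub_sq_real, real_inner_smul_right, norm_smul, hu, real_inner_comm t u,
      mul_one, Real.norm_eq_abs, sq_abs]
    ring
  have h3 : (‖w‖ : ℂ) ^ 2 = (‖t‖ : ℂ) ^ 2 - (⟪u, t⟫ : ℂ) ^ 2 := by exact_mod_cast h2
  rw [h3]
  push_cast
  ring

theorem lintegral_dis (u : V) (hu : ‖u‖ = 1) {G : V → ℝ≥0∞} (hG : Measurable G) :
    ∫⁻ x, G x ∂(stdGaussian V) =
      ∫⁻ x, ∫⁻ g, G (x - ⟪x, u⟫ • u + g • u) ∂(gaussianReal 0 1) ∂(stdGaussian V) := by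
  conv_lhs => rw [← map_dis u hu]
  rw [lintegral_map hG (by fun_prop), lintegral_prod _ (by fun_prop)]

lemma lintegral_gaussianReal_le {f : ℝ → ℝ≥0∞} (hf : Measurable f) :
    ∫⁻ g, f g ∂(gaussianReal 0 1) ≤ ENNReal.ofReal (1 / √(2 * π)) * ∫⁻ g, f g := by
  rw [gaussianReal_of_var_ne_zero _ one_ne_zero,
    lintegral_withDensity_eq_lintegral_mul _ (measurable_gaussianPDF _ _) hf,
    ← lintegral_const_mul _ hf]
  refine lintegral_mono fun g => ?_
  simp only [Pi.mul_apply]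
  gcongr
  unfold gaussianPDF gaussianPDFReal
  apply ENNReal.ofReal_le_ofReal
  simp only [NNReal.coe_one, mul_one, sub_zero, one_div]
  have : exp (-g ^ 2 / 2) ≤ 1 := Real.exp_le_one_iff.mpr (by nlinarith [sq_nonneg g])
  calc (√(2 * π))⁻¹ * exp (-g ^ 2 / 2) ≤ (√(2 * π))⁻¹ * 1 :=
        mul_le_mul_of_nonneg_left this (by positivity)
    _ = _ := mul_one _

/-! ### one-dimensional integrals -/

lemma lint_pow {m c : ℝ} (hc : 0 < c) {n : ℕ} (hn : n ≠ 0) :
    ∫⁻ t in Set.Ioi (0 : ℝ), ENNReal.ofReal ((max (m - c * t) 0) ^ n) =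
      ENNReal.ofReal ((max m 0) ^ (n + 1) / ((n + 1) * c)) := by
  rcases le_or_gt m 0 with hm | hm
  · rw [max_eq_right hm, zero_pow (Nat.succ_ne_zero n), zero_div, ENNReal.ofReal_zero]
    rw [← lintegral_zero (μ := volume.restrict (Set.Ioi (0 : ℝ)))]
    refine setLIntegral_congr_fun measurableSet_Ioi fun t ht => ?_
    have ht' : 0 < t := ht
    rw [max_eq_right (by nlinarith), zero_pow hn, ENNReal.ofReal_zero]
  · rw [max_eq_left hm.le]
    have h1 : ∫⁻ t in Set.Ioi (0 : ℝ), ENNReal.ofReal ((max (m - c * t) 0) ^ n) =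
        ∫⁻ t in Set.Ioi (0 : ℝ), (Set.Iic (m / c)).indicator
          (fun t => ENNReal.ofReal ((m - c * t) ^ n)) t := by
      refine setLIntegral_congr_fun measurableSet_Ioi fun t _ => ?_
      by_cases h : t ≤ m / c
      · rw [Set.indicator_of_mem (show t ∈ Set.Iic (m / c) from h), max_eq_left]
        rw [le_div_iff₀ hc] at h
        linarith
      · rw [Set.indicator_of_notMem (show t ∉ Set.Iic (m / c) from h), max_eq_right, zero_pow hn,
          ENNReal.ofReal_zero]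
        rw [not_le, div_lt_iff₀ hc] at h
        linarith
    rw [h1, lintegral_indicator measurableSet_Iic, Measure.restrict_restrict measurableSet_Iic,
      Set.inter_comm, Set.Ioi_inter_Iic]
    have hmc : 0 ≤ m / c := by positivity
    have hnn : 0 ≤ᵐ[volume.restrict (Set.Ioc 0 (m / c))] fun t : ℝ => (m - c * t) ^ n := by
      refine (ae_restrict_iff' measurableSet_Ioc).mpr (Filter.Eventually.of_forall fun t ht => ?_)
      have : t ≤ m / c := ht.2
      rw [le_div_iff₀ hc] at this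
      exact pow_nonneg (by linarith) n
    have hcont : Continuous fun t : ℝ => (m - c * t) ^ n := by fun_prop
    rw [← ofReal_integral_eq_lintegral_ofReal
      ((hcont.intervalIntegrable 0 (m / c)).1) hnn, ← intervalIntegral.integral_of_le hmc]
    congr 1
    have hder : ∀ t ∈ Set.uIcc 0 (m / c), HasDerivAt
        (fun t : ℝ => -(m - c * t) ^ (n + 1) / ((n + 1) * c)) ((m - c * t) ^ n) t := by
      intro t _
      have h2 : HasDerivAt (fun t : ℝ => m - c * t) (-c) t := by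
        simpa using ((hasDerivAt_id t).const_mul c).const_sub m
      have h3 := ((h2.pow (n + 1)).neg).div_const ((n + 1) * c)
      refine h3.congr_deriv ?_
      have : (n : ℝ) + 1 ≠ 0 := by positivity
      push_cast
      field_simp
    rw [intervalIntegral.integral_eq_sub_of_hasDerivAt hder (hcont.intervalIntegrable _ _)]
    have h4 : m - c * (m / c) = 0 := by field_simp; ring
    rw [h4, mul_zero, sub_zero, zero_pow (Nat.succ_ne_zero n)]
    ring

lemma lint_interval {c : ℝ} (hc : 0 < c) (L U ξ : ℝ) :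
    volume {g : ℝ | L ≤ ξ + c * g ∧ ξ + c * g ≤ U} ≤ ENNReal.ofReal ((U - L) / c) := by
  have h : {g : ℝ | L ≤ ξ + c * g ∧ ξ + c * g ≤ U} = Set.Icc ((L - ξ) / c) ((U - ξ) / c) := by
    ext g
    rw [Set.mem_Icc, div_le_iff₀ hc, le_div_iff₀ hc]
    constructor
    · rintro ⟨h1, h2⟩
      exact ⟨by linarith, by linarith⟩
    · rintro ⟨h1, h2⟩
      exact ⟨by linarith, by linarith⟩
  rw [h, Real.volume_Icc]
  apply ENNReal.ofReal_le_ofReal
  apply le_of_eq
  ring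

/-- integral over a half line of a truncated power, shifted form. -/
lemma lint_shift {m c y ξ : ℝ} (hc : 0 < c) {n : ℕ} (hn : n ≠ 0) :
    ∫⁻ g : ℝ, {g : ℝ | ξ + c * g ≤ y}.indicator
      (fun g => ENNReal.ofReal ((max (m - (y - (ξ + c * g))) 0) ^ n)) g =
      ENNReal.ofReal ((max m 0) ^ (n + 1) / ((n + 1) * c)) := by
  rw [← lint_pow hc hn, ← lintegral_sub_left_eq_self _ ((y - ξ) / c),
    setLIntegral_congr Ioi_ae_eq_Ici, ← lintegral_indicator measurableSet_Ici]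
  refine lintegral_congr fun t => ?_
  have h1 : ξ + c * ((y - ξ) / c - t) = y - c * t := by field_simp; ring
  by_cases ht : 0 ≤ t
  · rw [Set.indicator_of_mem (show t ∈ Set.Ici (0 : ℝ) from ht), Set.indicator_of_mem]
    · rw [h1]
      congr 3
      ring
    · show ξ + c * ((y - ξ) / c - t) ≤ y
      rw [h1]
      nlinarith
  · rw [Set.indicator_of_notMem (show t ∉ Set.Ici (0 : ℝ) from ht), Set.indicator_of_notMem]
    show ¬ (ξ + c * ((y - ξ) / c - t) ≤ y)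
    rw [h1, not_le]
    push Not at ht
    nlinarith

/-! ### two conditioning steps -/


/-- invariance of a function under translations along `u`. -/
def Inv {β : Type*} (u : V) (F : V → β) : Prop := ∀ (x : V) (r : ℝ), F (x + r • u) = F x

omit [FiniteDimensional ℝ V] [MeasurableSpace V] [BorelSpace V] in
lemma sub_add_eq (x u : V) (g : ℝ) : x - ⟪x, u⟫ • u + g • u = x + (g - ⟪x, u⟫) • u := by
  rw [sub_smul]; abel

/-- first conditioning step. -/
lemma key_a {u2 za zc : V} (hu2 : ‖u2‖ = 1) {c2 : ℝ} (hc2 : 0 < c2)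
    (h2a : ⟪u2, za⟫ = 0) (h2c : ⟪u2, zc⟫ = c2)
    {F : V → ℝ≥0∞} {y R : V → ℝ} (hF : Measurable F) (hy : Measurable y) (hR : Measurable R)
    (iF : Inv u2 F) (iy : Inv u2 y) (iR : Inv u2 R) :
    ∫⁻ x, F x * {x | ⟪x, za⟫ ≤ y x ∧ ⟪x, zc⟫ ≤ y x ∧
        (y x - ⟪x, za⟫) + (y x - ⟪x, zc⟫) ≤ R x}.indicator 1 x ∂(stdGaussian V) ≤
      ∫⁻ x, F x * {x | ⟪x, za⟫ ≤ y x}.indicator (fun x => ENNReal.ofReal (1 / (√(2 * π) * c2)) *
        ENNReal.ofReal ((max (R x - (y x - ⟪x, za⟫)) 0) ^ 1)) x ∂(stdGaussian V) := by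
  have hms : MeasurableSet {x : V | ⟪x, za⟫ ≤ y x ∧ ⟪x, zc⟫ ≤ y x ∧
        (y x - ⟪x, za⟫) + (y x - ⟪x, zc⟫) ≤ R x} :=
    (measurableSet_le (by fun_prop) hy).inter ((measurableSet_le (by fun_prop) hy).inter
      (measurableSet_le (by fun_prop) hR))
  rw [lintegral_dis u2 hu2 (G := fun x => F x * {x | ⟪x, za⟫ ≤ y x ∧ ⟪x, zc⟫ ≤ y x ∧
        (y x - ⟪x, za⟫) + (y x - ⟪x, zc⟫) ≤ R x}.indicator 1 x)
    (hF.mul (measurable_one.indicator hms))]
  refine lintegral_mono fun x => ?_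
  set ξ := ⟪x, zc⟫ - ⟪x, u2⟫ * c2 with hξ
  set U := y x with hU
  set L := y x - (R x - (y x - ⟪x, za⟫)) with hL
  have hza : ∀ g : ℝ, ⟪x - ⟪x, u2⟫ • u2 + g • u2, za⟫ = ⟪x, za⟫ := by
    intro g
    rw [sub_add_eq, inner_add_left, real_inner_smul_left, h2a, mul_zero, add_zero]
  have hzc : ∀ g : ℝ, ⟪x - ⟪x, u2⟫ • u2 + g • u2, zc⟫ = ξ + c2 * g := by
    intro g
    rw [sub_add_eq, inner_add_left, real_inner_smul_left, h2c, hξ]
    ring
  have hFx : ∀ g : ℝ, F (x - ⟪x, u2⟫ • u2 + g • u2) = F x := by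
    intro g; rw [sub_add_eq]; exact iF _ _
  have hyx : ∀ g : ℝ, y (x - ⟪x, u2⟫ • u2 + g • u2) = y x := by
    intro g; rw [sub_add_eq]; exact iy _ _
  have hRx : ∀ g : ℝ, R (x - ⟪x, u2⟫ • u2 + g • u2) = R x := by
    intro g; rw [sub_add_eq]; exact iR _ _
  by_cases hx : ⟪x, za⟫ ≤ y x
  · rw [Set.indicator_of_mem (show x ∈ {x | ⟪x, za⟫ ≤ y x} from hx)]
    have h1 : ∀ g : ℝ, F (x - ⟪x, u2⟫ • u2 + g • u2) *
        {x | ⟪x, za⟫ ≤ y x ∧ ⟪x, zc⟫ ≤ y x ∧
        (y x - ⟪x, za⟫) + (y x - ⟪x, zc⟫) ≤ R x}.indicator (1 : V → ℝ≥0∞)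
          (x - ⟪x, u2⟫ • u2 + g • u2) =
        F x * {g : ℝ | L ≤ ξ + c2 * g ∧ ξ + c2 * g ≤ U}.indicator 1 g := by
      intro g
      rw [hFx]
      congr 1
      by_cases hg : L ≤ ξ + c2 * g ∧ ξ + c2 * g ≤ U
      · rw [Set.indicator_of_mem (show g ∈ {g : ℝ | L ≤ ξ + c2 * g ∧ ξ + c2 * g ≤ U} from hg),
          Set.indicator_of_mem]
        · rfl
        · show ⟪x - ⟪x, u2⟫ • u2 + g • u2, za⟫ ≤ _ ∧ _
          rw [hza, hzc, hyx, hRx]
          refine ⟨hx, hg.2, ?_⟩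
          have := hg.1
          linarith
      · rw [Set.indicator_of_notMem
          (show g ∉ {g : ℝ | L ≤ ξ + c2 * g ∧ ξ + c2 * g ≤ U} from hg),
          Set.indicator_of_notMem]
        show ¬ (⟪x - ⟪x, u2⟫ • u2 + g • u2, za⟫ ≤ _ ∧ _)
        rw [hza, hzc, hyx, hRx]
        rintro ⟨_, h3, h4⟩
        exact hg ⟨by linarith, h3⟩
    simp_rw [h1]
    have m1 : MeasurableSet {g : ℝ | L ≤ ξ + c2 * g} :=
      measurableSet_le measurable_const (by fun_prop)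
    have m2 : MeasurableSet {g : ℝ | ξ + c2 * g ≤ U} :=
      measurableSet_le (by fun_prop) measurable_const
    have hmg : MeasurableSet {g : ℝ | L ≤ ξ + c2 * g ∧ ξ + c2 * g ≤ U} := m1.inter m2
    rw [lintegral_const_mul _ (measurable_one.indicator hmg)]
    refine mul_le_mul_right ?_ _
    refine (lintegral_gaussianReal_le (measurable_one.indicator hmg)).trans ?_
    rw [lintegral_indicator_one hmg]
    refine (mul_le_mul_right (lint_interval hc2 L U ξ) _).trans ?_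
    rw [← ENNReal.ofReal_mul (by positivity), ← ENNReal.ofReal_mul (by positivity), pow_one]
    apply ENNReal.ofReal_le_ofReal
    have h5 : U - L = R x - (y x - ⟪x, za⟫) := by rw [hU, hL]; ring
    rw [h5]
    have h6 : 1 / √(2 * π) * ((R x - (y x - ⟪x, za⟫)) / c2) =
        1 / (√(2 * π) * c2) * (R x - (y x - ⟪x, za⟫)) := by
      have : √(2 * π) ≠ 0 := by positivity
      field_simp
    rw [h6]
    exact mul_le_mul_of_nonneg_left (le_max_left _ _) (by positivity)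
  · have h1 : ∀ g : ℝ, F (x - ⟪x, u2⟫ • u2 + g • u2) *
        {x | ⟪x, za⟫ ≤ y x ∧ ⟪x, zc⟫ ≤ y x ∧
        (y x - ⟪x, za⟫) + (y x - ⟪x, zc⟫) ≤ R x}.indicator (1 : V → ℝ≥0∞)
          (x - ⟪x, u2⟫ • u2 + g • u2) = 0 := by
      intro g
      rw [Set.indicator_of_notMem, mul_zero]
      show ¬ (⟪x - ⟪x, u2⟫ • u2 + g • u2, za⟫ ≤ _ ∧ _)
      rw [hza, hyx]
      exact fun h => hx h.1
    simp_rw [h1]
    simp

/-- second conditioning step. -/
lemma key_b {u1 za : V} (hu1 : ‖u1‖ = 1) {c1 : ℝ} (hc1 : 0 < c1) (h1a : ⟪u1, za⟫ = c1)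
    {F : V → ℝ≥0∞} {y R : V → ℝ} (hF : Measurable F) (hy : Measurable y) (hR : Measurable R)
    (iF : Inv u1 F) (iy : Inv u1 y) (iR : Inv u1 R) (C : ℝ≥0∞) {n : ℕ} (hn : n ≠ 0) :
    ∫⁻ x, F x * {x | ⟪x, za⟫ ≤ y x}.indicator (fun x => C *
        ENNReal.ofReal ((max (R x - (y x - ⟪x, za⟫)) 0) ^ n)) x ∂(stdGaussian V) ≤
      ∫⁻ x, F x * (C * ENNReal.ofReal (1 / √(2 * π)) *
        ENNReal.ofReal ((max (R x) 0) ^ (n + 1) / ((n + 1) * c1))) ∂(stdGaussian V) := by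
  have hms : MeasurableSet {x : V | ⟪x, za⟫ ≤ y x} := measurableSet_le (by fun_prop) hy
  have hm2 : Measurable fun x : V => C *
        ENNReal.ofReal ((max (R x - (y x - ⟪x, za⟫)) 0) ^ n) := by fun_prop
  rw [lintegral_dis u1 hu1 (G := fun x => F x * {x | ⟪x, za⟫ ≤ y x}.indicator (fun x => C *
        ENNReal.ofReal ((max (R x - (y x - ⟪x, za⟫)) 0) ^ n)) x)
    (hF.mul (hm2.indicator hms))]
  refine lintegral_mono fun x => ?_
  set ξ := ⟪x, za⟫ - ⟪x, u1⟫ * c1 with hξ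
  have hza : ∀ g : ℝ, ⟪x - ⟪x, u1⟫ • u1 + g • u1, za⟫ = ξ + c1 * g := by
    intro g
    rw [sub_add_eq, inner_add_left, real_inner_smul_left, h1a, hξ]
    ring
  have hFx : ∀ g : ℝ, F (x - ⟪x, u1⟫ • u1 + g • u1) = F x := by
    intro g; rw [sub_add_eq]; exact iF _ _
  have hyx : ∀ g : ℝ, y (x - ⟪x, u1⟫ • u1 + g • u1) = y x := by
    intro g; rw [sub_add_eq]; exact iy _ _
  have hRx : ∀ g : ℝ, R (x - ⟪x, u1⟫ • u1 + g • u1) = R x := by
    intro g; rw [sub_add_eq]; exact iR _ _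
  have h1 : ∀ g : ℝ, F (x - ⟪x, u1⟫ • u1 + g • u1) *
      {x | ⟪x, za⟫ ≤ y x}.indicator (fun x => C *
        ENNReal.ofReal ((max (R x - (y x - ⟪x, za⟫)) 0) ^ n))
        (x - ⟪x, u1⟫ • u1 + g • u1) =
      F x * (C * {g : ℝ | ξ + c1 * g ≤ y x}.indicator
        (fun g => ENNReal.ofReal ((max (R x - (y x - (ξ + c1 * g))) 0) ^ n)) g) := by
    intro g
    rw [hFx]
    congr 1
    by_cases hg : ξ + c1 * g ≤ y x
    · rw [Set.indicator_of_mem (show g ∈ {g : ℝ | ξ + c1 * g ≤ y x} from hg),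
        Set.indicator_of_mem]
      · rw [hza, hyx, hRx]
      · show ⟪x - ⟪x, u1⟫ • u1 + g • u1, za⟫ ≤ _
        rw [hza, hyx]
        exact hg
    · rw [Set.indicator_of_notMem (show g ∉ {g : ℝ | ξ + c1 * g ≤ y x} from hg),
        Set.indicator_of_notMem, mul_zero]
      show ¬ (⟪x - ⟪x, u1⟫ • u1 + g • u1, za⟫ ≤ _)
      rw [hza, hyx]
      exact hg
  simp_rw [h1]
  have hmg : MeasurableSet {g : ℝ | ξ + c1 * g ≤ y x} :=
    measurableSet_le (by fun_prop) (by fun_prop)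
  have hm3 : Measurable (fun g : ℝ => ENNReal.ofReal
      ((max (R x - (y x - (ξ + c1 * g))) 0) ^ n)) := by fun_prop
  rw [lintegral_const_mul _ ((hm3.indicator hmg).const_mul C),
    lintegral_const_mul _ (hm3.indicator hmg)]
  refine mul_le_mul_right ?_ _
  rw [mul_assoc]
  refine mul_le_mul_right ?_ _
  refine (lintegral_gaussianReal_le (hm3.indicator hmg)).trans ?_
  rw [lint_shift hc1 hn]

lemma key {u1 u2 za zc : V} (hu1 : ‖u1‖ = 1) (hu2 : ‖u2‖ = 1) {c1 c2 : ℝ} (hc1 : 0 < c1)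
    (hc2 : 0 < c2) (h1a : ⟪u1, za⟫ = c1) (h2a : ⟪u2, za⟫ = 0) (h2c : ⟪u2, zc⟫ = c2)
    {F : V → ℝ≥0∞} {y R : V → ℝ} (hF : Measurable F) (hy : Measurable y) (hR : Measurable R)
    (iF1 : Inv u1 F) (iy1 : Inv u1 y) (iR1 : Inv u1 R)
    (iF2 : Inv u2 F) (iy2 : Inv u2 y) (iR2 : Inv u2 R) :
    ∫⁻ x, F x * {x | ⟪x, za⟫ ≤ y x ∧ ⟪x, zc⟫ ≤ y x ∧
        (y x - ⟪x, za⟫) + (y x - ⟪x, zc⟫) ≤ R x}.indicator 1 x ∂(stdGaussian V) ≤
      ∫⁻ x, F x * ENNReal.ofReal (1 / (4 * π * (c1 * c2)) * (max (R x) 0) ^ 2)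
        ∂(stdGaussian V) := by
  refine (key_a hu2 hc2 h2a h2c hF hy hR iF2 iy2 iR2).trans ?_
  refine (key_b hu1 hc1 h1a hF hy hR iF1 iy1 iR1 _ one_ne_zero).trans ?_
  refine lintegral_mono fun x => ?_
  refine mul_le_mul_right (le_of_eq ?_) _
  rw [← ENNReal.ofReal_mul (by positivity), ← ENNReal.ofReal_mul (by positivity)]
  congr 1
  have h1 : √(2 * π) * √(2 * π) = 2 * π := Real.mul_self_sqrt (by positivity)
  have h2 : √(2 * π) ≠ 0 := by positivity
  have h3 : 1 / (√(2 * π) * c2) * (1 / √(2 * π)) = 1 / (2 * π * c2) := by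
    rw [show 1 / (√(2 * π) * c2) * (1 / √(2 * π)) = 1 / (√(2 * π) * √(2 * π) * c2) by
      field_simp, h1]
  rw [h3]
  norm_num
  field_simp
  ring

end P226
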