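import Vale.Agent.P226.Lift
import Vale.Agent.P226.CapsJ

/-!
# P226 : the propeller attains `9/(8π)`
-/

open MeasureTheory ProbabilityTheory Real
open scoped RealInnerProductSpace ENNReal

namespace P226

section two

variable {V : Type*} [NormedAddCommGroup V] [InnerProductSpace ℝ V] [FiniteDimensional ℝ V]
  [MeasurableSpace V] [BorelSpace V]

omit [FiniteDimensional ℝ V] [MeasurableSpace V] [BorelSpace V] in
lemma two_rcones {u : Fin 3 → V} (hu : ∀ i, ‖u i‖ = 1) (hsum : ∑ i, u i = 0) {c : ℝ}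
    (hc : 1 / 2 < c) {x : V} (hx : x ≠ 0) {i j : Fin 3} (hij : i ≠ j)
    (hi : x ∈ rcone (u i) c) : x ∉ rcone (u j) c := by
  intro hj
  have h1 : c * ‖x‖ ≤ ⟪x, u i⟫ := hi
  have h2 : c * ‖x‖ ≤ ⟪x, u j⟫ := hj
  have h3 : ⟪x, u 0⟫ + ⟪x, u 1⟫ + ⟪x, u 2⟫ = 0 := by
    have : ⟪x, ∑ i, u i⟫ = 0 := by rw [hsum, inner_zero_right]
    rwa [Fin.sum_univ_three, inner_add_right, inner_add_right] at this
  have h4 : ∀ k, -‖x‖ ≤ ⟪x, u k⟫ := by
    intro k
    have := abs_real_inner_le_norm x (u k)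
    rw [hu k, mul_one] at this
    exact (abs_le.mp this).1
  have hx0 : 0 < ‖x‖ := norm_pos_iff.mpr hx
  have h5 : ⟪x, u i⟫ + ⟪x, u j⟫ ≤ ‖x‖ := by
    have a0 := h4 0
    have a1 := h4 1
    have a2 := h4 2
    fin_cases i <;> fin_cases j <;> simp at hij ⊢ <;> linarith
  nlinarith

omit [MeasurableSpace V] [BorelSpace V] [FiniteDimensional ℝ V] in
lemma sum_ind_le {u : Fin 3 → V} (hu : ∀ i, ‖u i‖ = 1) (hsum : ∑ i, u i = 0) {c : ℝ}
    (hc : 1 / 2 < c) (x : V) :
    ∑ i, (rcone (u i) c).indicator (fun x => ⟪x, u i⟫) x ≤ mx u x := by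
  have h0 : 0 ≤ mx u x := by
    have h1 : ∑ i, ⟪x, u i⟫ = 0 := by rw [← inner_sum, hsum, inner_zero_right]
    have h2 : ∑ i, ⟪x, u i⟫ ≤ ∑ _i : Fin 3, mx u x :=
      Finset.sum_le_sum fun i _ => le_mx u x i
    rw [h1] at h2
    simp at h2
    linarith
  by_cases hx : x = 0
  · refine le_trans (le_of_eq ?_) h0
    refine Finset.sum_eq_zero fun i _ => ?_
    rw [hx]
    by_cases hm : (0 : V) ∈ rcone (u i) c
    · rw [Set.indicator_of_mem hm, inner_zero_left]
    · rw [Set.indicator_of_notMem hm]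
  · by_cases hex : ∃ i, x ∈ rcone (u i) c
    · obtain ⟨i, hi⟩ := hex
      rw [Finset.sum_eq_single i]
      · rw [Set.indicator_of_mem hi]
        exact le_mx u x i
      · intro j _ hj
        rw [Set.indicator_of_notMem (two_rcones hu hsum hc hx (Ne.symm hj) hi)]
      · intro h
        exact absurd (Finset.mem_univ i) h
    · push Not at hex
      refine le_trans (le_of_eq ?_) h0
      exact Finset.sum_eq_zero fun i _ => Set.indicator_of_notMem (hex i) _

lemma three_capJ_le (hd : Module.finrank ℝ V = 2) {u : Fin 3 → V} (hu : ∀ i, ‖u i‖ = 1)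
    (hsum : ∑ i, u i = 0) : 3 * capJ 2 (1 / 2) ≤ ∫ x, mx u x ∂(stdGaussian V) := by
  have h1 : ∀ c : ℝ, 1 / 2 < c → c < 1 → 3 * capJ 2 c ≤ ∫ x, mx u x ∂(stdGaussian V) := by
    intro c hc hc1
    have h2 : ∑ i, ∫ x, (rcone (u i) c).indicator (fun x => ⟪x, u i⟫) x ∂(stdGaussian V) ≤
        ∫ x, mx u x ∂(stdGaussian V) := by
      rw [← integral_finsetSum]
      · refine integral_mono (integrable_finsetSum _ fun i _ =>
          (integrable_inner (u i)).indicator (measurableSet_rcone _ _)) (integrable_mx u)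
          fun x => sum_ind_le hu hsum hc x
      · intro i _
        exact (integrable_inner (u i)).indicator (measurableSet_rcone _ _)
    have h3 : ∀ i, ∫ x, (rcone (u i) c).indicator (fun x => ⟪x, u i⟫) x ∂(stdGaussian V) =
        capJ 2 c := by
      intro i
      rw [integral_indicator (measurableSet_rcone _ _), int_rcone (hu i) (by linarith) hc1, hd]
    simp_rw [h3] at h2
    simpa using h2
  have hcont : ContinuousAt (fun c : ℝ => 3 * capJ 2 c) (1 / 2) := by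
    unfold capJ
    refine ContinuousAt.mul continuousAt_const (ContinuousAt.div_const ?_ _)
    exact ContinuousAt.rpow_const (by fun_prop) (Or.inl (by norm_num))
  have hlim : Filter.Tendsto (fun c : ℝ => 3 * capJ 2 c) (nhdsWithin (1 / 2) (Set.Ioi (1 / 2)))
      (nhds (3 * capJ 2 (1 / 2))) := hcont.tendsto.mono_left nhdsWithin_le_nhds
  refine le_of_tendsto hlim ?_
  have : Set.Ioo (1 / 2 : ℝ) 1 ∈ nhdsWithin (1 / 2 : ℝ) (Set.Ioi (1 / 2)) :=
    Ioo_mem_nhdsGT (by norm_num)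
  filter_upwards [this] with c hc
  exact h1 c hc.1 hc.2

lemma capJ_half_sq : capJ 2 (1 / 2) ^ 2 = 3 / (8 * π) := by
  unfold capJ
  have h1 : (((2 : ℕ) : ℝ) - 1) / 2 = 1 / 2 := by norm_num
  rw [h1, div_pow, Real.sq_sqrt (by positivity), ← Real.sqrt_eq_rpow,
    Real.sq_sqrt (by norm_num)]
  field_simp
  norm_num

/-- a partition with three cells and value at least `9/(8π)` in dimension two. -/
lemma exists_three (hd : Module.finrank ℝ V = 2) {u : Fin 3 → V} (hu : ∀ i, ‖u i‖ = 1)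
    (hsum : ∑ i, u i = 0) :
    ∃ A : Fin 3 → Set V, Part A ∧ 9 / (8 * π) ≤ ∑ i, ‖mom (A i)‖ ^ 2 := by
  set r := capJ 2 (1 / 2) with hr
  have hr0 : 0 ≤ r := capJ_nonneg (by norm_num) (by norm_num)
  have hr2 : r ^ 2 = 3 / (8 * π) := capJ_half_sq
  let w : Fin 3 → V := fun i => r • u i
  refine ⟨acell w, part_acell w, ?_⟩
  have h1 := Phi_eq w
  have h2 : ∫ x, mx w x ∂(stdGaussian V) = r * ∫ x, mx u x ∂(stdGaussian V) := by
    rw [← integral_const_mul]
    refine integral_congr_ae (Filter.Eventually.of_forall fun x => ?_)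
    show (⨆ i, ⟪x, r • u i⟫) = r * ⨆ i, ⟪x, u i⟫
    rw [Real.mul_iSup_of_nonneg hr0]
    congr 1
    ext i
    rw [real_inner_smul_right]
  have h3 : ∑ i, ‖w i‖ ^ 2 = 3 * r ^ 2 := by
    have : ∀ i, ‖w i‖ ^ 2 = r ^ 2 := fun i => by
      show ‖r • u i‖ ^ 2 = r ^ 2
      rw [norm_smul, hu i, mul_one, Real.norm_eq_abs, sq_abs]
    simp_rw [this]
    simp
  have h4 := three_capJ_le hd hu hsum
  have h5 : Phi w = 2 * (r * ∫ x, mx u x ∂(stdGaussian V)) - 3 * r ^ 2 := by
    unfold Phi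
    rw [h2, h3]
  have h6 : 0 ≤ ∑ i, ‖w i - mom (acell w i)‖ ^ 2 := Finset.sum_nonneg fun i _ => sq_nonneg _
  have h7 : r * (3 * r) ≤ r * ∫ x, mx u x ∂(stdGaussian V) := mul_le_mul_of_nonneg_left h4 hr0
  have h8 : 9 / (8 * π) = 3 * r ^ 2 := by rw [hr2]; ring
  rw [h8]
  nlinarith

end two

/-- three unit vectors in the plane. -/
lemma exists_unit3 : ∃ u : Fin 3 → EuclideanSpace ℝ (Fin 2), (∀ i, ‖u i‖ = 1) ∧
    ∑ i, u i = 0 := by
  have h3 : (√3 : ℝ) ^ 2 = 3 := Real.sq_sqrt (by norm_num)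
  refine ⟨![!₂[1, 0], !₂[-1 / 2, √3 / 2], !₂[-1 / 2, -(√3 / 2)]], ?_, ?_⟩
  · intro i
    fin_cases i
    · simp [EuclideanSpace.norm_eq]
    · simp [EuclideanSpace.norm_eq, Fin.sum_univ_two, div_pow, h3]
      norm_num
    · simp [EuclideanSpace.norm_eq, Fin.sum_univ_two, div_pow, h3]
      norm_num
  · ext i
    fin_cases i
    · simp [Fin.sum_univ_three]
      norm_num
    · simp [Fin.sum_univ_three]

lemma exists_isometry_le {m d : ℕ} (h : m ≤ d) :
    Nonempty (EuclideanSpace ℝ (Fin m) →ₗᵢ[ℝ] EuclideanSpace ℝ (Fin d)) := by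
  let v := (EuclideanSpace.basisFun (Fin m) ℝ).toBasis
  let f : EuclideanSpace ℝ (Fin m) →ₗ[ℝ] EuclideanSpace ℝ (Fin d) :=
    v.constr ℝ (fun i => EuclideanSpace.basisFun (Fin d) ℝ (Fin.castLE h i))
  have hv : Orthonormal ℝ v := by
    have := (EuclideanSpace.basisFun (Fin m) ℝ).orthonormal
    rwa [← OrthonormalBasis.coe_toBasis] at this
  have hf : Orthonormal ℝ (f ∘ v) := by
    have h1 : f ∘ v = (EuclideanSpace.basisFun (Fin d) ℝ) ∘ (Fin.castLE h) := by
      ext1 i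
      simp only [Function.comp_apply, f]
      rw [Module.Basis.constr_basis]
    rw [h1]
    exact (EuclideanSpace.basisFun (Fin d) ℝ).orthonormal.comp _ (Fin.castLE_injective h)
  exact ⟨f.isometryOfOrthonormal hv hf⟩

lemma Part.cons_empty {V : Type*} [MeasurableSpace V] {n : ℕ} {A : Fin n → Set V} (hA : Part A) :
    Part (Fin.cons ∅ A : Fin (n + 1) → Set V) := by
  refine ⟨fun i => ?_, ?_, ?_⟩
  · refine Fin.cases ?_ (fun j => ?_) i
    · simp
    · simpa using hA.meas j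
  · intro i j hij
    rcases Fin.eq_zero_or_eq_succ i with rfl | ⟨i, rfl⟩
    · simp [Function.onFun]
    · rcases Fin.eq_zero_or_eq_succ j with rfl | ⟨j, rfl⟩
      · simp [Function.onFun]
      · simp only [Function.onFun, Fin.cons_succ]
        exact hA.disj fun h => hij (by rw [h])
  · rw [← hA.cover]
    ext x
    simp only [Set.mem_iUnion]
    constructor
    · rintro ⟨i, hi⟩
      rcases Fin.eq_zero_or_eq_succ i with rfl | ⟨i, rfl⟩
      · simp at hi
      · exact ⟨i, by simpa using hi⟩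
    · rintro ⟨i, hi⟩
      exact ⟨i.succ, by simpa using hi⟩

/-- the value `9/(8π)` is reached for `d ≥ 2`, `k ≥ 3`. -/
theorem exists_propeller {d k : ℕ} (hd : 2 ≤ d) (hk : 3 ≤ k) :
    ∃ A : Fin k → Set (EuclideanSpace ℝ (Fin d)), Part A ∧
      9 / (8 * π) ≤ ∑ i, ‖mom (A i)‖ ^ 2 := by
  obtain ⟨u, hu, hsum⟩ := exists_unit3
  obtain ⟨A, hA, hF⟩ := exists_three (by simp) hu hsum
  obtain ⟨J⟩ := exists_isometry_le hd
  set T := ContinuousLinearMap.adjoint J.toContinuousLinearMap with hT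
  have hP : Part (fun i => T ⁻¹' A i) := by
    refine ⟨fun i => T.measurable (hA.meas i), ?_, ?_⟩
    · intro i j hij
      exact (hA.disj hij).preimage T
    · rw [← Set.preimage_iUnion, hA.cover, Set.preimage_univ]
  have h2 : ∑ i, ‖mom (A i)‖ ^ 2 ≤ ∑ i, ‖mom (T ⁻¹' A i)‖ ^ 2 :=
    Finset.sum_le_sum fun i _ =>
      pow_le_pow_left₀ (norm_nonneg _) (norm_mom_lift J (hA.meas i)) 2
  induction k, hk using Nat.le_induction with
  | base => exact ⟨_, hP, hF.trans h2⟩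
  | succ k hk ih =>
    obtain ⟨B, hB, hFB⟩ := ih
    refine ⟨_, hB.cons_empty, ?_⟩
    rw [Fin.sum_univ_succ]
    simpa [mom_empty] using hFB

end P226
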