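import Vale.Agent.P226.Chk

/-!
# P226, Step 7 : soundness of the box checker
-/

open Finset

namespace P226.Chk

/-- membership in a box. -/
def InB : List (ℤ × ℤ) → (ℕ → ℝ) → Prop
  | [], _ => True
  | b :: t, x => (0 ≤ b.1 ∧ (b.1 : ℝ) ≤ x 0 ∧ x 0 ≤ b.2) ∧ InB t (fun i => x (i + 1))

/-- the scaled numeric data. -/
structure Dat (p : Par) (n : ℕ) (x P : ℕ → ℝ) (X q : ℝ) : Prop where
  n4 : 4 ≤ n
  anti : ∀ i j, i ≤ j → j < n → x j ≤ x i
  pos : ∀ i < n, 0 < x i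
  Pn : ∀ i < n, 0 ≤ P i
  lines : ∀ l ∈ p.ls, ∀ i < n, (l.1 : ℝ) + l.2 * x i ≤ P i
  Bnn : ∀ l ∈ p.ls, 0 ≤ l.2
  βnn : 0 ≤ p.β
  kn0 : 0 ≤ p.kn
  kd0 : 0 ≤ p.kd
  X0 : 0 ≤ X
  q0 : 0 ≤ q
  qX : q ≤ X * x (n - 1)
  bud : ∑ i ∈ range n, (1000 * P i - p.β * x i ^ 2) + (7071000 - p.β * x (n - 1)) * X <
    100000000000 - p.β * Mlo
  m2 : (Mlo : ℝ) ≤ ∑ i ∈ range n, x i ^ 2 + q
  tot : ∑ i ∈ range n, P i + 7071 * X ≤ 100000000
  pl : ∀ b : ℕ, 3 ≤ b → b < n → ∃ (y : ℕ → ℝ) (D : ℝ), 0 ≤ D ∧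
    (∀ l < b, 0 ≤ y l ∧ y l ≤ x l ^ 2) ∧
    ∑ l ∈ range b, (x l ^ 2 - y l) ≤ ∑ j ∈ Ico b n, x j ^ 2 + q ∧
    y 2 * min (y 0) (y 1) - (y 2) ^ 2 / 4 ≤ D ^ 2 ∧
    (4 ≤ b → y 0 * min (y 1) (min (y 2) (y 3)) - (y 0) ^ 2 / 9 ≤ D ^ 2) ∧
    160 * ((b : ℝ) + 1) * b * p.kd * D * x b ^ 3 ≤ 4233 * p.kn *
      (16 * ((b : ℝ) + 1) ^ 4 * x b ^ 4 +
        24 * ((b : ℝ) + 1) ^ 2 * (∑ j ∈ Ico (b + 1) n, x j ^ 2 + q) * x b ^ 2 +
        3 * (∑ j ∈ Ico (b + 1) n, x j ^ 2 + q) ^ 2) ∧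
    10 * D ≤ 3175 * (2 * ((b : ℝ) + 1) ^ 2 * x b + ∑ j ∈ Ico (b + 1) n, x j + X)

/-! ### elementary lemmas on lists -/

lemma InB.congr {l : List (ℤ × ℤ)} {x y : ℕ → ℝ} (h : InB l x) (hxy : ∀ i, x i = y i) :
    InB l y := by
  have : x = y := funext hxy
  rwa [← this]

lemma InB.drop {l : List (ℤ × ℤ)} {x : ℕ → ℝ} (h : InB l x) (b : ℕ) :
    InB (l.drop b) (fun i => x (i + b)) := by
  induction b generalizing l x with
  | zero => simpa using h
  | succ b ih =>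
    cases l with
    | nil => simp [InB]
    | cons c t =>
      have h1 := ih h.2
      simp only [List.drop_succ_cons]
      refine h1.congr fun i => ?_
      congr 1

lemma InB.pos {l : List (ℤ × ℤ)} {x : ℕ → ℝ} (h : InB l x) {i : ℕ} (hi : i < l.length) :
    0 ≤ x i := by
  induction l generalizing x i with
  | nil => simp at hi
  | cons c t ih =>
    cases i with
    | zero =>
      have h1 : (0 : ℝ) ≤ c.1 := by exact_mod_cast h.1.1
      exact h1.trans h.1.2.1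
    | succ i => exact ih h.2 (by simpa using hi)

lemma InB.sq_le {l : List (ℤ × ℤ)} {x : ℕ → ℝ} (h : InB l x) :
    ∑ i ∈ range l.length, x i ^ 2 ≤ sqH l := by
  induction l generalizing x with
  | nil => simp [sqH]
  | cons c t ih =>
    rw [List.length_cons, Finset.sum_range_succ', sqH]
    push_cast
    have h1 := ih h.2
    have h2 : 0 ≤ x 0 := h.pos (i := 0) (by simp)
    nlinarith [h.1.2.2]

lemma InB.su_le {l : List (ℤ × ℤ)} {x : ℕ → ℝ} (h : InB l x) :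
    ∑ i ∈ range l.length, x i ≤ suH l := by
  induction l generalizing x with
  | nil => simp [suH]
  | cons c t ih =>
    rw [List.length_cons, Finset.sum_range_succ', suH]
    push_cast
    have h1 := ih h.2
    linarith [h.1.2.2]

lemma InB.la_le {l : List (ℤ × ℤ)} {x : ℕ → ℝ} (h : InB l x) (hl : l ≠ []) :
    x (l.length - 1) ≤ laH l := by
  induction l generalizing x with
  | nil => exact absurd rfl hl
  | cons c t ih =>
    cases t with
    | nil => simpa [laH] using h.1.2.2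
    | cons d t =>
      have h1 := ih h.2 (by simp)
      simpa [laH] using h1

/-! ### quadratic bounds -/

lemma conc {α β γ a b t : ℝ} (hα : α ≤ 0) (hat : a ≤ t) (htb : t ≤ b) :
    min (α * a ^ 2 + β * a + γ) (α * b ^ 2 + β * b + γ) ≤ α * t ^ 2 + β * t + γ := by
  rw [min_le_iff]
  by_cases h : 0 ≤ α * (t + a) + β
  · left
    nlinarith [mul_nonneg (sub_nonneg.mpr hat) h]
  · right
    push Not at h
    have h1 : α * (t + b) + β ≤ 0 := by nlinarith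
    nlinarith [mul_nonneg (sub_nonneg.mpr htb) (neg_nonneg.mpr h1)]

lemma fv_cast (β : ℤ) (l : ℤ × ℤ) (x : ℤ) :
    ((fv β l x : ℤ) : ℝ) = -β * (x : ℝ) ^ 2 + 1000 * l.2 * x + 1000 * l.1 := by
  unfold fv; push_cast; ring

lemma fF_le {β : ℤ} (hβ : 0 ≤ β) {ls : List (ℤ × ℤ)} {lo hi : ℤ} {x P : ℝ} (h0 : 0 ≤ lo)
    (h1 : lo ≤ x) (h2 : x ≤ hi) (hP : 0 ≤ P) (hl : ∀ l ∈ ls, (l.1 : ℝ) + l.2 * x ≤ P) :
    (fF β ls lo hi : ℝ) ≤ 1000 * P - β * x ^ 2 := by
  have hβ' : (0 : ℝ) ≤ β := by exact_mod_cast hβ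
  have h0' : (0 : ℝ) ≤ lo := by exact_mod_cast h0
  induction ls with
  | nil =>
    simp only [fF]
    push_cast
    have : x ^ 2 ≤ (hi : ℝ) ^ 2 := by
      have : 0 ≤ x := h0'.trans h1
      gcongr
    nlinarith
  | cons l ls ih =>
    simp only [fF]
    push_cast
    refine max_le (ih fun l hl' => hl l (List.mem_cons_of_mem _ hl')) ?_
    rw [fv_cast, fv_cast]
    refine (conc (by linarith) h1 h2).trans ?_
    have := hl l (List.mem_cons_self)
    linarith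

lemma pF_le {ls : List (ℤ × ℤ)} {lo : ℤ} {x P : ℝ}
    (h1 : lo ≤ x) (hP : 0 ≤ P) (hB : ∀ l ∈ ls, 0 ≤ l.2)
    (hl : ∀ l ∈ ls, (l.1 : ℝ) + l.2 * x ≤ P) :
    (pF ls lo : ℝ) ≤ P := by
  induction ls with
  | nil => simpa [pF] using hP
  | cons l ls ih =>
    simp only [pF]
    push_cast
    refine max_le (ih (fun l hl' => hB l (List.mem_cons_of_mem _ hl'))
      fun l hl' => hl l (List.mem_cons_of_mem _ hl')) ?_
    have h3 := hl l (List.mem_cons_self)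
    have h4 : (0 : ℝ) ≤ l.2 := by exact_mod_cast hB l (List.mem_cons_self)
    nlinarith

lemma suF_le {β : ℤ} (hβ : 0 ≤ β) {ls : List (ℤ × ℤ)} {l : List (ℤ × ℤ)} {x P : ℕ → ℝ}
    (h : InB l x) (hP : ∀ i < l.length, 0 ≤ P i)
    (hl : ∀ c ∈ ls, ∀ i < l.length, (c.1 : ℝ) + c.2 * x i ≤ P i) :
    (suF β ls l : ℝ) ≤ ∑ i ∈ range l.length, (1000 * P i - β * x i ^ 2) := by
  induction l generalizing x P with
  | nil => simp [suF]
  | cons b t ih =>
    rw [List.length_cons, Finset.sum_range_succ', suF]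
    push_cast
    have h1 := ih (x := fun i => x (i + 1)) (P := fun i => P (i + 1)) h.2
      (fun i hi => hP _ (by simpa using hi)) (fun c hc i hi => hl c hc _ (by simpa using hi))
    have h2 := fF_le hβ h.1.1 h.1.2.1 h.1.2.2 (hP 0 (by simp))
      (fun c hc => hl c hc 0 (by simp))
    linarith

lemma suP_le {ls : List (ℤ × ℤ)} {l : List (ℤ × ℤ)} {x P : ℕ → ℝ}
    (h : InB l x) (hP : ∀ i < l.length, 0 ≤ P i) (hB : ∀ c ∈ ls, 0 ≤ c.2)
    (hl : ∀ c ∈ ls, ∀ i < l.length, (c.1 : ℝ) + c.2 * x i ≤ P i) :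
    (suP ls l : ℝ) ≤ ∑ i ∈ range l.length, P i := by
  induction l generalizing x P with
  | nil => simp [suP]
  | cons b t ih =>
    rw [List.length_cons, Finset.sum_range_succ', suP]
    push_cast
    have h1 := ih (x := fun i => x (i + 1)) (P := fun i => P (i + 1)) h.2
      (fun i hi => hP _ (by simpa using hi)) (fun c hc i hi => hl c hc _ (by simpa using hi))
    have h2 := pF_le h.1.2.1 (hP 0 (by simp)) hB (fun c hc => hl c hc 0 (by simp))
    linarith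

/-! ### cuts -/

lemma cutH_length (i : ℕ) (m : ℤ) (l : List (ℤ × ℤ)) : (cutH i m l).length = l.length := by
  induction l generalizing i with
  | nil => cases i <;> simp [cutH]
  | cons b t ih => cases i <;> simp [cutH, ih]

lemma cutL_length (i : ℕ) (m : ℤ) (l : List (ℤ × ℤ)) : (cutL i m l).length = l.length := by
  induction l generalizing i with
  | nil => cases i <;> simp [cutL]
  | cons b t ih => cases i <;> simp [cutL, ih]

lemma InB.cutH {l : List (ℤ × ℤ)} {x : ℕ → ℝ} (h : InB l x) {i : ℕ} {m : ℤ}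
    (hm : ∀ j, i ≤ j → j < l.length → x j ≤ m) : InB (cutH i m l) x := by
  induction l generalizing x i with
  | nil => cases i <;> simp [Chk.cutH, InB]
  | cons b t ih =>
    cases i with
    | zero =>
      simp only [Chk.cutH]
      refine ⟨⟨h.1.1, h.1.2.1, ?_⟩, ih h.2 fun j _ hj => hm (j + 1) (by omega) (by simpa using hj)⟩
      push_cast
      exact le_min h.1.2.2 (hm 0 le_rfl (by simp))
    | succ i =>
      simp only [Chk.cutH]
      exact ⟨h.1, ih h.2 fun j hij hj => hm (j + 1) (by omega) (by simpa using hj)⟩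

lemma InB.cutL {l : List (ℤ × ℤ)} {x : ℕ → ℝ} (h : InB l x) {i : ℕ} {m : ℤ}
    (hm : ∀ j, j ≤ i → j < l.length → (m : ℝ) ≤ x j) : InB (cutL i m l) x := by
  induction l generalizing x i with
  | nil => cases i <;> simp [Chk.cutL, InB]
  | cons b t ih =>
    cases i with
    | zero =>
      simp only [Chk.cutL]
      refine ⟨⟨h.1.1.trans (le_max_left _ _), ?_, h.1.2.2⟩, h.2⟩
      push_cast
      exact max_le h.1.2.1 (hm 0 le_rfl (by simp))
    | succ i =>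
      simp only [Chk.cutL]
      refine ⟨⟨h.1.1.trans (le_max_left _ _), ?_, h.1.2.2⟩,
        ih h.2 fun j hij hj => hm (j + 1) (by omega) (by simpa using hj)⟩
      push_cast
      exact max_le h.1.2.1 (hm 0 (by omega) (by simp))

/-! ### the planar test -/

lemma gG_cast (c u v : ℤ) : ((gG c u v : ℤ) : ℝ) = 36 * u * v - c * v ^ 2 := by
  unfold gG; push_cast; ring

/-- the corner bound. -/
lemma dlow_le {c a b m U : ℤ} (hc : 0 ≤ c) {s e : ℝ} (h1 : a ≤ s) (h2 : s ≤ b) (h3 : 0 ≤ e)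
    (h4 : e ≤ U) : (dlow c a b m U : ℝ) ≤ 36 * (s - e) * (m - U + e) - c * (s - e) ^ 2 := by
  have hc' : (0 : ℝ) ≤ c := by exact_mod_cast hc
  have step : ∀ t : ℝ, min (36 * t * (m - U) - c * t ^ 2) (36 * (t - U) * m - c * (t - U) ^ 2) ≤
      36 * (t - e) * (m - U + e) - c * (t - e) ^ 2 := by
    intro t
    have := conc (α := -(36 + c)) (β := 36 * t - 36 * (m - U) + 2 * c * t)
      (γ := 36 * t * (m - U) - c * t ^ 2) (a := 0) (b := (U : ℝ)) (t := e)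
      (by linarith) h3 h4
    refine le_trans (le_of_eq ?_) (this.trans (le_of_eq ?_))
    · congr 1 <;> ring
    · ring
  have hs := conc (α := -(c : ℝ)) (β := 36 * (m - U + e) + 2 * c * e)
    (γ := -36 * e * (m - U + e) - c * e ^ 2) (a := (a : ℝ)) (b := (b : ℝ)) (t := s)
    (by linarith) h1 h2
  have ea : (-(c : ℝ)) * (a : ℝ) ^ 2 + (36 * (m - U + e) + 2 * c * e) * a +
      (-36 * e * (m - U + e) - c * e ^ 2) = 36 * (a - e) * (m - U + e) - c * (a - e) ^ 2 := by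
    ring
  have eb : (-(c : ℝ)) * (b : ℝ) ^ 2 + (36 * (m - U + e) + 2 * c * e) * b +
      (-36 * e * (m - U + e) - c * e ^ 2) = 36 * (b - e) * (m - U + e) - c * (b - e) ^ 2 := by
    ring
  have es : (-(c : ℝ)) * s ^ 2 + (36 * (m - U + e) + 2 * c * e) * s +
      (-36 * e * (m - U + e) - c * e ^ 2) = 36 * (s - e) * (m - U + e) - c * (s - e) ^ 2 := by
    ring
  rw [ea, eb, es] at hs
  refine le_trans ?_ hs
  unfold dlow
  push_cast
  simp only [gG_cast]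
  push_cast
  refine le_min ?_ ?_
  · refine le_trans (le_min ?_ ?_) (step a)
    · refine (min_le_right _ _).trans ((min_le_left _ _).trans (le_of_eq ?_))
      ring
    · refine (min_le_left _ _).trans ((min_le_left _ _).trans (le_of_eq ?_))
      ring
  · refine le_trans (le_min ?_ ?_) (step b)
    · refine (min_le_right _ _).trans ((min_le_right _ _).trans (le_of_eq ?_))
      ring
    · refine (min_le_left _ _).trans ((min_le_right _ _).trans (le_of_eq ?_))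
      ring

lemma sqlo {a x : ℝ} (ha : 0 ≤ a) (h : a ≤ x) : a * a ≤ x ^ 2 := by nlinarith

lemma sqhi {x b : ℝ} (hx : 0 ≤ x) (h : x ≤ b) : x ^ 2 ≤ b * b := by nlinarith

/-- lower bound for `36 D²`. -/
lemma dd_le {b : ℕ} {l : List (ℤ × ℤ)} {U : ℤ} {x y : ℕ → ℝ} {D : ℝ} (h : InB l x)
    (hlen : 4 ≤ l.length) (hb : 3 ≤ b)
    (hanti : ∀ i j, i ≤ j → j < 4 → x j ≤ x i)
    (hy : ∀ l < b, 0 ≤ y l ∧ y l ≤ x l ^ 2)
    (hsum : ∑ l ∈ range b, (x l ^ 2 - y l) ≤ U)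
    (hB1 : y 2 * min (y 0) (y 1) - (y 2) ^ 2 / 4 ≤ D ^ 2)
    (hB2 : 4 ≤ b → y 0 * min (y 1) (min (y 2) (y 3)) - (y 0) ^ 2 / 9 ≤ D ^ 2) :
    (dd b l U : ℝ) ≤ 36 * D ^ 2 := by
  match l, hlen, h with
  | p0 :: p1 :: p2 :: p3 :: t, _, h =>
    obtain ⟨⟨a0, a1, a2⟩, ⟨b0, b1, b2⟩, ⟨c0, c1, c2⟩, ⟨d0, d1, d2⟩, -⟩ := h
    simp only [zero_add, Nat.reduceAdd] at a1 a2 b1 b2 c1 c2 d1 d2
    have a0' : (0 : ℝ) ≤ p0.1 := by exact_mod_cast a0
    have b0' : (0 : ℝ) ≤ p1.1 := by exact_mod_cast b0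
    have c0' : (0 : ℝ) ≤ p2.1 := by exact_mod_cast c0
    have d0' : (0 : ℝ) ≤ p3.1 := by exact_mod_cast d0
    have x01 := hanti 0 1 (by norm_num) (by norm_num)
    have x13 := hanti 1 3 (by norm_num) (by norm_num)
    have x23 := hanti 2 3 (by norm_num) (by norm_num)
    have hy0 := hy 0 (by omega)
    have hy1 := hy 1 (by omega)
    have hy2 := hy 2 (by omega)
    -- deficits
    have hdef : ∀ S ⊆ range b, ∑ l ∈ S, (x l ^ 2 - y l) ≤ U := fun S hS =>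
      (Finset.sum_le_sum_of_subset_of_nonneg hS fun i hi _ => by
        have := (hy i (Finset.mem_range.mp hi)).2
        linarith).trans hsum
    have hdef3 : (x 0 ^ 2 - y 0) + (x 1 ^ 2 - y 1) + (x 2 ^ 2 - y 2) ≤ U := by
      have := hdef (range 3) (Finset.range_subset_range.mpr hb)
      rw [Finset.sum_range_succ, Finset.sum_range_succ, Finset.sum_range_succ,
        Finset.sum_range_zero, zero_add] at this
      exact this
    have D1 : ((dlow 9 (p2.1 * p2.1) (p2.2 * p2.2) (p1.1 * p1.1) U : ℤ) : ℝ) ≤ 36 * D ^ 2 := by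
      have h1 := dlow_le (c := 9) (a := p2.1 * p2.1) (b := p2.2 * p2.2) (m := p1.1 * p1.1) (U := U)
        (by norm_num) (s := x 2 ^ 2) (e := x 2 ^ 2 - y 2)
        (by push_cast; exact sqlo c0' c1) (by push_cast; exact sqhi (c0'.trans c1) c2)
        (by linarith) (by linarith)
      refine h1.trans ?_
      have s1 := sqlo b0' b1
      have s0 : x 1 ^ 2 ≤ x 0 ^ 2 := by
        have := b0'.trans b1
        gcongr
      have h2 : (p1.1 : ℝ) * p1.1 - U + (x 2 ^ 2 - y 2) ≤ min (y 0) (y 1) := by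
        refine le_min ?_ ?_
        · linarith
        · linarith
      have h3 := mul_le_mul_of_nonneg_left h2 hy2.1
      push_cast
      rw [sub_sub_cancel]
      nlinarith
    have D2 : 4 ≤ b → ((dlow 4 (p0.1 * p0.1) (p0.2 * p0.2) (p3.1 * p3.1) U : ℤ) : ℝ) ≤
        36 * D ^ 2 := by
      intro hb4
      have hy3 := hy 3 (by omega)
      have hdef4 : (x 0 ^ 2 - y 0) + (x 1 ^ 2 - y 1) + (x 2 ^ 2 - y 2) + (x 3 ^ 2 - y 3) ≤ U := by
        have := hdef (range 4) (Finset.range_subset_range.mpr hb4)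
        rw [Finset.sum_range_succ, Finset.sum_range_succ, Finset.sum_range_succ,
          Finset.sum_range_succ, Finset.sum_range_zero, zero_add] at this
        exact this
      have h1 := dlow_le (c := 4) (a := p0.1 * p0.1) (b := p0.2 * p0.2) (m := p3.1 * p3.1) (U := U)
        (by norm_num) (s := x 0 ^ 2) (e := x 0 ^ 2 - y 0)
        (by push_cast; exact sqlo a0' a1) (by push_cast; exact sqhi (a0'.trans a1) a2)
        (by linarith) (by linarith)
      refine h1.trans ?_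
      have s3 := sqlo d0' d1
      have x3 := d0'.trans d1
      have s31 : x 3 ^ 2 ≤ x 1 ^ 2 := by gcongr
      have s32 : x 3 ^ 2 ≤ x 2 ^ 2 := by gcongr
      have h2 : (p3.1 : ℝ) * p3.1 - U + (x 0 ^ 2 - y 0) ≤ min (y 1) (min (y 2) (y 3)) := by
        refine le_min ?_ (le_min ?_ ?_)
        · linarith
        · linarith
        · linarith
      have h3 := mul_le_mul_of_nonneg_left h2 hy0.1
      have h4 := hB2 hb4
      push_cast
      rw [sub_sub_cancel]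
      nlinarith
    simp only [dd]
    split_ifs with hb4
    · push_cast
      exact max_le D1 (D2 hb4)
    · exact D1

/-- convexity in `σ_b`: if the test fails at both ends it fails inside. -/
lemma rR_le {b : ℝ} {q K lo hi x : ℝ} (hb : 0 ≤ b) (hq : 0 ≤ q) (hlo : 0 < lo)
    (h1 : lo ≤ x) (h2 : x ≤ hi)
    (ha : 16 * (b + 1) ^ 4 * lo ^ 4 + 24 * (b + 1) ^ 2 * q * lo ^ 2 + 3 * q ^ 2 < K * lo ^ 3)
    (hb' : 16 * (b + 1) ^ 4 * hi ^ 4 + 24 * (b + 1) ^ 2 * q * hi ^ 2 + 3 * q ^ 2 < K * hi ^ 3) :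
    16 * (b + 1) ^ 4 * x ^ 4 + 24 * (b + 1) ^ 2 * q * x ^ 2 + 3 * q ^ 2 < K * x ^ 3 := by
  have hx : 0 < x := hlo.trans_le h1
  have hhi : 0 < hi := hx.trans_le h2
  have key : ∀ u : ℝ, 0 < u →
      (16 * (b + 1) ^ 4 * u ^ 4 + 24 * (b + 1) ^ 2 * q * u ^ 2 + 3 * q ^ 2 < K * u ^ 3 ↔
        16 * (b + 1) ^ 4 * u + 24 * (b + 1) ^ 2 * q * u⁻¹ + 3 * q ^ 2 * (u⁻¹) ^ 3 < K) := by
    intro u hu
    have : (16 * (b + 1) ^ 4 * u + 24 * (b + 1) ^ 2 * q * u⁻¹ + 3 * q ^ 2 * (u⁻¹) ^ 3) * u ^ 3 =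
        16 * (b + 1) ^ 4 * u ^ 4 + 24 * (b + 1) ^ 2 * q * u ^ 2 + 3 * q ^ 2 := by
      field_simp
    rw [← this]
    exact mul_lt_mul_iff_left₀ (pow_pos hu 3)
  rw [key lo hlo] at ha
  rw [key hi hhi] at hb'
  rw [key x hx]
  -- convexity in u
  set f : ℝ → ℝ := fun u => 16 * (b + 1) ^ 4 * u + 24 * (b + 1) ^ 2 * q * u⁻¹ +
    3 * q ^ 2 * (u⁻¹) ^ 3 with hf
  have hconv : ConvexOn ℝ (Set.Ioi (0 : ℝ)) f := by
    have c1 : ConvexOn ℝ (Set.Ioi (0 : ℝ)) (fun u : ℝ => u ^ (-1 : ℤ)) := convexOn_zpow (-1)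
    have c3 : ConvexOn ℝ (Set.Ioi (0 : ℝ)) (fun u : ℝ => u ^ (-3 : ℤ)) := convexOn_zpow (-3)
    have c0 : ConvexOn ℝ (Set.Ioi (0 : ℝ)) (fun u : ℝ => u) := convexOn_id (convex_Ioi 0)
    have hs := ((c0.smul (c := 16 * (b + 1) ^ 4) (by positivity)).add
      (c1.smul (c := 24 * (b + 1) ^ 2 * q) (by positivity))).add
      (c3.smul (c := 3 * q ^ 2) (by positivity))
    refine hs.congr fun u hu => ?_
    have hu' : (0 : ℝ) < u := hu
    simp only [hf, Pi.add_apply, smul_eq_mul, zpow_neg, zpow_one]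
    norm_num
  have h3 := hconv.le_max_of_mem_Icc hlo hhi ⟨h1, h2⟩
  exact h3.trans_lt (max_lt ha hb')

/-! ### leaves -/

variable {p : Par} {n : ℕ} {x P : ℕ → ℝ} {X q : ℝ}

lemma ckBud_sound (h : Dat p n x P X q) {b : Bx} (hn : b.l.length = n) (hb : InB b.l x)
    (h0 : 0 ≤ b.xl) (h1 : b.xl ≤ X) (hc : ckBud p b = true) : False := by
  unfold ckBud at hc
  rw [Bool.and_eq_true, decide_eq_true_eq, decide_eq_true_eq] at hc
  obtain ⟨c1, c2⟩ := hc
  have c1' : (0 : ℝ) ≤ 7071000 - p.β * laH b.l := by exact_mod_cast c1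
  have c2' : (100000000000 : ℝ) - p.β * Mlo ≤ suF p.β p.ls b.l +
      (7071000 - p.β * laH b.l) * b.xl := by exact_mod_cast c2
  have e1 := suF_le (ls := p.ls) h.βnn hb (hn ▸ h.Pn) (hn ▸ h.lines)
  rw [hn] at e1
  have hne : b.l ≠ [] := by
    intro h'
    rw [h'] at hn
    have := h.n4
    simp at hn
    omega
  have e2 := hb.la_le hne
  rw [hn] at e2
  have hβ : (0 : ℝ) ≤ p.β := by exact_mod_cast h.βnn
  have h0' : (0 : ℝ) ≤ b.xl := by exact_mod_cast h0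
  have e3 : (7071000 - p.β * laH b.l) * (b.xl : ℝ) ≤ (7071000 - p.β * x (n - 1)) * X := by
    have e4 : 7071000 - p.β * (laH b.l : ℝ) ≤ 7071000 - p.β * x (n - 1) := by nlinarith
    exact mul_le_mul e4 h1 h0' (c1'.trans e4)
  have := h.bud
  linarith

lemma q_le (h : Dat p n x P X q) {b : Bx} (hn : b.l.length = n) (hb : InB b.l x)
    (h2 : X ≤ b.xh) : q ≤ b.xh * laH b.l := by
  have hne : b.l ≠ [] := by
    intro h'
    rw [h'] at hn
    have := h.n4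
    simp at hn
    omega
  have e2 := hb.la_le hne
  rw [hn] at e2
  have e3 : 0 ≤ x (n - 1) := (h.pos _ (by have := h.n4; omega)).le
  calc q ≤ X * x (n - 1) := h.qX
    _ ≤ b.xh * laH b.l := mul_le_mul h2 e2 e3 (h.X0.trans h2)

lemma ckM_sound (h : Dat p n x P X q) {b : Bx} (hn : b.l.length = n) (hb : InB b.l x)
    (h2 : X ≤ b.xh) (hc : ckM b = true) : False := by
  unfold ckM at hc
  rw [decide_eq_true_eq] at hc
  have hc' : (sqH b.l : ℝ) + b.xh * laH b.l < Mlo := by exact_mod_cast hc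
  have e1 := hb.sq_le
  rw [hn] at e1
  have e2 := q_le h hn hb h2
  have := h.m2
  linarith

lemma ckP_sound (h : Dat p n x P X q) {b : Bx} (hn : b.l.length = n) (hb : InB b.l x)
    (h1 : b.xl ≤ X) (hc : ckP p b = true) : False := by
  unfold ckP at hc
  rw [decide_eq_true_eq] at hc
  have hc' : (100000000 : ℝ) < suP p.ls b.l + 7071 * b.xl := by exact_mod_cast hc
  have e1 := suP_le (ls := p.ls) hb (hn ▸ h.Pn) h.Bnn (hn ▸ h.lines)
  rw [hn] at e1
  have := h.tot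
  linarith

lemma vP_spec {b D Q x : ℤ} (hc : vP p b D Q x = true) : 0 < x ∧
    9 * 4233 ^ 2 * p.kn ^ 2 * rR b Q x ^ 2 < D * (6400 * (b + 1) ^ 2 * b ^ 2 * p.kd ^ 2 * x ^ 6) := by
  unfold vP at hc
  rw [Bool.and_eq_true, decide_eq_true_eq, decide_eq_true_eq] at hc
  exact hc

lemma rR_cast (b Q x : ℤ) : ((rR b Q x : ℤ) : ℝ) =
    16 * ((b : ℝ) + 1) ^ 4 * (x : ℝ) ^ 4 + 24 * ((b : ℝ) + 1) ^ 2 * Q * (x : ℝ) ^ 2 +
      3 * (Q : ℝ) ^ 2 := by
  unfold rR; push_cast; ring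

/-- one endpoint of (P): from the integer test to the real inequality. -/
lemma vP_real {b : ℕ} {D' Q x' : ℤ} {D q' : ℝ} (hkn : 0 ≤ p.kn) (hkd : 0 ≤ p.kd) (hD : 0 ≤ D)
    (hD' : (D' : ℝ) ≤ 36 * D ^ 2) (hq0 : 0 ≤ q') (hq : q' ≤ Q)
    (hc : vP p b D' Q x' = true) : (0 : ℝ) < x' ∧
    (4233 * p.kn) * (16 * ((b : ℝ) + 1) ^ 4 * (x' : ℝ) ^ 4 + 24 * ((b : ℝ) + 1) ^ 2 * q' *
      (x' : ℝ) ^ 2 + 3 * q' ^ 2) < 160 * ((b : ℝ) + 1) * b * p.kd * D * (x' : ℝ) ^ 3 := by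
  obtain ⟨c1, c2⟩ := vP_spec hc
  have c1' : (0 : ℝ) < x' := by exact_mod_cast c1
  refine ⟨c1', ?_⟩
  have c2' : (9 : ℝ) * 4233 ^ 2 * p.kn ^ 2 * (16 * ((b : ℝ) + 1) ^ 4 * (x' : ℝ) ^ 4 +
      24 * ((b : ℝ) + 1) ^ 2 * Q * (x' : ℝ) ^ 2 + 3 * (Q : ℝ) ^ 2) ^ 2 <
      D' * (6400 * ((b : ℝ) + 1) ^ 2 * (b : ℝ) ^ 2 * p.kd ^ 2 * (x' : ℝ) ^ 6) := by
    have := (Int.cast_lt (R := ℝ)).mpr c2
    push_cast [rR_cast] at this
    have e0 : (9 : ℝ) * 4233 ^ 2 = 161264601 := by norm_num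
    rw [e0]
    exact this
  have hkn' : (0 : ℝ) ≤ p.kn := by exact_mod_cast hkn
  have hkd' : (0 : ℝ) ≤ p.kd := by exact_mod_cast hkd
  set R := 16 * ((b : ℝ) + 1) ^ 4 * (x' : ℝ) ^ 4 + 24 * ((b : ℝ) + 1) ^ 2 * q' *
      (x' : ℝ) ^ 2 + 3 * q' ^ 2 with hR
  set R' := 16 * ((b : ℝ) + 1) ^ 4 * (x' : ℝ) ^ 4 + 24 * ((b : ℝ) + 1) ^ 2 * Q *
      (x' : ℝ) ^ 2 + 3 * (Q : ℝ) ^ 2 with hR'
  have hR0 : 0 ≤ R := by positivity
  have hRR : R ≤ R' := by
    rw [hR, hR']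
    gcongr
  refine lt_of_pow_lt_pow_left₀ 2 (by positivity) ?_
  have e1 : (D' : ℝ) * (6400 * ((b : ℝ) + 1) ^ 2 * (b : ℝ) ^ 2 * p.kd ^ 2 * (x' : ℝ) ^ 6) ≤
      36 * D ^ 2 * (6400 * ((b : ℝ) + 1) ^ 2 * (b : ℝ) ^ 2 * p.kd ^ 2 * (x' : ℝ) ^ 6) :=
    mul_le_mul_of_nonneg_right hD' (by positivity)
  have e2 : R ^ 2 ≤ R' ^ 2 := by gcongr
  have e3 : (9 : ℝ) * 4233 ^ 2 * p.kn ^ 2 * R ^ 2 ≤ 9 * 4233 ^ 2 * p.kn ^ 2 * R' ^ 2 := by
    gcongr
  have e4 : (9 : ℝ) * (4233 * p.kn * R) ^ 2 = 9 * 4233 ^ 2 * p.kn ^ 2 * R ^ 2 := by ring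
  have e5 : (9 : ℝ) * (160 * ((b : ℝ) + 1) * b * p.kd * D * (x' : ℝ) ^ 3) ^ 2 =
      36 * D ^ 2 * (6400 * ((b : ℝ) + 1) ^ 2 * (b : ℝ) ^ 2 * p.kd ^ 2 * (x' : ℝ) ^ 6) := by ring
  linarith

lemma ckPl_sound (h : Dat p n x P X q) {b : ℕ} (hb3 : 3 ≤ b) {bx : Bx} (hn : bx.l.length = n)
    (hb : InB bx.l x) (h2 : X ≤ bx.xh) (hc : ckPl p b bx = true) : False := by
  unfold ckPl at hc
  have hdrop := hb.drop b
  have hlen : (bx.l.drop b).length = n - b := by rw [List.length_drop, hn]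
  cases hdr : bx.l.drop b with
  | nil => rw [hdr] at hc; simp at hc
  | cons pb rest =>
    rw [hdr] at hc hdrop hlen
    simp only at hc
    set Q := sqH rest + bx.xh * laH bx.l with hQ
    set D' := dd b bx.l (pb.2 * pb.2 + Q) with hD'
    rw [Bool.and_eq_true, decide_eq_true_eq, Bool.or_eq_true, Bool.and_eq_true,
      decide_eq_true_eq] at hc
    obtain ⟨hD0, hc⟩ := hc
    have hbn : b < n := by
      rw [List.length_cons] at hlen
      omega
    have hrl : rest.length = n - (b + 1) := by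
      rw [List.length_cons] at hlen
      omega
    obtain ⟨y, D, hDnn, hy, hsum, hB1, hB2, hP, hF⟩ := h.pl b hb3 hbn
    have hxb : 0 < x b := h.pos b hbn
    have hb1 : (pb.1 : ℝ) ≤ x b := by simpa using hdrop.1.2.1
    have hb2 : x b ≤ pb.2 := by simpa using hdrop.1.2.2
    have hrest : InB rest (fun i => x (b + 1 + i)) := hdrop.2.congr fun i => by
      show x (i + 1 + b) = x (b + 1 + i)
      rw [show i + 1 + b = b + 1 + i by ring]
    have hq := q_le h hn hb h2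
    have hQr : ∑ j ∈ Ico (b + 1) n, x j ^ 2 + q ≤ Q := by
      have e1 := hrest.sq_le
      rw [hrl] at e1
      rw [Finset.sum_Ico_eq_sum_range, hQ]
      push_cast
      linarith
    have hS0 : 0 ≤ ∑ j ∈ Ico (b + 1) n, x j ^ 2 + q :=
      add_nonneg (Finset.sum_nonneg fun j _ => sq_nonneg _) h.q0
    have hU : ∑ l ∈ range b, (x l ^ 2 - y l) ≤ ((pb.2 * pb.2 + Q : ℤ) : ℝ) := by
      refine hsum.trans ?_
      rw [Finset.sum_eq_sum_Ico_succ_bot hbn]
      push_cast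
      have := sqhi hxb.le hb2
      linarith
    have hdd : (D' : ℝ) ≤ 36 * D ^ 2 := dd_le hb (by rw [hn]; exact h.n4) hb3
      (fun i j hij hj => h.anti i j hij (lt_of_lt_of_le hj h.n4)) hy hU hB1 hB2
    rcases hc with ⟨v1, v2⟩ | hc
    · obtain ⟨w1, w2⟩ := vP_real h.kn0 h.kd0 hDnn hdd hS0 hQr v1
      obtain ⟨w3, w4⟩ := vP_real h.kn0 h.kd0 hDnn hdd hS0 hQr v2
      set q' := ∑ j ∈ Ico (b + 1) n, x j ^ 2 + q with hq'
      have hkn' : (0 : ℝ) ≤ p.kn := by exact_mod_cast h.kn0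
      rcases hkn'.eq_or_lt with hz | hkpos
      · -- kn = 0
        rw [← hz] at hP w2
        have z1 : 160 * ((b : ℝ) + 1) * b * p.kd * D * x b ^ 3 ≤ 0 := by simpa using hP
        have z2 : 0 < 160 * ((b : ℝ) + 1) * b * p.kd * D * (pb.1 : ℝ) ^ 3 := by simpa using w2
        have z3 : 0 < 160 * ((b : ℝ) + 1) * b * p.kd * D :=
          (pos_iff_pos_of_mul_pos z2).mpr (pow_pos w1 3)
        have z4 := mul_pos z3 (pow_pos hxb 3)
        linarith
      · set K : ℝ := 160 * ((b : ℝ) + 1) * b * p.kd * D / (4233 * p.kn) with hK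
        have hc0 : (0 : ℝ) < 4233 * p.kn := by positivity
        have conv : ∀ u : ℝ, (4233 * p.kn) * (16 * ((b : ℝ) + 1) ^ 4 * u ^ 4 +
            24 * ((b : ℝ) + 1) ^ 2 * q' * u ^ 2 + 3 * q' ^ 2) <
            160 * ((b : ℝ) + 1) * b * p.kd * D * u ^ 3 ↔
            16 * ((b : ℝ) + 1) ^ 4 * u ^ 4 +
            24 * ((b : ℝ) + 1) ^ 2 * q' * u ^ 2 + 3 * q' ^ 2 < K * u ^ 3 := by
          intro u
          rw [hK, div_mul_eq_mul_div, lt_div_iff₀ hc0, mul_comm (4233 * (p.kn : ℝ))]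
        have := rR_le (b := (b : ℝ)) (Nat.cast_nonneg b) hS0 w1 hb1 hb2
          ((conv _).mp w2) ((conv _).mp w4)
        rw [← conv] at this
        linarith
    · have hc' : (36 : ℝ) * 3175 ^ 2 * (2 * ((b : ℝ) + 1) ^ 2 * pb.2 + suH rest + bx.xh) ^ 2 <
          100 * D' := by exact_mod_cast hc
      have e1 := hrest.su_le
      rw [hrl] at e1
      rw [Finset.sum_Ico_eq_sum_range] at hF
      have e2 : 10 * D ≤ 3175 * (2 * ((b : ℝ) + 1) ^ 2 * pb.2 + suH rest + bx.xh) := by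
        refine hF.trans ?_
        gcongr
      have e3 : (10 * D) ^ 2 ≤
          (3175 * (2 * ((b : ℝ) + 1) ^ 2 * pb.2 + suH rest + bx.xh)) ^ 2 := by
        gcongr
      nlinarith

theorem leafOk_sound (h : Dat p n x P X q) {c : ℕ} {b : Bx} (hn : b.l.length = n)
    (hb : InB b.l x) (h0 : 0 ≤ b.xl) (h1 : b.xl ≤ X) (h2 : X ≤ b.xh)
    (hc : leafOk p c b = true) : False := by
  match c with
  | 0 => exact ckBud_sound h hn hb h0 h1 hc
  | 1 => exact ckM_sound h hn hb h2 hc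
  | 2 => exact ckP_sound h hn hb h1 hc
  | c + 3 => exact ckPl_sound h (by omega) hn hb h2 hc

/-- soundness of the checker. -/
theorem check_sound (h : Dat p n x P X q) (t : T) (b : Bx) (hc : check p t b = true)
    (hn : b.l.length = n) (hb : InB b.l x) (h0 : 0 ≤ b.xl) (h1 : b.xl ≤ X) (h2 : X ≤ b.xh) :
    False := by
  induction t generalizing b with
  | f c => exact leafOk_sound h hn hb h0 h1 h2 hc
  | n i m l r ihl ihr =>
    rw [check, Bool.and_eq_true] at hc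
    by_cases hi : i < b.l.length
    · rcases le_total (x i) m with hm | hm
      · refine ihl _ hc.1 (by rw [cutH_length]; exact hn) (hb.cutH fun j hij hj => ?_) h0 h1 h2
        push_cast
        exact (h.anti i j hij (hn ▸ hj)).trans hm
      · refine ihr _ hc.2 (by rw [cutL_length]; exact hn) (hb.cutL fun j hij hj => ?_) h0 h1 h2
        push_cast
        exact hm.trans (h.anti j i hij (hn ▸ hi))
    · refine ihl _ hc.1 (by rw [cutH_length]; exact hn) (hb.cutH fun j hij hj => ?_) h0 h1 h2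
      omega
  | x m l r ihl ihr =>
    rw [check, Bool.and_eq_true] at hc
    rcases le_total X m with hm | hm
    · refine ihl _ hc.1 hn hb h0 h1 ?_
      push_cast
      exact le_min h2 hm
    · refine ihr _ hc.2 hn hb (h0.trans (le_max_left _ _)) ?_ h2
      push_cast
      exact max_le h1 hm

end P226.Chk
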